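import Vale.Agent.P137.Defs

/-!
Smooth nonnegative approximation of the modulus of a Sobolev function.
-/

namespace Vale.Agent.P137

open MeasureTheory Metric Set Filter Topology
open scoped ENNReal NNReal ContDiff RealInnerProductSpace Convolution

noncomputable section

variable {d : ℕ}

/-! ### Mollification -/

/-- Convolution with a normalised bump function. -/
def mollify {F : Type*} [NormedAddCommGroup F] [NormedSpace ℝ F] (ρ : ContDiffBump (0 : E d))
    (f : E d → F) : E d → F :=
  ρ.normed volume ⋆[ContinuousLinearMap.lsmul ℝ ℝ, volume] f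

section Mollify

variable {F : Type*} [NormedAddCommGroup F] [NormedSpace ℝ F]
  (ρ : ContDiffBump (0 : E d))

lemma integrable_mollify {f : E d → F} (hf : Integrable f) : Integrable (mollify ρ f) :=
  Integrable.integrable_convolution _ ρ.integrable_normed hf

lemma contDiff_mollify [CompleteSpace F] {f : E d → F} (hf : Integrable f) :
    ContDiff ℝ ∞ (mollify ρ f) :=
  ρ.hasCompactSupport_normed.contDiff_convolution_left _ ρ.contDiff_normed hf.locallyIntegrable

lemma convolutionExistsAt_mollify {f : E d → F} (hf : Integrable f) (x : E d) :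
    ConvolutionExistsAt (ρ.normed volume) f x (ContinuousLinearMap.lsmul ℝ ℝ) volume :=
  ρ.hasCompactSupport_normed.convolutionExists_left _ ρ.continuous_normed hf.locallyIntegrable x

lemma norm_mollify_sub_le {f u : E d → F} (hf : Integrable f) (hu : Integrable u) (x : E d) :
    ‖mollify ρ f x - mollify ρ u x‖ ≤ mollify ρ (fun z => ‖f z - u z‖) x := by
  have hi := convolutionExistsAt_mollify ρ hf x
  have hj := convolutionExistsAt_mollify ρ hu x
  simp only [ConvolutionExistsAt] at hi hj
  simp only [mollify, convolution_def]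
  rw [← integral_sub hi hj]
  refine (norm_integral_le_integral_norm _).trans_eq (integral_congr_ae (.of_forall fun t => ?_))
  simp only [ContinuousLinearMap.lsmul_apply]
  rw [← smul_sub, norm_smul, Real.norm_eq_abs, abs_of_nonneg (ρ.nonneg_normed t)]
  rfl

lemma integral_mollify {f : E d → ℝ} (hf : Integrable f) :
    ∫ x, mollify ρ f x = ∫ x, f x := by
  rw [mollify, integral_convolution _ ρ.integrable_normed hf]
  simp [ρ.integral_normed]

end Mollify

/-- A sequence of bump functions concentrating at the origin. -/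
def bump (n : ℕ) : ContDiffBump (0 : E d) where
  rIn := 1 / (2 * ((n : ℝ) + 1))
  rOut := 1 / ((n : ℝ) + 1)
  rIn_pos := by positivity
  rIn_lt_rOut := by
    have : (0 : ℝ) < (n : ℝ) + 1 := by positivity
    gcongr
    linarith

lemma tendsto_rOut_bump : Tendsto (fun n => (bump (d := d) n).rOut) atTop (𝓝 0) :=
  tendsto_one_div_add_atTop_nhds_zero_nat

lemma rOut_bump_le (n : ℕ) : (bump (d := d) n).rOut ≤ 1 := by
  show 1 / ((n : ℝ) + 1) ≤ 1
  rw [div_le_one (by positivity)]
  linarith [Nat.cast_nonneg (α := ℝ) n]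

/-- Mollifications converge in `L¹`. -/
lemma tendsto_mollify {F : Type*} [NormedAddCommGroup F] [NormedSpace ℝ F] [CompleteSpace F]
    {f : E d → F} (hf : Integrable f) :
    Tendsto (fun n => ∫ x, ‖mollify (bump n) f x - f x‖) atTop (𝓝 0) := by
  refine Metric.tendsto_atTop.2 fun ε hε => ?_
  obtain ⟨u, hus, hfu, huc, hui⟩ :=
    hf.exists_hasCompactSupport_integral_sub_le (show (0 : ℝ) < ε / 3 by positivity)
  obtain ⟨R, hR0, hR⟩ := hus.isCompact.isBounded.subset_closedBall_lt 0 0
  obtain ⟨C, hC⟩ := hus.exists_bound_of_continuous huc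
  have hC0 : 0 ≤ C := (norm_nonneg _).trans (hC 0)
  have hdom : Integrable ((closedBall (0 : E d) (R + 1)).indicator fun _ => C + C) :=
    (integrableOn_const (measure_closedBall_lt_top.ne)).integrable_indicator
      measurableSet_closedBall
  have hu0 : Tendsto (fun n => ∫ x, ‖mollify (bump n) u x - u x‖) atTop (𝓝 (∫ _x : E d, (0 : ℝ))) := by
    refine tendsto_integral_of_dominated_convergence _
      (fun n => ((integrable_mollify _ hui).sub hui).norm.aestronglyMeasurable) hdom (fun n => ?_) ?_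
    · refine .of_forall fun x => ?_
      rw [Real.norm_eq_abs, abs_of_nonneg (norm_nonneg _)]
      by_cases hx : x ∈ closedBall (0 : E d) (R + 1)
      · rw [indicator_of_mem hx]
        refine (norm_sub_le _ _).trans (add_le_add ?_ (hC x))
        simp only [mollify, convolution_def]
        refine (norm_integral_le_of_norm_le ((bump n).integrable_normed.mul_const C)
          (.of_forall fun t => ?_)).trans_eq ?_
        · simp only [ContinuousLinearMap.lsmul_apply]
          rw [norm_smul, Real.norm_eq_abs, abs_of_nonneg ((bump n).nonneg_normed t)]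
          exact mul_le_mul_of_nonneg_left (hC _) ((bump n).nonneg_normed t)
        · rw [integral_mul_const, (bump n).integral_normed, one_mul]
      · rw [indicator_of_notMem hx]
        simp only [mem_closedBall, dist_zero_right, not_le] at hx
        have hzero : ∀ y ∈ ball x (bump (d := d) n).rOut, u y = 0 := by
          intro y hy
          by_contra h0
          have h1 := hR (subset_tsupport _ h0)
          simp only [mem_closedBall, dist_zero_right] at h1
          rw [mem_ball, dist_eq_norm] at hy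
          have h2 := rOut_bump_le (d := d) n
          have h3 := norm_le_norm_add_norm_sub' x y
          rw [norm_sub_rev] at h3
          linarith
        have hx0 : u x = 0 := hzero x (mem_ball_self (bump n).rOut_pos)
        have : mollify (bump n) u x = u x :=
          (bump n).normed_convolution_eq_right (μ := volume) (fun y hy => by rw [hzero y hy, hx0])
        simp [this]
    · refine .of_forall fun x => ?_
      have := (ContDiffBump.convolution_tendsto_right_of_continuous (μ := volume)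
        (tendsto_rOut_bump (d := d)) huc x).sub_const (u x)
      simpa [mollify] using this.norm
  rw [integral_zero] at hu0
  obtain ⟨N, hN⟩ := Metric.tendsto_atTop.1 hu0 (ε / 3) (by positivity)
  refine ⟨N, fun n hn => ?_⟩
  have h2 := hN n hn
  rw [dist_zero_right, Real.norm_eq_abs, abs_of_nonneg (integral_nonneg fun _ => norm_nonneg _)]
    at h2 ⊢
  have i1 : Integrable (fun x => mollify (bump n) (fun z => ‖f z - u z‖) x) :=
    integrable_mollify _ (hf.sub hui).norm
  have i2 : Integrable (fun x => ‖mollify (bump n) u x - u x‖) :=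
    ((integrable_mollify _ hui).sub hui).norm
  have i3 : Integrable (fun x => ‖f x - u x‖) := (hf.sub hui).norm
  have hle : ∫ x, ‖mollify (bump n) f x - f x‖ ≤ ∫ x,
      (mollify (bump n) (fun z => ‖f z - u z‖) x + ‖mollify (bump n) u x - u x‖ + ‖f x - u x‖) := by
    refine integral_mono (((integrable_mollify _ hf).sub hf).norm) ((i1.add i2).add i3) fun x => ?_
    have h1 := norm_mollify_sub_le (bump n) hf hui x
    have h3 := norm_sub_le_norm_sub_add_norm_sub (mollify (bump n) f x) (mollify (bump n) u x) (f x)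
    have h4 := norm_sub_le_norm_sub_add_norm_sub (mollify (bump n) u x) (u x) (f x)
    rw [norm_sub_rev (u x) (f x)] at h4
    show ‖mollify (bump n) f x - f x‖ ≤ _
    linarith
  have ha := integral_add (i1.add i2) i3
  have hb := integral_add i1 i2
  simp only [Pi.add_apply] at ha hb
  have hc : ∫ x, mollify (bump n) (fun z => ‖f z - u z‖) x = ∫ x, ‖f x - u x‖ :=
    integral_mollify _ i3
  rw [ha, hb, hc] at hle
  linarith

/-- The gradient of a mollification is the mollified weak gradient. -/
lemma hasGradientAt_mollify {f : E d → ℝ} {g : E d → E d} (ρ : ContDiffBump (0 : E d))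
    (hf : Integrable f) (hg : Integrable g) (hfg : IsWeakGrad f g) (x : E d) :
    HasGradientAt (mollify ρ f) (mollify ρ g x) x := by
  set r := ρ.normed volume with hr
  have hrc : ContDiff ℝ ∞ r := ρ.contDiff_normed
  have h1 := ρ.hasCompactSupport_normed.hasFDerivAt_convolution_left
    (ContinuousLinearMap.lsmul ℝ ℝ) (hrc.of_le (by simp)) hf.locallyIntegrable x
  rw [hasGradientAt_iff_hasFDerivAt]
  refine h1.congr_fderiv ?_
  ext v
  rw [InnerProductSpace.toDual_apply_apply]
  -- the left side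
  have hexL : ConvolutionExistsAt (fderiv ℝ r) f x
      ((ContinuousLinearMap.lsmul ℝ ℝ).precompL (E d)) volume :=
    (ρ.hasCompactSupport_normed.fderiv ℝ).convolutionExists_left _
      (hrc.continuous_fderiv (by simp)) hf.locallyIntegrable x
  have hL : ((fderiv ℝ r ⋆[(ContinuousLinearMap.lsmul ℝ ℝ).precompL (E d), volume] f) x) v
      = ∫ t, fderiv ℝ r t v * f (x - t) := by
    rw [convolution_def, ContinuousLinearMap.integral_apply hexL]
    refine integral_congr_ae (.of_forall fun t => ?_)
    simp [ContinuousLinearMap.precompL_apply, mul_comm]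
  -- the right side
  have hR : ⟪mollify ρ g x, v⟫ = ∫ t, r t * ⟪g (x - t), v⟫ := by
    have hi : Integrable (fun t => r t • g (x - t)) := convolutionExistsAt_mollify ρ hg x
    rw [real_inner_comm, mollify, convolution_def]
    simp only [ContinuousLinearMap.lsmul_apply]
    rw [← integral_inner hi]
    refine integral_congr_ae (.of_forall fun t => ?_)
    simp [inner_smul_right, real_inner_comm]
  rw [hL, hR]
  have hφ : ContDiff ℝ ∞ fun y => r (x - y) := hrc.comp (contDiff_const.sub contDiff_id)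
  have hφs : HasCompactSupport fun y => r (x - y) :=
    ρ.hasCompactSupport_normed.comp_homeomorph (Homeomorph.subLeft x)
  have key := hfg _ hφ hφs v
  have hd' : ∀ y, fderiv ℝ (fun y => r (x - y)) y v = -fderiv ℝ r (x - y) v := by
    intro y
    have := ((hrc.differentiable (by simp)) (x - y)).hasFDerivAt.comp y
      ((hasFDerivAt_id y).const_sub x)
    rw [show fderiv ℝ (fun y => r (x - y)) y = _ from this.fderiv]
    simp
  simp only [hd', mul_neg, integral_neg, neg_inj] at key
  rw [← integral_sub_left_eq_self (fun t => fderiv ℝ r t v * f (x - t)) volume x,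
    ← integral_sub_left_eq_self (fun t => r t * ⟪g (x - t), v⟫) volume x]
  simp only [sub_sub_cancel]
  calc _ = ∫ y, f y * fderiv ℝ r (x - y) v := integral_congr_ae (.of_forall fun y => mul_comm _ _)
    _ = ∫ y, ⟪g y, v⟫ * r (x - y) := key
    _ = _ := integral_congr_ae (.of_forall fun y => mul_comm _ _)

/-! ### Cutoff -/

/-- The gradient of a function as a vector. -/
def gradV (φ : E d → ℝ) (z : E d) : E d := (InnerProductSpace.toDual ℝ (E d)).symm (fderiv ℝ φ z)

lemma norm_gradV (φ : E d → ℝ) (z : E d) : ‖gradV φ z‖ = ‖fderiv ℝ φ z‖ :=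
  LinearIsometryEquiv.norm_map _ _

/-- Cutting off far away changes little. -/
lemma exists_cutoff_near {F : E d → ℝ} {G : E d → E d} (hFi : Integrable F) (hGi : Integrable G)
    (hFc : Continuous F) (hGc : Continuous G) (hFG : ∀ z, HasGradientAt F (G z) z) {ε : ℝ}
    (hε : 0 < ε) :
    ∃ φ Gφ, IsC1c φ Gφ ∧ (∫ z, |φ z - F z|) ≤ ε ∧ (∫ z, ‖Gφ z - G z‖) ≤ ε := by
  let χ₁ : ContDiffBump (0 : E d) := ⟨1, 2, one_pos, one_lt_two⟩
  obtain ⟨M, hM⟩ := (χ₁.hasCompactSupport.fderiv ℝ).exists_bound_of_continuous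
    ((χ₁.contDiff (n := (⊤ : ℕ∞))).continuous_fderiv (by simp))
  let c : ℕ → ℝ := fun k => 1 / ((k : ℝ) + 1)
  have hc : ∀ k, 0 < c k := fun k => by simp only [c]; positivity
  let χ : ℕ → E d → ℝ := fun k z => χ₁ (c k • z)
  have hχd : ∀ k z, HasFDerivAt (χ k) (c k • fderiv ℝ χ₁ (c k • z)) z := by
    intro k z
    have := (((χ₁.contDiff (n := (⊤ : ℕ∞))).differentiable (by simp)) (c k • z)).hasFDerivAt.comp z
      ((hasFDerivAt_id z).const_smul (c k))
    refine this.congr_fderiv ?_
    ext v
    simp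
  have hχc : ∀ k, Continuous (χ k) := fun k =>
    χ₁.continuous.comp (continuous_const_smul (c k))
  have hχs : ∀ k, HasCompactSupport (χ k) := fun k =>
    χ₁.hasCompactSupport.comp_smul (hc k).ne'
  have hDc : ∀ k, Continuous (gradV (χ k)) := by
    intro k
    have : fderiv ℝ (χ k) = fun z => c k • fderiv ℝ χ₁ (c k • z) :=
      funext fun z => (hχd k z).fderiv
    show Continuous fun z => (InnerProductSpace.toDual ℝ (E d)).symm (fderiv ℝ (χ k) z)
    rw [this]
    refine (InnerProductSpace.toDual ℝ (E d)).symm.continuous.comp ?_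
    exact Continuous.const_smul (M := ℝ) (((χ₁.contDiff (n := (⊤ : ℕ∞))).continuous_fderiv (by simp)).comp
      (continuous_const_smul (c k))) (c k)
  have hDs : ∀ k, HasCompactSupport (gradV (χ k)) := fun k =>
    ((hχs k).fderiv ℝ).comp_left (map_zero _)
  have hDb : ∀ k z, ‖gradV (χ k) z‖ ≤ c k * M := by
    intro k z
    rw [norm_gradV, (hχd k z).fderiv, norm_smul, Real.norm_eq_abs, abs_of_pos (hc k)]
    exact mul_le_mul_of_nonneg_left (hM _) (hc k).le
  have hχb : ∀ k z, |χ k z| ≤ 1 := fun k z => abs_le.2 ⟨by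
    have : (0 : ℝ) ≤ χ k z := χ₁.nonneg
    linarith, χ₁.le_one⟩
  have hχ1 : ∀ z : E d, Tendsto (fun k => χ k z) atTop (𝓝 1) := by
    intro z
    have h0 : Tendsto (fun k => c k • z) atTop (𝓝 0) := by
      simpa [c] using (tendsto_one_div_add_atTop_nhds_zero_nat (𝕜 := ℝ)).smul_const z
    refine tendsto_const_nhds.congr' ?_
    filter_upwards [h0.eventually (closedBall_mem_nhds 0 (show (0 : ℝ) < 1 from one_pos))] with k hk
    exact (χ₁.one_of_mem_closedBall hk).symm
  have hc0 : Tendsto c atTop (𝓝 0) := tendsto_one_div_add_atTop_nhds_zero_nat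
  have iA : ∀ k, Integrable fun z => χ k z * F z := fun k =>
    hFi.bdd_mul (c := 1) (hχc k).aestronglyMeasurable (.of_forall (hχb k))
  have iB1 : ∀ k, Integrable fun z => χ k z • G z := fun k =>
    hGi.bdd_smul 1 (hχc k).aestronglyMeasurable (.of_forall (hχb k))
  have iB2 : ∀ k, Integrable fun z => F z • gradV (χ k) z := fun k =>
    (hFc.smul (hDc k)).integrable_of_hasCompactSupport (HasCompactSupport.smul_left (f := F) (hDs k))
  have t1 : Tendsto (fun k => ∫ z, |χ k z * F z - F z|) atTop (𝓝 (∫ _z : E d, (0 : ℝ))) := by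
    refine tendsto_integral_of_dominated_convergence (fun z => 2 * ‖F z‖)
      (fun k => ((iA k).sub hFi).norm.aestronglyMeasurable) (hFi.norm.const_mul 2)
      (fun k => .of_forall fun z => ?_) (.of_forall fun z => ?_)
    · have h3 := hχb k z
      rw [Real.norm_eq_abs, abs_abs, Real.norm_eq_abs]
      calc |χ k z * F z - F z| ≤ |χ k z * F z| + |F z| := abs_sub _ _
        _ ≤ 2 * |F z| := by
          rw [abs_mul]
          have := mul_le_mul_of_nonneg_right h3 (abs_nonneg (F z))
          linarith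
    · simpa using (((hχ1 z).mul_const (F z)).sub_const (F z)).abs
  have t2 : Tendsto (fun k => ∫ z, ‖(χ k z • G z + F z • gradV (χ k) z) - G z‖) atTop
      (𝓝 (∫ _z : E d, (0 : ℝ))) := by
    refine tendsto_integral_of_dominated_convergence (fun z => 2 * ‖G z‖ + M * ‖F z‖)
      (fun k => (((iB1 k).add (iB2 k)).sub hGi).norm.aestronglyMeasurable)
      ((hGi.norm.const_mul 2).add (hFi.norm.const_mul M))
      (fun k => .of_forall fun z => ?_) (.of_forall fun z => ?_)
    · rw [norm_norm]
      have h1 : ‖χ k z • G z‖ ≤ ‖G z‖ := by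
        rw [norm_smul, Real.norm_eq_abs]
        exact mul_le_of_le_one_left (norm_nonneg _) (hχb k z)
      have h2 : ‖F z • gradV (χ k) z‖ ≤ M * ‖F z‖ := by
        rw [norm_smul, mul_comm]
        refine mul_le_mul_of_nonneg_right ((hDb k z).trans ?_) (norm_nonneg _)
        refine mul_le_of_le_one_left ((norm_nonneg _).trans (hM 0)) ?_
        rw [div_le_one (by positivity)]
        linarith [Nat.cast_nonneg (α := ℝ) k]
      have := norm_add_le (χ k z • G z) (F z • gradV (χ k) z)
      have := norm_sub_le (χ k z • G z + F z • gradV (χ k) z) (G z)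
      linarith
    · have h0 : Tendsto (fun k => gradV (χ k) z) atTop (𝓝 0) :=
        squeeze_zero_norm (fun k => hDb k z) (by simpa using hc0.mul_const M)
      simpa using ((((hχ1 z).smul_const (G z)).add (h0.const_smul (F z))).sub_const (G z)).norm
  rw [integral_zero] at t1 t2
  obtain ⟨k, hk1, hk2⟩ := (((tendsto_order.1 t1).2 _ hε).and
    ((tendsto_order.1 t2).2 _ hε)).exists
  refine ⟨fun z => χ k z * F z, fun z => χ k z • G z + F z • gradV (χ k) z, ⟨fun z => ?_, ?_, ?_, ?_⟩,
    ?_, ?_⟩
  · have h1 := (hχd k z).differentiableAt.hasFDerivAt.mul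
      (hFG z).hasFDerivAt
    rw [hasGradientAt_iff_hasFDerivAt]
    refine h1.congr_fderiv ?_
    simp [gradV]
  · exact ((hχc k).smul hGc).add (hFc.smul (hDc k))
  · exact (hχs k).mul_right
  · have a : HasCompactSupport (χ k • G) := (hχs k).smul_right
    have b : HasCompactSupport (F • gradV (χ k)) := HasCompactSupport.smul_left (f := F) (hDs k)
    exact a.add b
  · exact hk1.le
  · exact hk2.le

/-- Compactly supported continuously differentiable functions are dense in the Sobolev space. -/
lemma exists_c1c_near {f : E d → ℝ} {g : E d → E d} (hf : Integrable f) (hg : Integrable g)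
    (hfg : IsWeakGrad f g) {ε : ℝ} (hε : 0 < ε) :
    ∃ φ Gφ, IsC1c φ Gφ ∧ (∫ z, |φ z - f z|) ≤ ε ∧ (∫ z, ‖Gφ z - g z‖) ≤ ε := by
  obtain ⟨n, hn1, hn2⟩ : ∃ n, (∫ x, ‖mollify (bump n) f x - f x‖) < ε / 2 ∧
      (∫ x, ‖mollify (bump n) g x - g x‖) < ε / 2 :=
    (((tendsto_order.1 (tendsto_mollify hf)).2 _ (by positivity)).and
      ((tendsto_order.1 (tendsto_mollify hg)).2 _ (by positivity))).exists
  have hFi : Integrable (mollify (bump n) f) := integrable_mollify _ hf
  have hGi : Integrable (mollify (bump n) g) := integrable_mollify _ hg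
  obtain ⟨φ, Gφ, hφ, h1, h2⟩ := exists_cutoff_near hFi hGi (contDiff_mollify _ hf).continuous
    (contDiff_mollify _ hg).continuous (hasGradientAt_mollify (bump n) hf hg hfg) (half_pos hε)
  have hφc : Continuous φ :=
    continuous_iff_continuousAt.2 fun z => (hφ.hasGrad z).hasFDerivAt.continuousAt
  have hφi : Integrable φ := hφc.integrable_of_hasCompactSupport hφ.supp
  have hGφi : Integrable Gφ := hφ.cont.integrable_of_hasCompactSupport hφ.suppGrad
  refine ⟨φ, Gφ, hφ, ?_, ?_⟩
  · have h : ∫ z, |φ z - f z| ≤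
        ∫ z, (|φ z - mollify (bump n) f z| + ‖mollify (bump n) f z - f z‖) :=
      integral_mono (hφi.sub hf).norm ((hφi.sub hFi).norm.add (hFi.sub hf).norm)
        fun z => abs_sub_le _ _ _
    have ha := integral_add (hφi.sub hFi).norm (hFi.sub hf).norm
    simp only [Pi.sub_apply, Real.norm_eq_abs] at ha h hn1
    rw [ha] at h
    linarith
  · have h : ∫ z, ‖Gφ z - g z‖ ≤
        ∫ z, (‖Gφ z - mollify (bump n) g z‖ + ‖mollify (bump n) g z - g z‖) :=
      integral_mono (hGφi.sub hg).norm ((hGφi.sub hGi).norm.add (hGi.sub hg).norm)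
        fun z => norm_sub_le_norm_sub_add_norm_sub _ _ _
    have ha := integral_add (hGφi.sub hGi).norm (hGi.sub hg).norm
    simp only [Pi.sub_apply] at ha
    rw [ha] at h
    linarith

/-! ### Smoothed absolute value -/

/-- A smooth regularisation of the absolute value. -/
def sabs (ε t : ℝ) : ℝ := √(t ^ 2 + ε ^ 2) - ε

/-- The derivative of `sabs`. -/
def sabs' (ε t : ℝ) : ℝ := t / √(t ^ 2 + ε ^ 2)

lemma le_root {ε : ℝ} (t : ℝ) : ε ≤ √(t ^ 2 + ε ^ 2) :=
  (le_abs_self ε).trans (Real.abs_le_sqrt (by linarith [sq_nonneg t]))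

lemma abs_le_root {ε : ℝ} (t : ℝ) : |t| ≤ √(t ^ 2 + ε ^ 2) :=
  Real.abs_le_sqrt (by linarith [sq_nonneg ε])

lemma root_pos {ε : ℝ} (hε : 0 < ε) (t : ℝ) : 0 < √(t ^ 2 + ε ^ 2) := hε.trans_le (le_root t)

lemma sabs_nonneg (ε t : ℝ) : 0 ≤ sabs ε t := sub_nonneg.2 (le_root t)

lemma sabs_zero {ε : ℝ} (hε : 0 < ε) : sabs ε 0 = 0 := by
  simp [sabs, Real.sqrt_sq hε.le]

lemma abs_root_sub {ε : ℝ} (hε : 0 < ε) (a b : ℝ) :
    |√(a ^ 2 + ε ^ 2) - √(b ^ 2 + ε ^ 2)| ≤ |a - b| := by
  have hA := root_pos hε a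
  have hB := root_pos hε b
  have e : (√(a ^ 2 + ε ^ 2) - √(b ^ 2 + ε ^ 2)) * (√(a ^ 2 + ε ^ 2) + √(b ^ 2 + ε ^ 2)) =
      (a - b) * (a + b) := by
    have h1 := Real.mul_self_sqrt (show 0 ≤ a ^ 2 + ε ^ 2 by positivity)
    have h2 := Real.mul_self_sqrt (show 0 ≤ b ^ 2 + ε ^ 2 by positivity)
    nlinarith
  have e2 := congrArg abs e
  rw [abs_mul, abs_mul, abs_of_pos (add_pos hA hB)] at e2
  refine le_of_mul_le_mul_right ?_ (add_pos hA hB)
  rw [e2]
  refine mul_le_mul_of_nonneg_left ?_ (abs_nonneg _)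
  exact (abs_add_le a b).trans (add_le_add (abs_le_root a) (abs_le_root b))

lemma abs_sabs_sub {ε : ℝ} (hε : 0 < ε) (a b : ℝ) : |sabs ε a - sabs ε b| ≤ |a - b| := by
  simpa [sabs] using abs_root_sub hε a b

lemma hasDerivAt_sabs {ε : ℝ} (hε : 0 < ε) (t : ℝ) : HasDerivAt (sabs ε) (sabs' ε t) t := by
  have h := (((hasDerivAt_pow 2 t).add_const (ε ^ 2)).sqrt (by positivity)).sub_const ε
  refine h.congr_deriv ?_
  simp only [sabs']
  field_simp
  push_cast
  ring

lemma continuous_sabs' {ε : ℝ} (hε : 0 < ε) : Continuous (sabs' ε) :=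
  continuous_id.div (by fun_prop) fun t => (root_pos hε t).ne'

lemma abs_sabs'_le {ε : ℝ} (hε : 0 < ε) (t : ℝ) : |sabs' ε t| ≤ 1 := by
  rw [sabs', abs_div, abs_of_pos (root_pos hε t), div_le_one (root_pos hε t)]
  exact abs_le_root t

lemma abs_sabs'_sub {ε : ℝ} (hε : 0 < ε) (a b : ℝ) :
    |sabs' ε a - sabs' ε b| ≤ 2 / ε * |a - b| := by
  have hA := root_pos hε a
  have hB := root_pos hε b
  have e : sabs' ε a - sabs' ε b = (a - b) / √(a ^ 2 + ε ^ 2) +
      sabs' ε b * ((√(b ^ 2 + ε ^ 2) - √(a ^ 2 + ε ^ 2)) / √(a ^ 2 + ε ^ 2)) := by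
    simp only [sabs']
    field_simp
    ring
  rw [e]
  refine (abs_add_le _ _).trans ?_
  rw [abs_mul, abs_div, abs_div, abs_of_pos hA]
  have h1 : |a - b| / √(a ^ 2 + ε ^ 2) ≤ |a - b| / ε :=
    div_le_div_of_nonneg_left (abs_nonneg _) hε (le_root a)
  have h2 : |sabs' ε b| * (|√(b ^ 2 + ε ^ 2) - √(a ^ 2 + ε ^ 2)| / √(a ^ 2 + ε ^ 2)) ≤
      1 * (|a - b| / √(a ^ 2 + ε ^ 2)) := by
    refine mul_le_mul (abs_sabs'_le hε b) ?_ (by positivity) zero_le_one
    rw [abs_sub_comm a b]
    exact div_le_div_of_nonneg_right (abs_root_sub hε b a) hA.le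
  have h3 : 2 / ε * |a - b| = |a - b| / ε + |a - b| / ε := by ring
  linarith

/-- Smooth compactly supported functions near the regularised modulus. -/
lemma exists_sabs_near {f : E d → ℝ} {g : E d → E d} (hf : Integrable f) (hg : Integrable g)
    (hfg : IsWeakGrad f g) {ε : ℝ} (hε : 0 < ε) {η : ℝ} (hη : 0 < η) :
    ∃ ψ Gψ, IsC1c ψ Gψ ∧ (∀ z, 0 ≤ ψ z) ∧ (∫ z, |ψ z - sabs ε (f z)|) ≤ η ∧
      (∫ z, ‖Gψ z - sabs' ε (f z) • g z‖) ≤ η := by
  obtain ⟨u, hus, hgu, huc, hui⟩ :=
    hg.exists_hasCompactSupport_integral_sub_le (show (0 : ℝ) < η / 8 by positivity)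
  obtain ⟨M, hM⟩ := hus.exists_bound_of_continuous huc
  have hM0 : 0 ≤ M := (norm_nonneg _).trans (hM 0)
  set δ := min (η / 4) (η * ε / (8 * (M + 1))) with hδ
  have hδ0 : 0 < δ := lt_min (by positivity) (by positivity)
  have hδ1 : δ ≤ η / 4 := min_le_left _ _
  have hδ2 : 2 / ε * M * δ ≤ η / 4 := by
    calc 2 / ε * M * δ ≤ 2 / ε * (M + 1) * (η * ε / (8 * (M + 1))) :=
          mul_le_mul (by gcongr; linarith) (min_le_right _ _) hδ0.le (by positivity)
      _ = η / 4 := by field_simp; ring
  obtain ⟨φ, Gφ, hφ, h1, h2⟩ := exists_c1c_near hf hg hfg hδ0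
  have hφc : Continuous φ :=
    continuous_iff_continuousAt.2 fun z => (hφ.hasGrad z).hasFDerivAt.continuousAt
  have hφi : Integrable φ := hφc.integrable_of_hasCompactSupport hφ.supp
  have hGi : Integrable Gφ := hφ.cont.integrable_of_hasCompactSupport hφ.suppGrad
  have hsc : Continuous fun z => sabs' ε (φ z) := (continuous_sabs' hε).comp hφc
  have hsm : AEStronglyMeasurable (fun z => sabs' ε (f z)) :=
    (continuous_sabs' hε).comp_aestronglyMeasurable hf.aestronglyMeasurable
  have hsab : Continuous (sabs ε) := by unfold sabs; fun_prop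
  refine ⟨fun z => sabs ε (φ z), fun z => sabs' ε (φ z) • Gφ z, ⟨fun z => ?_, hsc.smul hφ.cont,
    hφ.supp.comp_left (sabs_zero hε), HasCompactSupport.smul_left (f := fun z => sabs' ε (φ z)) hφ.suppGrad⟩, fun z => sabs_nonneg _ _, ?_, ?_⟩
  · rw [hasGradientAt_iff_hasFDerivAt, map_smul]
    exact (hasDerivAt_sabs hε (φ z)).comp_hasFDerivAt z (hφ.hasGrad z).hasFDerivAt
  · refine le_trans (integral_mono_of_nonneg (.of_forall fun _ => abs_nonneg _)
      (hφi.sub hf).norm (.of_forall fun z => ?_)) (h1.trans (by linarith))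
    exact (abs_sabs_sub hε _ _).trans (le_of_eq (Real.norm_eq_abs _).symm)
  · have i1 : Integrable fun z => ‖Gφ z - g z‖ := (hGi.sub hg).norm
    have i2 : Integrable fun z => 2 / ε * M * |φ z - f z| := (hφi.sub hf).norm.const_mul _
    have i3 : Integrable fun z => 2 * ‖g z - u z‖ := (hg.sub hui).norm.const_mul _
    have h : ∫ z, ‖sabs' ε (φ z) • Gφ z - sabs' ε (f z) • g z‖ ≤
        ∫ z, (‖Gφ z - g z‖ + 2 / ε * M * |φ z - f z| + 2 * ‖g z - u z‖) := by
      refine integral_mono_of_nonneg (.of_forall fun _ => norm_nonneg _) ((i1.add i2).add i3)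
        (.of_forall fun z => ?_)
      have e : sabs' ε (φ z) • Gφ z - sabs' ε (f z) • g z = sabs' ε (φ z) • (Gφ z - g z) +
          ((sabs' ε (φ z) - sabs' ε (f z)) • (g z - u z) +
            (sabs' ε (φ z) - sabs' ε (f z)) • u z) := by
        rw [← smul_add, sub_add_cancel, smul_sub, sub_smul]; abel
      show ‖sabs' ε (φ z) • Gφ z - sabs' ε (f z) • g z‖ ≤ _
      rw [e]
      refine (norm_add_le _ _).trans ?_
      have a1 : ‖sabs' ε (φ z) • (Gφ z - g z)‖ ≤ ‖Gφ z - g z‖ := by
        rw [norm_smul, Real.norm_eq_abs]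
        exact mul_le_of_le_one_left (norm_nonneg _) (abs_sabs'_le hε _)
      have a2 : ‖(sabs' ε (φ z) - sabs' ε (f z)) • (g z - u z)‖ ≤ 2 * ‖g z - u z‖ := by
        rw [norm_smul, Real.norm_eq_abs]
        refine mul_le_mul_of_nonneg_right ((abs_sub _ _).trans ?_) (norm_nonneg _)
        linarith [abs_sabs'_le hε (φ z), abs_sabs'_le hε (f z)]
      have a3 : ‖(sabs' ε (φ z) - sabs' ε (f z)) • u z‖ ≤ 2 / ε * M * |φ z - f z| := by
        rw [norm_smul, Real.norm_eq_abs]
        calc _ ≤ 2 / ε * |φ z - f z| * M :=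
              mul_le_mul (abs_sabs'_sub hε _ _) (hM z) (norm_nonneg _) (by positivity)
          _ = _ := by ring
      have := norm_add_le ((sabs' ε (φ z) - sabs' ε (f z)) • (g z - u z))
        ((sabs' ε (φ z) - sabs' ε (f z)) • u z)
      linarith
    have ha := integral_add (i1.add i2) i3
    have hb := integral_add i1 i2
    simp only [Pi.add_apply] at ha hb
    rw [ha, hb, integral_const_mul, integral_const_mul] at h
    have h4 := mul_le_mul_of_nonneg_left h1 (show (0 : ℝ) ≤ 2 / ε * M by positivity)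
    linarith

theorem exists_approx (hd : 0 < d) {f : E d → ℝ} {g : E d → E d} (hf : Integrable f)
    (hg : Integrable g) (hfg : IsWeakGrad f g) :
    ∃ (ψ : ℕ → E d → ℝ) (G : ℕ → E d → E d) (h : E d → E d),
      (∀ n, IsC1c (ψ n) (G n)) ∧ (∀ n z, 0 ≤ ψ n z) ∧ Integrable h ∧
      (∫ z, ‖h z‖) ≤ (∫ z, ‖g z‖) ∧
      Tendsto (fun n => ∫ z, |(ψ n z - |f z|)|) atTop (𝓝 0) ∧
      Tendsto (fun n => ∫ z, ‖G n z - h z‖) atTop (𝓝 0) := by
  let e : ℕ → ℝ := fun n => 1 / ((n : ℝ) + 1)
  have he : ∀ n, 0 < e n := fun n => by simp only [e]; positivity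
  have he0 : Tendsto e atTop (𝓝 0) := tendsto_one_div_add_atTop_nhds_zero_nat
  choose ψ G hψ hψ0 hb1 hb2 using fun n => exists_sabs_near hf hg hfg (he n) (he n)
  let sg : ℝ → ℝ := fun t => if t = 0 then 0 else t / |t|
  have hsg : ∀ t, Tendsto (fun n => sabs' (e n) t) atTop (𝓝 (sg t)) := by
    intro t
    by_cases ht : t = 0
    · simp [sg, ht, sabs']
    · simp only [sg, if_neg ht, sabs']
      refine tendsto_const_nhds.div ?_ (abs_ne_zero.2 ht)
      have := ((he0.pow 2).const_add (t ^ 2)).sqrt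
      simpa [Real.sqrt_sq_eq_abs] using this
  have hsm : ∀ n, AEStronglyMeasurable (fun z => sabs' (e n) (f z) • g z) := fun n =>
    ((continuous_sabs' (he n)).comp_aestronglyMeasurable hf.aestronglyMeasurable).smul
      hg.aestronglyMeasurable
  have hb : ∀ n z, ‖sabs' (e n) (f z) • g z‖ ≤ ‖g z‖ := by
    intro n z
    rw [norm_smul, Real.norm_eq_abs]
    exact mul_le_of_le_one_left (norm_nonneg _) (abs_sabs'_le (he n) _)
  have hin : ∀ n, Integrable fun z => sabs' (e n) (f z) • g z := fun n =>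
    hg.norm.mono' (hsm n) (.of_forall (hb n))
  have hlim : ∀ z, Tendsto (fun n => sabs' (e n) (f z) • g z) atTop (𝓝 (sg (f z) • g z)) :=
    fun z => (hsg (f z)).smul_const (g z)
  have hhb : ∀ z, ‖sg (f z) • g z‖ ≤ ‖g z‖ := fun z =>
    le_of_tendsto (hlim z).norm (.of_forall fun n => hb n z)
  have hhi : Integrable fun z => sg (f z) • g z :=
    hg.norm.mono' (aestronglyMeasurable_of_tendsto_ae atTop hsm (.of_forall hlim))
      (.of_forall hhb)
  have hsa : ∀ n, Continuous (sabs (e n)) := fun n => by unfold sabs; fun_prop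
  have hsab : ∀ n z, |sabs (e n) (f z)| ≤ |f z| := fun n z => by
    simpa [sabs_zero (he n)] using abs_sabs_sub (he n) (f z) 0
  have hsi : ∀ n, Integrable fun z => sabs (e n) (f z) := fun n =>
    hf.norm.mono' ((hsa n).comp_aestronglyMeasurable hf.aestronglyMeasurable)
      (.of_forall (hsab n))
  have t1 : Tendsto (fun n => ∫ z, |(sabs (e n) (f z) - |f z|)|) atTop
      (𝓝 (∫ _z : E d, (0 : ℝ))) := by
    refine tendsto_integral_of_dominated_convergence (fun z => 2 * |f z|)
      (fun n => ((hsi n).sub hf.norm).norm.aestronglyMeasurable) (hf.norm.const_mul 2)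
      (fun n => .of_forall fun z => ?_) (.of_forall fun z => ?_)
    · rw [Real.norm_eq_abs, abs_abs]
      have := abs_sub (sabs (e n) (f z)) |f z|
      rw [abs_abs] at this
      linarith [hsab n z]
    · have := ((((he0.pow 2).const_add (f z ^ 2)).sqrt.sub he0).sub_const |f z|).abs
      simpa [sabs, Real.sqrt_sq_eq_abs] using this
  have t2 : Tendsto (fun n => ∫ z, ‖sabs' (e n) (f z) • g z - sg (f z) • g z‖) atTop
      (𝓝 (∫ _z : E d, (0 : ℝ))) := by
    refine tendsto_integral_of_dominated_convergence (fun z => 2 * ‖g z‖)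
      (fun n => ((hin n).sub hhi).norm.aestronglyMeasurable) (hg.norm.const_mul 2)
      (fun n => .of_forall fun z => ?_) (.of_forall fun z => ?_)
    · rw [norm_norm]
      linarith [norm_sub_le (sabs' (e n) (f z) • g z) (sg (f z) • g z), hb n z, hhb z]
    · simpa using ((hlim z).sub_const (sg (f z) • g z)).norm
  rw [integral_zero] at t1 t2
  refine ⟨ψ, G, fun z => sg (f z) • g z, hψ, hψ0, hhi,
    integral_mono hhi.norm hg.norm hhb, ?_, ?_⟩
  · refine squeeze_zero (fun n => integral_nonneg fun _ => abs_nonneg _) (fun n => ?_)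
      (by simpa using he0.add t1)
    have hψi : Integrable (ψ n) := (continuous_iff_continuousAt.2 fun z =>
      ((hψ n).hasGrad z).hasFDerivAt.continuousAt).integrable_of_hasCompactSupport (hψ n).supp
    have h : ∫ z, |(ψ n z - |f z|)| ≤
        ∫ z, (|ψ n z - sabs (e n) (f z)| + |(sabs (e n) (f z) - |f z|)|) :=
      integral_mono (hψi.sub hf.norm).norm
        ((hψi.sub (hsi n)).norm.add ((hsi n).sub hf.norm).norm) fun z => abs_sub_le _ _ _
    have hadd := integral_add (hψi.sub (hsi n)).norm ((hsi n).sub hf.norm).norm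
    simp only [Pi.sub_apply, Real.norm_eq_abs] at hadd
    rw [hadd] at h
    linarith [hb1 n]
  · refine squeeze_zero (fun n => integral_nonneg fun _ => norm_nonneg _) (fun n => ?_)
      (by simpa using he0.add t2)
    have hGi : Integrable (G n) := (hψ n).cont.integrable_of_hasCompactSupport (hψ n).suppGrad
    have h : ∫ z, ‖G n z - sg (f z) • g z‖ ≤ ∫ z, (‖G n z - sabs' (e n) (f z) • g z‖ +
        ‖sabs' (e n) (f z) • g z - sg (f z) • g z‖) :=
      integral_mono (hGi.sub hhi).norm
        ((hGi.sub (hin n)).norm.add ((hin n).sub hhi).norm)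
        fun z => norm_sub_le_norm_sub_add_norm_sub _ _ _
    have hadd := integral_add (hGi.sub (hin n)).norm ((hin n).sub hhi).norm
    simp only [Pi.sub_apply] at hadd
    rw [hadd] at h
    linarith [hb2 n]

end

end Vale.Agent.P137
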