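import Vale.Agent.P137.Cell

/-!
Summation over scales.
-/

namespace Vale.Agent.P137

open MeasureTheory Metric Set Filter Topology
open scoped ENNReal NNReal ContDiff RealInnerProductSpace

noncomputable section

variable {d : ℕ}

/-- The variation gained between two adjacent dyadic scales. -/
def step (g : E d → E d) (j : ℤ) : ℝ≥0∞ :=
  ENNReal.ofReal (Nc g ((2 : ℝ) ^ (j - 1)) - Nc g ((2 : ℝ) ^ j))

lemma Nc_dyadic_le {g : E d → E d} (hg : Integrable g) (m : ℤ) (n : ℕ) :
    Nc g ((2 : ℝ) ^ m) ≤ Nc g ((2 : ℝ) ^ (m - n)) := by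
  induction n with
  | zero => simp
  | succ n ih =>
    refine ih.trans (le_of_le_of_eq (Nc_half_ge hg (zpow_pos two_pos _)) ?_)
    congr 1
    rw [Nat.cast_succ, ← sub_sub, zpow_sub_one₀ two_ne_zero, div_eq_mul_inv]

lemma sum_step_eq {g : E d → E d} (hg : Integrable g) (m : ℤ) (M : ℕ) :
    ∑ n ∈ Finset.range M, step g (m - n) =
      ENNReal.ofReal (Nc g ((2 : ℝ) ^ (m - M)) - Nc g ((2 : ℝ) ^ m)) := by
  induction M with
  | zero => simp
  | succ M ih =>
    have h1 := Nc_dyadic_le hg m M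
    have h2 := Nc_dyadic_le hg (m - M) 1
    rw [Nat.cast_one] at h2
    rw [Finset.sum_range_succ, ih, step, Nat.cast_succ, ← sub_sub,
      ← ENNReal.ofReal_add (by linarith) (by linarith)]
    congr 1
    ring

lemma tsum_step_le {g : E d → E d} (hg : Integrable g) (m : ℤ) :
    ∑' n : ℕ, step g (m - n) ≤ ENNReal.ofReal ((∫ z, ‖g z‖) - Nc g ((2 : ℝ) ^ m)) := by
  rw [ENNReal.tsum_eq_iSup_nat]
  refine iSup_le fun M => ?_
  rw [sum_step_eq hg]
  exact ENNReal.ofReal_le_ofReal (by linarith [Nc_le_integral hg (zpow_pos two_pos (m - M))])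

lemma tsum_step_int_le {g : E d → E d} (hg : Integrable g) :
    ∑' j : ℤ, step g j ≤ ENNReal.ofReal (∫ z, ‖g z‖) := by
  rw [ENNReal.tsum_eq_iSup_sum]
  refine iSup_le fun t => ?_
  rcases t.eq_empty_or_nonempty with rfl | ht
  · simp
  set m := t.max' ht
  have hsub : ∑ j ∈ t, step g j ≤ ∑' n : ℕ, step g (m - n) := by
    calc ∑ j ∈ t, step g j = ∑ n ∈ t.image (fun j => (m - j).toNat), step g (m - n) := by
          rw [Finset.sum_image]
          · refine Finset.sum_congr rfl fun j hj => ?_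
            rw [Int.toNat_of_nonneg (sub_nonneg.2 (t.le_max' j hj)), sub_sub_cancel]
          · intro a ha b hb h
            have h3 := t.le_max' a ha
            have h4 := t.le_max' b hb
            simp only at h
            omega
      _ ≤ _ := ENNReal.sum_le_tsum _
  refine hsub.trans ((tsum_step_le hg m).trans (ENNReal.ofReal_le_ofReal ?_))
  linarith [Nc_nonneg g (zpow_pos (two_pos (α := ℝ)) m)]

lemma summable_dec : Summable dec :=
  summable_geometric_of_lt_one (by positivity)
    (Real.rpow_lt_one_of_one_lt_of_neg one_lt_two (by norm_num))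

lemma tsum_ofReal_dec : ∑' i, ENNReal.ofReal (dec i) = ENNReal.ofReal (∑' i, dec i) :=
  (ENNReal.ofReal_tsum_of_nonneg dec_nonneg summable_dec).symm

lemma lintegral_comp_smul_pos (F : E d → ℝ≥0∞) {R : ℝ} (hR : 0 < R) :
    ∫⁻ x, F (R • x) = ENNReal.ofReal ((R ^ d)⁻¹) * ∫⁻ x, F x := by
  have he : MeasurableEmbedding fun x : E d => R • x :=
    (MeasurableEquiv.smul₀ R hR.ne').measurableEmbedding
  rw [← he.lintegral_map, Measure.map_addHaar_smul volume hR.ne', lintegral_smul_measure,
    finrank_euclideanSpace_fin, abs_of_pos (by positivity), smul_eq_mul]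

lemma setLIntegral_comp_smul_pos (F : E d → ℝ≥0∞) {R : ℝ} (hR : 0 < R) {S : Set (E d)}
    (hS : MeasurableSet S) :
    ∫⁻ x in (fun z => R • z) ⁻¹' S, F (R • x) = ENNReal.ofReal ((R ^ d)⁻¹) * ∫⁻ x in S, F x := by
  have hS' : MeasurableSet ((fun z : E d => R • z) ⁻¹' S) := measurable_const_smul R hS
  rw [← lintegral_indicator hS', ← lintegral_indicator hS, ← lintegral_comp_smul_pos _ hR]
  exact lintegral_congr fun x => rfl

lemma boxI_scale (g : E d → E d) {R : ℝ} (hR : 0 < R) (ξ : E d) (s : ℝ) :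
    boxI (fun z => R • g (R • z)) ξ s = (R * (R ^ d)⁻¹) • boxI g (R • ξ) (R * s) := by
  have h : (fun z : E d => R • z) ⁻¹' box (R • ξ) (R * s) = box ξ s := by
    ext z
    simp only [box, mem_preimage, mem_ofPred_eq, PiLp.smul_apply, smul_eq_mul, ← mul_add]
    exact forall_congr' fun i => by rw [mul_le_mul_iff_right₀ hR, mul_lt_mul_iff_right₀ hR]
  rw [boxI, boxI, integral_smul, ← h,
    Measure.setIntegral_comp_smul_of_pos volume g _ hR, finrank_euclideanSpace_fin, smul_smul]
  congr 2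
  rw [← Set.image_smul]
  exact congrArg volume.restrict (Set.image_preimage_eq _ (MeasurableEquiv.smul₀ R hR.ne').surjective)

lemma Nc_scale (g : E d → E d) {R : ℝ} (hR : 0 < R) {s : ℝ} (hs : 0 < s) :
    Nc (fun z => R • g (R • z)) s = R * (R ^ d)⁻¹ * Nc g (R * s) := by
  simp only [Nc, boxI_scale g hR, norm_smul, Real.norm_eq_abs,
    abs_of_pos (show 0 < R * (R ^ d)⁻¹ by positivity), integral_const_mul]
  rw [Measure.integral_comp_smul_of_nonneg volume (fun ξ => ‖boxI g ξ (R * s)‖) R
    (hR := hR.le), finrank_euclideanSpace_fin, smul_eq_mul, mul_pow]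
  field_simp

lemma scale_bound (hd : 2 ≤ d) {K : ℝ}
    (hscale : ∀ (f : E d → ℝ) (g : E d → E d), IsC1c f g →
      ∫⁻ x in scaleSet f 0, ‖gradient (umax f) x‖ₑ ≤
        ENNReal.ofReal K *
          ∑' i, ENNReal.ofReal (dec i) *
            ENNReal.ofReal (Nc g (side i / 2) - Nc g (side i)))
    {f : E d → ℝ} {g : E d → E d} (hf : IsC1c f g) (k : ℤ) :
    ∫⁻ x in scaleSet f k, ‖gradient (umax f) x‖ₑ ≤
      ENNReal.ofReal K * ∑' i : ℕ, ENNReal.ofReal (dec i) * step g (k + 8 - i) := by
  set R := (2 : ℝ) ^ k with hRdef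
  have hR : 0 < R := zpow_pos two_pos k
  have hf' : IsC1c (fun z => f (R • z)) (fun z => R • g (R • z)) := by
    refine ⟨fun z => ?_, (hf.cont.comp (continuous_const_smul R)).const_smul R,
      hf.supp.comp_homeomorph (Homeomorph.smulOfNeZero R hR.ne'),
      (hf.suppGrad.comp_homeomorph (Homeomorph.smulOfNeZero R hR.ne')).comp_left
        (g := fun v : E d => R • v) (smul_zero R)⟩
    rw [hasGradientAt_iff_hasFDerivAt]
    refine ((hf.hasGrad (R • z)).hasFDerivAt.comp z ((hasFDerivAt_id z).const_smul R)).congr_fderiv ?_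
    ext w
    simp
  have hmeas := measurableSet_scaleSet (by omega) hf k
  have h := hscale _ _ hf'
  rw [hRdef, scaleSet_scale, ← hRdef] at h
  have hgrad : ∀ x, ‖gradient (umax fun z => f (R • z)) x‖ₑ =
      ENNReal.ofReal R * ‖gradient (umax f) (R • x)‖ₑ := by
    intro x
    rw [show umax (fun z => f (R • z)) = fun x => umax f (R • x) from funext (umax_scale f hR),
      gradient, gradient, show fderiv ℝ (fun y => umax f (R • y)) x =
        R • fderiv ℝ (umax f) (R • x) from fderiv_comp_smul _,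
      map_smulₛₗ, RCLike.conj_to_real, enorm_smul, Real.enorm_eq_ofReal hR.le]
  have hstep : ∀ i, ENNReal.ofReal (Nc (fun z => R • g (R • z)) (side i / 2) -
      Nc (fun z => R • g (R • z)) (side i)) =
      ENNReal.ofReal (R * (R ^ d)⁻¹) * step g (k + 8 - i) := by
    intro i
    rw [Nc_scale g hR (by have := side_pos i; positivity), Nc_scale g hR (side_pos i), ← mul_sub,
      ENNReal.ofReal_mul (by positivity), step]
    have e : R * side i = (2 : ℝ) ^ (k + 8 - i) := by
      rw [zpow_sub₀ two_ne_zero, zpow_add₀ two_ne_zero, zpow_natCast, side, S0, ← hRdef]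
      norm_num
      ring
    have e' : R * (side i / 2) = (2 : ℝ) ^ (k + 8 - i - 1) := by
      rw [zpow_sub_one₀ two_ne_zero, ← e]
      ring
    rw [e, e']
  have hsum : ∑' i, ENNReal.ofReal (dec i) * ENNReal.ofReal (Nc (fun z => R • g (R • z)) (side i / 2) -
      Nc (fun z => R • g (R • z)) (side i)) =
      ENNReal.ofReal (R * (R ^ d)⁻¹) *
        ∑' i : ℕ, ENNReal.ofReal (dec i) * step g (k + 8 - i) := by
    rw [← ENNReal.tsum_mul_left]
    exact tsum_congr fun i => by rw [hstep, mul_left_comm]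
  simp only [hgrad] at h
  rw [lintegral_const_mul' _ _ ENNReal.ofReal_ne_top,
    setLIntegral_comp_smul_pos (fun x => ‖gradient (umax f) x‖ₑ) hR hmeas, hsum, ← mul_assoc,
    ← ENNReal.ofReal_mul hR.le, mul_left_comm] at h
  exact (ENNReal.mul_le_mul_iff_right (by simp only [ne_eq, ENNReal.ofReal_eq_zero, not_le]; positivity)
    ENNReal.ofReal_ne_top).1 h

theorem exists_main_estimate (hd : 2 ≤ d) : ∃ K : ℝ, 0 ≤ K ∧
    ∀ (f : E d → ℝ) (g : E d → E d), IsC1c f g → (∀ z, 0 ≤ f z) →
      (∫⁻ x, ‖gradient (umax f) x‖ₑ ≤ ENNReal.ofReal (K * ∫ z, ‖g z‖)) ∧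
      ∀ (k : ℤ) (s : Set (E d)), MeasurableSet s →
        ∫⁻ x in s, ‖gradient (umax f) x‖ₑ ≤
          (∫⁻ x in s, ‖g x‖ₑ) +
            ENNReal.ofReal (K * ((∫ z, ‖g z‖) - Nc g ((2 : ℝ) ^ (k + 9)))) +
            volume s * ENNReal.ofReal (K * (∫ z, f z) / ((2 : ℝ) ^ k) ^ (d + 1)) := by
  have hd0 : 0 < d := by omega
  obtain ⟨K₀, hK₀, hscale⟩ := exists_scale_one hd
  set W := volume.real (closedBall (0 : E d) 1) with hW
  have hW0 : 0 < W := unitBall_pos
  set S := ∑' i, dec i with hS
  have hS0 : 0 ≤ S := tsum_nonneg dec_nonneg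
  refine ⟨1 + K₀ * S + d / W, by positivity, fun f g hf h0 => ?_⟩
  have hg : Integrable g := hf.cont.integrable_of_hasCompactSupport hf.suppGrad
  have hK1 : K₀ * S ≤ 1 + K₀ * S + d / W := by
    have : 0 ≤ (d : ℝ) / W := by positivity
    linarith
  have hK2 : (d : ℝ) / W ≤ 1 + K₀ * S + d / W := by
    have : 0 ≤ K₀ * S := by positivity
    linarith
  obtain ⟨L, hL⟩ := exists_lipschitz_umax hf
  have hae : ∀ᵐ x : E d, DifferentiableAt ℝ (umax f) x := hL.ae_differentiableAt
  have hmS : ∀ k, MeasurableSet (scaleSet f k) := fun k => measurableSet_scaleSet hd0 hf k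
  have hgi : 0 ≤ ∫ z, ‖g z‖ := integral_nonneg fun _ => norm_nonneg _
  constructor
  · have hpt : ∀ᵐ x : E d, ‖gradient (umax f) x‖ₑ ≤
        ‖g x‖ₑ + (⋃ k, scaleSet f k).indicator (fun y => ‖gradient (umax f) y‖ₑ) x := by
      filter_upwards [hae] with x hx
      rcases (le_umax hf x).eq_or_lt with h | h
      · rw [gradient_eq_of_attached hf hx h.symm]
        exact le_self_add
      · rw [indicator_of_mem (detached_subset_iUnion hd0 hf h0 (a := x) ⟨h, hx⟩)]
        exact le_add_self
    have hall : ∫⁻ x in ⋃ k, scaleSet f k, ‖gradient (umax f) x‖ₑ ≤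
        ENNReal.ofReal (K₀ * S * ∫ z, ‖g z‖) := by
      refine (lintegral_iUnion_le _ _).trans ?_
      refine (ENNReal.tsum_le_tsum fun k => scale_bound hd hscale hf k).trans ?_
      rw [ENNReal.tsum_mul_left, ENNReal.tsum_comm, ENNReal.ofReal_mul (by positivity),
        ENNReal.ofReal_mul hK₀, mul_assoc, hS, ← tsum_ofReal_dec, ← ENNReal.tsum_mul_right]
      refine mul_le_mul_right (ENNReal.tsum_le_tsum fun i => ?_) _
      rw [ENNReal.tsum_mul_left]
      refine mul_le_mul_right ?_ _
      rw [show (∑' k : ℤ, step g (k + 8 - i)) = ∑' j, step g j by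
        rw [← (Equiv.addRight ((8 : ℤ) - i)).tsum_eq (step g)]
        simp [add_sub_assoc]]
      exact tsum_step_int_le hg
    refine (lintegral_mono_ae hpt).trans ?_
    rw [lintegral_add_left hf.cont.measurable.enorm, lintegral_indicator (MeasurableSet.iUnion hmS),
      ← ofReal_integral_norm_eq_lintegral_enorm hg]
    refine (add_le_add le_rfl hall).trans ?_
    rw [← ENNReal.ofReal_add hgi (by positivity)]
    refine ENNReal.ofReal_le_ofReal ?_
    have : 0 ≤ (d : ℝ) / W * ∫ z, ‖g z‖ := by positivity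
    nlinarith
  · intro k s hs
    set B := ENNReal.ofReal ((1 + K₀ * S + d / W) * (∫ z, f z) / ((2 : ℝ) ^ k) ^ (d + 1))
    set U := ⋃ n : ℕ, scaleSet f (k - 1 - n)
    have hU : MeasurableSet U := MeasurableSet.iUnion fun n => hmS _
    have hf0 : 0 ≤ ∫ z, f z := integral_nonneg h0
    have hpt : ∀ᵐ x : E d, ‖gradient (umax f) x‖ₑ ≤
        ‖g x‖ₑ + U.indicator (fun y => ‖gradient (umax f) y‖ₑ) x + B := by
      filter_upwards [hae] with x hx
      rcases (le_umax hf x).eq_or_lt with h | h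
      · rw [gradient_eq_of_attached hf hx h.symm]
        exact le_self_add.trans le_self_add
      obtain ⟨k', hk'⟩ := mem_iUnion.1 (detached_subset_iUnion hd0 hf h0 (a := x) ⟨h, hx⟩)
      rcases lt_or_ge k' k with hlt | hge
      · have hxU : x ∈ U := mem_iUnion.2 ⟨(k - 1 - k').toNat, by
          rwa [Int.toNat_of_nonneg (by omega), sub_sub_cancel]⟩
        rw [indicator_of_mem hxU]
        exact le_add_self.trans le_self_add
      · obtain ⟨-, -, c, r, ⟨hr1, -⟩, hxc, hopt⟩ := hk'
        have hkr : (2 : ℝ) ^ k ≤ r := (zpow_le_zpow_right₀ one_le_two hge).trans hr1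
        have hr : 0 < r := (zpow_pos two_pos k).trans_le hkr
        have hb := norm_gradient_le hd0 hf h0 hx hr hxc hopt
        refine le_trans ?_ le_add_self
        rw [← ofReal_norm]
        refine ENNReal.ofReal_le_ofReal (hb.trans ?_)
        rw [← hW, ← div_div, mul_div_right_comm (d : ℝ)]
        have h2k : (0 : ℝ) < 2 ^ k := zpow_pos two_pos k
        gcongr
    have hlow : ∫⁻ x in U, ‖gradient (umax f) x‖ₑ ≤
        ENNReal.ofReal (K₀ * S * ((∫ z, ‖g z‖) - Nc g ((2 : ℝ) ^ (k + 9)))) := by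
      refine (lintegral_iUnion_le _ _).trans ?_
      refine (ENNReal.tsum_le_tsum fun n : ℕ => scale_bound hd hscale hf (k - 1 - n)).trans ?_
      rw [ENNReal.tsum_mul_left, ENNReal.tsum_comm, ENNReal.ofReal_mul (by positivity),
        ENNReal.ofReal_mul hK₀, mul_assoc, hS, ← tsum_ofReal_dec, ← ENNReal.tsum_mul_right]
      refine mul_le_mul_right (ENNReal.tsum_le_tsum fun i => ?_) _
      rw [ENNReal.tsum_mul_left]
      refine mul_le_mul_right ?_ _
      rw [show (∑' n : ℕ, step g (k - 1 - n + 8 - i)) = ∑' n : ℕ, step g (k + 7 - i - n) from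
        tsum_congr fun n => congrArg (step g) (by ring)]
      refine (tsum_step_le hg _).trans (ENNReal.ofReal_le_ofReal ?_)
      have h1 := Nc_dyadic_le hg (k + 9) (i + 2)
      rw [show k + 9 - ((i + 2 : ℕ) : ℤ) = k + 7 - i by push_cast; ring] at h1
      linarith
    refine (lintegral_mono_ae (ae_restrict_of_ae hpt)).trans ?_
    rw [lintegral_add_right _ measurable_const, lintegral_add_left hf.cont.measurable.enorm,
      setLIntegral_const, mul_comm B]
    refine add_le_add (add_le_add le_rfl ?_) le_rfl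
    refine (setLIntegral_le_lintegral _ _).trans ?_
    rw [lintegral_indicator hU]
    refine hlow.trans (ENNReal.ofReal_le_ofReal ?_)
    exact mul_le_mul_of_nonneg_right hK1
      (sub_nonneg.2 (Nc_le_integral hg (zpow_pos two_pos _)))

end

end Vale.Agent.P137
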