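import Vale.Agent.P137.Defs

/-!
Local integrability of the maximal function.
-/

namespace Vale.Agent.P137

open MeasureTheory Metric Set Filter Topology
open scoped ENNReal NNReal ContDiff RealInnerProductSpace

noncomputable section

variable {d : ℕ}

theorem measurable_Mtilde (f : E d → ℝ) : Measurable (Mtilde f) := by
  refine LowerSemicontinuous.measurable ?_
  rw [lowerSemicontinuous_iff_isOpen_preimage]
  intro t
  rw [isOpen_iff_mem_nhds]
  intro x hx
  simp only [mem_preimage, mem_Ioi, Mtilde, lt_iSup_iff] at hx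
  obtain ⟨c, r, hxc, ht⟩ := hx
  refine mem_of_superset (isOpen_ball.mem_nhds hxc) fun y hy => ?_
  simp only [mem_preimage, mem_Ioi, Mtilde, lt_iSup_iff]
  exact ⟨c, r, hy, ht⟩

theorem Mtilde_le_add {f h : E d → ℝ} (hf : AEMeasurable f) (hh : AEMeasurable h) (x : E d) :
    Mtilde f x ≤ Mtilde h x + Mtilde (fun z => f z - h z) x := by
  refine iSup_le fun c => iSup₂_le fun r hx => ?_
  refine le_trans ?_ (add_le_add
    (le_iSup_of_le c (le_iSup₂_of_le r hx le_rfl)) (le_iSup_of_le c (le_iSup₂_of_le r hx le_rfl)))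
  rw [← mul_add, ← lintegral_add_left' hh.enorm.restrict]
  gcongr with z
  calc ‖f z‖ₑ = ‖h z + (f z - h z)‖ₑ := by rw [add_sub_cancel]
    _ ≤ _ := enorm_add_le _ _

theorem Mtilde_abs (f : E d → ℝ) : Mtilde (fun z => |f z|) = Mtilde f := by
  funext x
  simp only [Mtilde, Real.enorm_eq_ofReal_abs, abs_abs]

theorem Mtilde_sub_comm (f h : E d → ℝ) :
    Mtilde (fun z => f z - h z) = Mtilde (fun z => h z - f z) := by
  funext x
  simp only [Mtilde, Real.enorm_eq_ofReal_abs, abs_sub_comm]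

theorem Mtilde_le_of_bound {f : E d → ℝ} {C : ℝ} (h : ∀ z, ‖f z‖ ≤ C) (x : E d) :
    Mtilde f x ≤ ENNReal.ofReal C := by
  refine iSup_le fun c => iSup₂_le fun r hx => ?_
  calc (volume (ball c r))⁻¹ * ∫⁻ z in ball c r, ‖f z‖ₑ
      ≤ (volume (ball c r))⁻¹ * ∫⁻ z in ball c r, ENNReal.ofReal C := by
        gcongr with z
        rw [← ofReal_norm]
        exact ENNReal.ofReal_le_ofReal (h z)
    _ ≤ ENNReal.ofReal C := by
        rw [setLIntegral_const, mul_left_comm]
        exact mul_le_of_le_one_right' (ENNReal.inv_mul_le_one _)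

/-- Vitali's covering bound for the balls carrying at least `t` times their volume. -/
theorem vitali_bound (hd : 0 < d) (h : E d → ℝ≥0∞) {t : ℝ} (ht : 0 < t) :
    volume {x : E d | ∃ c r, x ∈ ball c r ∧
        ENNReal.ofReal t * volume (ball c r) ≤ ∫⁻ z in ball c r, h z} * ENNReal.ofReal t ≤
      ENNReal.ofReal ((5 : ℝ) ^ d) * ∫⁻ z, h z := by
  have : Nonempty (Fin d) := ⟨⟨0, hd⟩⟩
  rcases eq_or_ne (∫⁻ z, h z) ⊤ with hI | hI
  · rw [hI, ENNReal.mul_top (ENNReal.ofReal_pos.2 (by positivity)).ne']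
    exact le_top
  set T : Set (E d × ℝ) := {q | 0 < q.2 ∧
    ENNReal.ofReal t * volume (ball q.1 q.2) ≤ ∫⁻ z in ball q.1 q.2, h z} with hT
  set v := (volume (ball (0 : E d) 1)).toReal with hv
  have hv0 : 0 < v := ENNReal.toReal_pos (measure_ball_pos volume 0 one_pos).ne'
    measure_ball_lt_top.ne
  have hR : ∀ q ∈ T, q.2 ≤ max 1 ((∫⁻ z, h z).toReal / (t * v)) := by
    intro q hq
    rcases le_total q.2 1 with h1 | h1
    · exact h1.trans (le_max_left _ _)
    refine le_max_of_le_right ?_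
    rw [le_div_iff₀ (mul_pos ht hv0)]
    have h2 := ENNReal.toReal_mono hI (hq.2.trans (setLIntegral_le_lintegral _ _))
    rw [Measure.addHaar_ball volume q.1 hq.1.le, finrank_euclideanSpace_fin, ENNReal.toReal_mul,
      ENNReal.toReal_ofReal ht.le, ENNReal.toReal_mul,
      ENNReal.toReal_ofReal (pow_nonneg hq.1.le d), ← hv] at h2
    nlinarith [le_self_pow₀ h1 hd.ne', mul_pos ht hv0]
  obtain ⟨u, huT, hdisj, hcov⟩ := Vitali.exists_disjoint_subfamily_covering_enlargement_closedBall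
    T Prod.fst Prod.snd _ hR 5 (by norm_num)
  have hdisj' : u.PairwiseDisjoint fun q => ball q.1 q.2 :=
    hdisj.mono fun q => ball_subset_closedBall
  have hu : u.Countable := hdisj'.countable_of_isOpen (fun q _ => isOpen_ball)
    fun q hq => nonempty_ball.2 (huT hq).1
  have hsub : {x : E d | ∃ c r, x ∈ ball c r ∧
      ENNReal.ofReal t * volume (ball c r) ≤ ∫⁻ z in ball c r, h z} ⊆
      ⋃ q ∈ u, closedBall q.1 (5 * q.2) := by
    rintro x ⟨c, r, hx, hcr⟩
    obtain ⟨b, hb, hbb⟩ := hcov (c, r) ⟨(dist_nonneg).trans_lt (mem_ball.1 hx), hcr⟩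
    exact mem_biUnion hb (hbb (ball_subset_closedBall hx))
  calc _ ≤ (∑' q : u, volume (closedBall (q : E d × ℝ).1 (5 * (q : E d × ℝ).2))) *
        ENNReal.ofReal t :=
        mul_le_mul_left ((measure_mono hsub).trans (measure_biUnion_le _ hu _)) _
    _ = ∑' q : u, ENNReal.ofReal ((5 : ℝ) ^ d) *
        (ENNReal.ofReal t * volume (ball (q : E d × ℝ).1 (q : E d × ℝ).2)) := by
        rw [← ENNReal.tsum_mul_right]
        refine tsum_congr fun q => ?_
        have hr := (huT q.2).1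
        rw [Measure.addHaar_closedBall volume _ (by positivity),
          Measure.addHaar_ball volume _ hr.le, finrank_euclideanSpace_fin, mul_pow,
          ENNReal.ofReal_mul (by positivity)]
        ring
    _ ≤ ∑' q : u, ENNReal.ofReal ((5 : ℝ) ^ d) *
        ∫⁻ z in ball (q : E d × ℝ).1 (q : E d × ℝ).2, h z := by
        gcongr with q
        exact (huT q.2).2
    _ ≤ _ := by
        rw [ENNReal.tsum_mul_left, ← lintegral_biUnion hu (fun q _ => measurableSet_ball) hdisj']
        exact mul_le_mul_right (setLIntegral_le_lintegral _ _) _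

theorem meas_Mtilde_gt_le (hd : 0 < d) {p : ℝ} (hp : 1 < p) {f : E d → ℝ}
    {t : ℝ} (ht : 0 < t) :
    volume {x | ENNReal.ofReal t < Mtilde f x} ≤
      ENNReal.ofReal ((5 : ℝ) ^ d * (t / 2) ^ (-p)) * ∫⁻ z, ‖f z‖ₑ ^ p := by
  have ht2 : (0 : ℝ) < t / 2 := by positivity
  have hs : (0 : ℝ) < (t / 2) ^ p := Real.rpow_pos_of_pos ht2 _
  have hsub : {x | ENNReal.ofReal t < Mtilde f x} ⊆ {x : E d | ∃ c r, x ∈ ball c r ∧
      ENNReal.ofReal ((t / 2) ^ p) * volume (ball c r) ≤ ∫⁻ z in ball c r, ‖f z‖ₑ ^ p} := by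
    intro x hx
    simp only [mem_setOf_eq, Mtilde, lt_iSup_iff] at hx
    obtain ⟨c, r, hxc, hlt⟩ := hx
    refine ⟨c, r, hxc, ?_⟩
    have hB0 : volume (ball c r) ≠ 0 :=
      (measure_ball_pos volume c (dist_nonneg.trans_lt (mem_ball.1 hxc))).ne'
    have hBt : volume (ball c r) ≠ ⊤ := measure_ball_lt_top.ne
    have hpt : ∀ z, ‖f z‖ₑ ≤ ENNReal.ofReal (t / 2) +
        ENNReal.ofReal ((t / 2) ^ (1 - p)) * ‖f z‖ₑ ^ p := by
      intro z
      rcases le_total |f z| (t / 2) with h1 | h1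
      · exact le_add_right (by rw [Real.enorm_eq_ofReal_abs]; exact ENNReal.ofReal_le_ofReal h1)
      · refine le_add_left ?_
        rw [Real.enorm_eq_ofReal_abs, ENNReal.ofReal_rpow_of_nonneg (abs_nonneg _) (by linarith),
          ← ENNReal.ofReal_mul (by positivity)]
        refine ENNReal.ofReal_le_ofReal ?_
        have hz : 0 < |f z| := ht2.trans_le h1
        calc |f z| = |f z| ^ (1 - p) * |f z| ^ p := by
              rw [← Real.rpow_add hz]; norm_num
          _ ≤ _ := by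
              gcongr ?_ * _
              exact Real.rpow_le_rpow_of_nonpos ht2 h1 (by linarith)
    have h1 : ENNReal.ofReal t * volume (ball c r) ≤ ∫⁻ z in ball c r, ‖f z‖ₑ := by
      rw [← ENNReal.le_div_iff_mul_le (Or.inl hB0) (Or.inl hBt), ENNReal.div_eq_inv_mul]
      exact hlt.le
    have h2 := h1.trans (lintegral_mono hpt)
    rw [lintegral_add_left' aemeasurable_const, setLIntegral_const,
      lintegral_const_mul' _ _ ENNReal.ofReal_ne_top, show t = t / 2 + t / 2 by ring,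
      ENNReal.ofReal_add ht2.le ht2.le, add_mul, show (t / 2 + t / 2) / 2 = t / 2 by ring] at h2
    have h3 := ENNReal.le_of_add_le_add_left
      (ENNReal.mul_ne_top ENNReal.ofReal_ne_top hBt) h2
    calc ENNReal.ofReal ((t / 2) ^ p) * volume (ball c r)
        = ENNReal.ofReal ((t / 2) ^ (p - 1)) *
          (ENNReal.ofReal (t / 2) * volume (ball c r)) := by
          rw [← mul_assoc, ← ENNReal.ofReal_mul (by positivity), ← Real.rpow_add_one ht2.ne',
            sub_add_cancel]
      _ ≤ ENNReal.ofReal ((t / 2) ^ (p - 1)) *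
          (ENNReal.ofReal ((t / 2) ^ (1 - p)) * ∫⁻ z in ball c r, ‖f z‖ₑ ^ p) := by gcongr
      _ = _ := by
          rw [← mul_assoc, ← ENNReal.ofReal_mul (by positivity), ← Real.rpow_add ht2]
          norm_num
  have h := vitali_bound hd (fun z => ‖f z‖ₑ ^ p) hs
  rw [← ENNReal.le_div_iff_mul_le (Or.inl (ENNReal.ofReal_pos.2 hs).ne')
    (Or.inl ENNReal.ofReal_ne_top)] at h
  refine (measure_mono hsub).trans (h.trans_eq ?_)
  rw [ENNReal.div_eq_inv_mul, ← mul_assoc, ← ENNReal.ofReal_inv_of_pos hs,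
    ← ENNReal.ofReal_mul (by positivity), ← Real.rpow_neg ht2.le, mul_comm ((t / 2) ^ (-p))]

theorem exists_setLIntegral_Mtilde_le (hd : 0 < d) {p : ℝ} (hp : 1 < p) :
    ∃ K : ℝ, 0 ≤ K ∧ ∀ (f : E d → ℝ), AEMeasurable f →
      ∀ (s : Set (E d)) (a : ℝ), 0 < a →
        ∫⁻ x in s, Mtilde f x ≤ ENNReal.ofReal a * volume s +
          ENNReal.ofReal (K * a ^ (1 - p)) * ∫⁻ z, ‖f z‖ₑ ^ p := by
  set q : ℝ := (2 : ℝ) ^ (1 - p) with hq
  have hq0 : 0 < q := by positivity
  have hq1 : q < 1 := Real.rpow_lt_one_of_one_lt_of_neg one_lt_two (by linarith)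
  set K0 : ℝ := 2 * (5 : ℝ) ^ d * (2 : ℝ) ^ p with hK0
  refine ⟨K0 / (1 - q), by have := sub_pos.2 hq1; positivity, fun f _ s a ha => ?_⟩
  set O : ℕ → Set (E d) := fun j => {y | ENNReal.ofReal (a * 2 ^ j) < Mtilde f y} with hO
  set c : ℕ → ℝ≥0∞ := fun j => ENNReal.ofReal (a * 2 ^ (j + 1)) with hc
  have hOm : ∀ j, MeasurableSet (O j) := fun j =>
    measurableSet_lt measurable_const (measurable_Mtilde f)
  have hpt : ∀ x, Mtilde f x ≤
      ENNReal.ofReal a + ∑' j, (O j).indicator (fun _ => c j) x := by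
    intro x
    rcases eq_or_ne (Mtilde f x) ⊤ with hM | hM
    · refine le_add_left ?_
      have : ∀ j, ENNReal.ofReal a ≤ (O j).indicator (fun _ => c j) x := fun j => by
        rw [indicator_of_mem (show x ∈ O j by simp [hO, hM]), hc]
        exact ENNReal.ofReal_le_ofReal (le_mul_of_one_le_right ha.le (one_le_pow₀ one_le_two))
      refine le_trans ?_ (ENNReal.tsum_le_tsum this)
      rw [ENNReal.tsum_const_eq_top_of_ne_zero (ENNReal.ofReal_pos.2 ha).ne']
      exact le_top
    rcases le_or_gt (Mtilde f x) (ENNReal.ofReal a) with h1 | h1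
    · exact le_add_right h1
    refine le_add_left ?_
    have hex : ∃ j : ℕ, Mtilde f x ≤ c j := by
      obtain ⟨n, hn⟩ := pow_unbounded_of_one_lt ((Mtilde f x).toReal / a) one_lt_two
      refine ⟨n, ?_⟩
      rw [hc, ← ENNReal.ofReal_toReal hM]
      refine ENNReal.ofReal_le_ofReal ?_
      rw [div_lt_iff₀ ha] at hn
      rw [pow_succ]
      nlinarith [pow_pos (two_pos : (0 : ℝ) < 2) n]
    obtain ⟨j, hj, hjmin⟩ : ∃ j, Mtilde f x ≤ c j ∧ ∀ i < j, ¬ Mtilde f x ≤ c i :=
      ⟨Nat.find hex, Nat.find_spec hex, fun i hi => Nat.find_min hex hi⟩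
    refine le_trans ?_ (ENNReal.le_tsum j)
    rw [indicator_of_mem]
    · exact hj
    · show ENNReal.ofReal (a * 2 ^ j) < Mtilde f x
      cases j with
      | zero => simpa using h1
      | succ i => exact not_le.1 (hjmin i (Nat.lt_succ_self i))
  set I := ∫⁻ z, ‖f z‖ₑ ^ p
  calc ∫⁻ x in s, Mtilde f x
      ≤ ∫⁻ x in s, (ENNReal.ofReal a + ∑' j, (O j).indicator (fun _ => c j) x) :=
        lintegral_mono hpt
    _ ≤ ENNReal.ofReal a * volume s + ∑' j, c j * volume (O j) := by
        rw [lintegral_add_left measurable_const, setLIntegral_const,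
          lintegral_tsum fun j => (measurable_const.indicator (hOm j)).aemeasurable]
        gcongr with j
        refine (setLIntegral_le_lintegral _ _).trans_eq ?_
        rw [lintegral_indicator_const (hOm j)]
    _ ≤ ENNReal.ofReal a * volume s + ∑' j : ℕ, ENNReal.ofReal (K0 * a ^ (1 - p) * q ^ j) * I := by
        refine add_le_add le_rfl (ENNReal.tsum_le_tsum fun j => ?_)
        refine (mul_le_mul_right (meas_Mtilde_gt_le hd hp (by positivity)) _).trans_eq ?_
        rw [← mul_assoc, hc, ← ENNReal.ofReal_mul (by positivity)]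
        congr 2
        have h2 : (0 : ℝ) < 2 ^ j := by positivity
        rw [hK0, hq, Real.div_rpow (by positivity) two_pos.le, Real.mul_rpow ha.le h2.le,
          Real.rpow_neg ha.le, Real.rpow_neg two_pos.le, Real.rpow_sub ha, Real.rpow_one,
          ← Real.rpow_natCast ((2 : ℝ) ^ (1 - p)) j, ← Real.rpow_mul two_pos.le,
          sub_mul, one_mul, Real.rpow_sub two_pos, Real.rpow_natCast, pow_succ,
          ← Real.rpow_natCast 2 j, ← Real.rpow_mul two_pos.le, mul_comm (j : ℝ) (-p),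
          neg_mul, Real.rpow_neg two_pos.le]
        field_simp
    _ = _ := by
        rw [ENNReal.tsum_mul_right, ← ENNReal.ofReal_tsum_of_nonneg (fun j => by positivity)
          ((summable_geometric_of_lt_one hq0.le hq1).mul_left _), tsum_mul_left,
          tsum_geometric_of_lt_one hq0.le hq1, div_eq_mul_inv]
        ring_nf

/-- The approximations converge in `L^p` for some `p > 1`, by the Sobolev inequality. -/
theorem exists_tendsto_lintegral_pow_sub (hd : 2 ≤ d) {f : E d → ℝ} (hf : Integrable f)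
    {ψ : ℕ → E d → ℝ} {G : ℕ → E d → E d} {h : E d → E d}
    (hψ : ∀ n, IsC1c (ψ n) (G n)) (hh : Integrable h)
    (h1 : Tendsto (fun n => ∫ z, |(ψ n z - |f z|)|) atTop (𝓝 0))
    (h2 : Tendsto (fun n => ∫ z, ‖G n z - h z‖) atTop (𝓝 0)) :
    ∃ p : ℝ, 1 < p ∧ Tendsto (fun n => ∫⁻ z, ‖ψ n z - |f z|‖ₑ ^ p) atTop (𝓝 0) := by
  set p : ℝ := Real.conjExponent (d : ℝ) with hpdef
  have hd1 : (1 : ℝ) < d := by exact_mod_cast hd
  have hconj : Real.HolderConjugate (Module.finrank ℝ (E d) : ℝ) p := by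
    rw [finrank_euclideanSpace_fin]
    exact Real.HolderConjugate.conjExponent hd1
  have hp : 1 < p := hconj.symm.lt
  set e : ℕ → ℝ≥0∞ := fun n => ∫⁻ z, ‖G n z - h z‖ₑ with he
  have hGi : ∀ n, Integrable (G n) := fun n =>
    (hψ n).cont.integrable_of_hasCompactSupport (hψ n).suppGrad
  have he0 : Tendsto e atTop (𝓝 0) := by
    have : e = fun n => ENNReal.ofReal (∫ z, ‖G n z - h z‖) := by
      funext n
      exact (ofReal_integral_norm_eq_lintegral_enorm ((hGi n).sub hh)).symm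
    rw [this]
    simpa using ENNReal.tendsto_ofReal h2
  have hψc : ∀ n, Continuous (ψ n) := fun n =>
    continuous_iff_continuousAt.2 fun z => ((hψ n).hasGrad z).continuousAt
  set Cd : ℝ≥0∞ := (lintegralPowLePowLIntegralFDerivConst (volume : Measure (E d)) p : ℝ≥0∞)
  have hgns : ∀ n m, ∫⁻ z, ‖ψ n z - ψ m z‖ₑ ^ p ≤ Cd * (e n + e m) ^ p := by
    intro n m
    have hF : ∀ z, HasFDerivAt (fun z => ψ n z - ψ m z)
        (InnerProductSpace.toDual ℝ (E d) (G n z - G m z)) z := fun z => by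
      rw [map_sub]
      exact ((hψ n).hasGrad z).hasFDerivAt.sub ((hψ m).hasGrad z).hasFDerivAt
    have hcd : ContDiff ℝ 1 fun z => ψ n z - ψ m z := by
      rw [contDiff_one_iff_fderiv]
      refine ⟨fun z => (hF z).differentiableAt, ?_⟩
      rw [funext fun z => (hF z).fderiv]
      exact (InnerProductSpace.toDual ℝ (E d)).continuous.comp ((hψ n).cont.sub (hψ m).cont)
    refine (lintegral_pow_le_pow_lintegral_fderiv volume hcd
      ((hψ n).supp.sub (hψ m).supp) hconj).trans ?_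
    gcongr
    simp only [he]
    rw [← lintegral_add_left' (f := fun z => ‖G n z - h z‖ₑ)
      ((hGi n).sub hh).aestronglyMeasurable.enorm]
    refine lintegral_mono fun z => ?_
    rw [(hF z).fderiv, ← ofReal_norm, LinearIsometryEquiv.norm_map, ofReal_norm,
      show G n z - G m z = (G n z - h z) - (G m z - h z) by abel]
    exact enorm_sub_le
  have hL1 : Tendsto (fun n => eLpNorm (ψ n - fun z => |f z|) 1 volume) atTop (𝓝 0) := by
    have : (fun n => eLpNorm (ψ n - fun z => |f z|) 1 volume) =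
        fun n => ENNReal.ofReal (∫ z, |(ψ n z - |f z|)|) := by
      funext n
      rw [eLpNorm_one_eq_lintegral_enorm]
      exact (ofReal_integral_norm_eq_lintegral_enorm
        ((((hψc n).integrable_of_hasCompactSupport (hψ n).supp)).sub hf.abs)).symm
    rw [this]
    simpa using ENNReal.tendsto_ofReal h1
  obtain ⟨ns, hns, hae⟩ := (tendstoInMeasure_of_tendsto_eLpNorm one_ne_zero
    (fun n => (hψc n).aestronglyMeasurable) hf.abs.aestronglyMeasurable hL1).exists_seq_tendsto_ae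
  set A : ℕ → ℝ≥0∞ := fun n => ∫⁻ z, ‖ψ n z - |f z|‖ₑ ^ p with hA
  have hAle : ∀ n, A n ≤ Cd * e n ^ p := by
    intro n
    calc A n = ∫⁻ z, liminf (fun k => ‖ψ n z - ψ (ns k) z‖ₑ ^ p) atTop := by
          refine lintegral_congr_ae (hae.mono fun z hz => (Tendsto.liminf_eq ?_).symm)
          exact ((ENNReal.continuous_rpow_const (y := p)).tendsto _).comp
            ((continuous_enorm.tendsto _).comp (tendsto_const_nhds.sub hz))
      _ ≤ liminf (fun k => ∫⁻ z, ‖ψ n z - ψ (ns k) z‖ₑ ^ p) atTop :=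
          lintegral_liminf_le' fun k =>
            (((hψc n).sub (hψc (ns k))).measurable.enorm.pow_const p).aemeasurable
      _ ≤ liminf (fun k => Cd * (e n + e (ns k)) ^ p) atTop :=
          liminf_le_liminf (Eventually.of_forall fun k => hgns n (ns k))
      _ = Cd * e n ^ p := by
          refine Tendsto.liminf_eq (ENNReal.Tendsto.const_mul ?_ (Or.inr ENNReal.coe_ne_top))
          simpa [Function.comp_def] using ((ENNReal.continuous_rpow_const (y := p)).tendsto _).comp
            (tendsto_const_nhds.add (he0.comp hns.tendsto_atTop))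
  have hA0 : Tendsto A atTop (𝓝 0) := by
    refine tendsto_of_tendsto_of_tendsto_of_le_of_le tendsto_const_nhds ?_ (fun n => zero_le)
      hAle
    have h3 := ((ENNReal.continuous_rpow_const (y := p)).tendsto _).comp he0
    rw [ENNReal.zero_rpow_of_pos (by linarith)] at h3
    simpa using ENNReal.Tendsto.const_mul h3 (Or.inr (ENNReal.coe_ne_top (r := _)))
  exact ⟨p, hp, hA0⟩

theorem exists_tendsto_local (hd : 2 ≤ d) {f : E d → ℝ} (hf : Integrable f)
    {ψ : ℕ → E d → ℝ} {G : ℕ → E d → E d} {h : E d → E d}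
    (hψ : ∀ n, IsC1c (ψ n) (G n)) (hψ0 : ∀ n z, 0 ≤ ψ n z) (hh : Integrable h)
    (h1 : Tendsto (fun n => ∫ z, |(ψ n z - |f z|)|) atTop (𝓝 0))
    (h2 : Tendsto (fun n => ∫ z, ‖G n z - h z‖) atTop (𝓝 0)) :
    (∀ᵐ x, Mtilde f x < ⊤) ∧ LocallyIntegrable (fun x => (Mtilde f x).toReal) ∧
      ∀ R : ℝ, Tendsto (fun n => ∫⁻ x in closedBall (0 : E d) R,
        ‖(Mtilde (ψ n) x).toReal - (Mtilde f x).toReal‖ₑ) atTop (𝓝 0) := by
  obtain ⟨p, hp, hA0⟩ := exists_tendsto_lintegral_pow_sub hd hf hψ hh h1 h2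
  set A : ℕ → ℝ≥0∞ := fun n => ∫⁻ z, ‖ψ n z - |f z|‖ₑ ^ p with hA
  have hψc : ∀ n, Continuous (ψ n) := fun n =>
    continuous_iff_continuousAt.2 fun z => ((hψ n).hasGrad z).continuousAt
  obtain ⟨K, hK0, hK⟩ := exists_setLIntegral_Mtilde_le (d := d) (by omega) hp
  set δ : ℕ → E d → ℝ≥0∞ := fun n => Mtilde (fun z => ψ n z - |f z|) with hδ
  have hle1 : ∀ n x, Mtilde f x ≤ Mtilde (ψ n) x + δ n x := by
    intro n x
    simp only [hδ]
    rw [← Mtilde_abs f, Mtilde_sub_comm (ψ n) fun z => |f z|]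
    exact Mtilde_le_add hf.abs.aemeasurable (hψc n).aemeasurable x
  have hle2 : ∀ n x, Mtilde (ψ n) x ≤ Mtilde f x + δ n x := by
    intro n x
    simp only [hδ]
    rw [← Mtilde_abs f]
    exact Mtilde_le_add (hψc n).aemeasurable hf.abs.aemeasurable x
  have hδint : ∀ n (R a : ℝ), 0 < a → ∫⁻ x in closedBall (0 : E d) R, δ n x ≤
      ENNReal.ofReal a * volume (closedBall (0 : E d) R) +
        ENNReal.ofReal (K * a ^ (1 - p)) * A n :=
    fun n R a ha => hK _ ((hψc n).aemeasurable.sub hf.abs.aemeasurable) _ a ha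
  obtain ⟨n0, hn0⟩ : ∃ n, A n ≠ ⊤ :=
    ((hA0.eventually (eventually_lt_nhds ENNReal.zero_lt_top)).exists).imp fun n hn => hn.ne
  obtain ⟨C0, hC0⟩ := (hψ n0).supp.exists_bound_of_continuous (hψc n0)
  have hfin : ∀ R : ℝ, ∫⁻ x in closedBall (0 : E d) R, Mtilde f x ≠ ⊤ := by
    intro R
    refine ne_top_of_le_ne_top ?_ (lintegral_mono fun x =>
      (hle1 n0 x).trans (add_le_add (Mtilde_le_of_bound hC0 x) le_rfl))
    rw [lintegral_add_left measurable_const, setLIntegral_const]
    refine ENNReal.add_ne_top.2 ⟨ENNReal.mul_ne_top ENNReal.ofReal_ne_top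
      measure_closedBall_lt_top.ne, ne_top_of_le_ne_top ?_ (hδint n0 R 1 one_pos)⟩
    exact ENNReal.add_ne_top.2 ⟨ENNReal.mul_ne_top ENNReal.ofReal_ne_top
      measure_closedBall_lt_top.ne, ENNReal.mul_ne_top ENNReal.ofReal_ne_top hn0⟩
  have hfinae : ∀ᵐ x, Mtilde f x < ⊤ := by
    have h3 : ∀ᵐ x, ∀ n : ℕ, x ∈ closedBall (0 : E d) n → Mtilde f x < ⊤ :=
      ae_all_iff.2 fun n => (ae_restrict_iff' measurableSet_closedBall).1
        (ae_lt_top (measurable_Mtilde f) (hfin n))
    filter_upwards [h3] with x hx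
    obtain ⟨n, hn⟩ := exists_nat_ge (dist x 0)
    exact hx n hn
  refine ⟨hfinae, ?_, fun R => ?_⟩
  · rw [locallyIntegrable_iff]
    intro k hk
    obtain ⟨R, hR⟩ := hk.isBounded.subset_closedBall 0
    exact integrable_toReal_of_lintegral_ne_top (measurable_Mtilde f).aemeasurable
      (ne_top_of_le_ne_top (hfin R) (lintegral_mono_set hR))
  · have hmain : ∀ n, ∫⁻ x in closedBall (0 : E d) R,
        ‖(Mtilde (ψ n) x).toReal - (Mtilde f x).toReal‖ₑ ≤
          ∫⁻ x in closedBall (0 : E d) R, δ n x := by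
      intro n
      obtain ⟨C, hC⟩ := (hψ n).supp.exists_bound_of_continuous (hψc n)
      refine lintegral_mono_ae ((ae_restrict_of_ae hfinae).mono fun x hx => ?_)
      have hψt : Mtilde (ψ n) x ≠ ⊤ :=
        ne_top_of_le_ne_top ENNReal.ofReal_ne_top (Mtilde_le_of_bound hC x)
      rcases eq_or_ne (δ n x) ⊤ with hD | hD
      · rw [hD]; exact le_top
      rw [Real.enorm_eq_ofReal_abs, ← ENNReal.ofReal_toReal hD]
      refine ENNReal.ofReal_le_ofReal (abs_sub_le_iff.2 ⟨?_, ?_⟩)
      · have h4 := ENNReal.toReal_mono (ENNReal.add_ne_top.2 ⟨hx.ne, hD⟩) (hle2 n x)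
        rw [ENNReal.toReal_add hx.ne hD] at h4
        linarith
      · have h4 := ENNReal.toReal_mono (ENNReal.add_ne_top.2 ⟨hψt, hD⟩) (hle1 n x)
        rw [ENNReal.toReal_add hψt hD] at h4
        linarith
    rw [ENNReal.tendsto_nhds_zero]
    intro ε hε
    have hm : Tendsto (fun a : ℝ => ENNReal.ofReal a * volume (closedBall (0 : E d) R))
        (𝓝[>] 0) (𝓝 0) := by
      have h5 : Tendsto (fun a : ℝ => ENNReal.ofReal a) (𝓝[>] 0) (𝓝 0) := by
        simpa using ENNReal.tendsto_ofReal ((tendsto_id (x := 𝓝 (0 : ℝ))).mono_left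
          nhdsWithin_le_nhds)
      simpa using ENNReal.Tendsto.mul_const h5 (Or.inr measure_closedBall_lt_top.ne)
    obtain ⟨a, ha, ha0⟩ := ((hm.eventually (eventually_le_nhds (ENNReal.half_pos hε.ne'))).and
      self_mem_nhdsWithin).exists
    have h6 : Tendsto (fun n => ENNReal.ofReal (K * a ^ (1 - p)) * A n) atTop (𝓝 0) := by
      simpa using ENNReal.Tendsto.const_mul hA0 (Or.inr ENNReal.ofReal_ne_top)
    filter_upwards [h6.eventually (eventually_le_nhds (ENNReal.half_pos hε.ne'))] with n hn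
    calc _ ≤ _ := (hmain n).trans (hδint n R a ha0)
      _ ≤ ε / 2 + ε / 2 := add_le_add ha hn
      _ = ε := ENNReal.add_halves ε

end

end Vale.Agent.P137
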