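import Vale.Agent.P137.Defs

/-!
Auxiliary measure theory for the cell estimate: graphs over a coordinate hyperplane.
-/

namespace Vale.Agent.P137

open MeasureTheory Metric Set Filter Topology
open scoped ENNReal NNReal ContDiff RealInnerProductSpace

noncomputable section

variable {d : ℕ}

/-- The slab over the face of the cell at `q` orthogonal to direction `i`. -/
def cellSlab (q : E d) (δ : ℝ) (i : Fin d) : Set (E d) :=
  {y | ∀ j ≠ i, q j ≤ y j ∧ y j < q j + δ}

/-- The slab cut to height one in direction `i`. -/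
def unitSlab (q : E d) (δ : ℝ) (i : Fin d) : Set (E d) :=
  cellSlab q δ i ∩ {y | y i ∈ Icc (0 : ℝ) 1}

lemma measurableSet_cellSlab (q : E d) (δ : ℝ) (i : Fin d) : MeasurableSet (cellSlab q δ i) := by
  simp only [cellSlab, Set.ofPred_forall]
  exact MeasurableSet.iInter fun j => MeasurableSet.iInter fun _ =>
    measurableSet_Ico.preimage (by fun_prop : Measurable fun y : E d => y j)

/-- A set lying below height `a` and above `a - H` has measure at most the integral of `H`. -/
lemma region_le {q : E d} {δ : ℝ} (i : Fin d) {H : E d → ℝ≥0∞} (hH : Measurable H)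
    (hinv : ∀ y z : E d, (∀ j ≠ i, y j = z j) → H y = H z) (a : ℝ) :
    volume {y ∈ cellSlab q δ i | y i ≤ a ∧ ENNReal.ofReal (a - y i) ≤ H y} ≤
      ∫⁻ y in unitSlab q δ i, H y := by
  cases d with
  | zero => exact i.elim0
  | succ n =>
  let φ : E (n + 1) → ℝ × (Fin n → ℝ) := fun y => (y i, fun j => y (i.succAbove j))
  have hφ : MeasurePreserving φ volume (volume.prod volume) :=
    (volume_preserving_piFinSuccAbove (fun _ : Fin (n + 1) => ℝ) i).comp
      (PiLp.volume_preserving_ofLp (Fin (n + 1)))
  let H' : (Fin n → ℝ) → ℝ≥0∞ := fun w => H (WithLp.toLp 2 (i.insertNth 0 w))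
  have hins : Continuous fun w : Fin n → ℝ =>
      (WithLp.toLp 2 (i.insertNth (α := fun _ => ℝ) 0 w) : E (n + 1)) :=
    (PiLp.continuous_toLp 2 _).comp (Continuous.finInsertNth i continuous_const continuous_id)
  have hH' : Measurable H' := hH.comp hins.measurable
  have hHH : ∀ y : E (n + 1), H y = H' (φ y).2 := by
    intro y
    refine hinv _ _ fun j hj => ?_
    obtain ⟨k, rfl⟩ := Fin.exists_succAbove_eq hj
    simp [φ]
  let T' : Set (Fin n → ℝ) :=
    {w | ∀ j, q (i.succAbove j) ≤ w j ∧ w j < q (i.succAbove j) + δ}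
  have hT' : MeasurableSet T' := by
    simp only [T', Set.ofPred_forall]
    exact MeasurableSet.iInter fun j =>
      measurableSet_Ico.preimage (measurable_pi_apply j)
  have hT : ∀ y : E (n + 1), y ∈ cellSlab q δ i ↔ (φ y).2 ∈ T' := fun y =>
    ⟨fun h j => h _ (Fin.succAbove_ne i j), fun h j hj => by
      obtain ⟨k, rfl⟩ := Fin.exists_succAbove_eq hj
      exact h k⟩
  let S' : Set (ℝ × (Fin n → ℝ)) :=
    {p | p.2 ∈ T' ∧ p.1 ≤ a ∧ ENNReal.ofReal (a - p.1) ≤ H' p.2}
  have hS' : MeasurableSet S' :=
    (measurable_snd hT').inter ((measurableSet_le measurable_fst measurable_const).inter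
      (measurableSet_le (by fun_prop) (hH'.comp measurable_snd)))
  have hS : {y ∈ cellSlab q δ i | y i ≤ a ∧ ENNReal.ofReal (a - y i) ≤ H y} = φ ⁻¹' S' := by
    ext y
    simp only [Set.mem_ofPred_eq, Set.mem_preimage, S', hT, hHH]
    rfl
  have hU : unitSlab q δ i = φ ⁻¹' (Icc (0 : ℝ) 1 ×ˢ T') := by
    ext y
    simp only [unitSlab, Set.mem_inter_iff, Set.mem_ofPred_eq, Set.mem_preimage, Set.mem_prod, hT]
    exact and_comm
  have hR : ∫⁻ y in unitSlab q δ i, H y = ∫⁻ w in T', H' w := by
    rw [hU, setLIntegral_congr_fun (hφ.measurable (measurableSet_Icc.prod hT'))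
      (fun y _ => hHH y), hφ.setLIntegral_comp_preimage (f := fun p => H' p.2) (measurableSet_Icc.prod hT')
      (hH'.comp measurable_snd), ← Measure.prod_restrict, lintegral_prod_symm (fun p : ℝ × (Fin n → ℝ) => H' p.2)
      (hH'.comp measurable_snd).aemeasurable]
    simp
  rw [hS, hφ.measure_preimage hS'.nullMeasurableSet, Measure.prod_apply_symm hS', hR,
    ← lintegral_indicator hT']
  refine lintegral_mono fun w => ?_
  by_cases hw : w ∈ T'
  · rw [Set.indicator_of_mem hw]
    by_cases htop : H' w = ⊤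
    · simp [htop]
    calc volume ((fun t => (t, w)) ⁻¹' S') ≤ volume (Icc (a - (H' w).toReal) a) := by
          refine measure_mono fun t ht => ⟨?_, ht.2.1⟩
          have := ENNReal.toReal_mono htop ht.2.2
          rw [ENNReal.toReal_ofReal (by linarith [ht.2.1])] at this
          linarith
      _ = H' w := by rw [Real.volume_Icc]; simp [ENNReal.ofReal_toReal htop]
  · rw [Set.indicator_of_notMem hw]
    refine le_of_eq (measure_mono_null (fun t ht => (hw ht.1).elim) (measure_empty (μ := volume)))

/-- A cut slab is thin in a direction other than `i`. -/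
lemma volume_unitSlab_inter_le {q : E d} {δ : ℝ} (hδ1 : δ ≤ 1) {i j : Fin d}
    (hij : j ≠ i) (z ε : ℝ) :
    volume (unitSlab q δ i ∩ {y | |z - y j| ≤ ε}) ≤ ENNReal.ofReal (2 * ε) := by
  classical
  let B : Fin d → Set ℝ := fun k =>
    if k = i then Icc 0 1 else if k = j then Icc (z - ε) (z + ε) else Ico (q k) (q k + δ)
  have hsub : unitSlab q δ i ∩ {y | |z - y j| ≤ ε} ⊆
      (WithLp.ofLp : E d → Fin d → ℝ) ⁻¹' (univ.pi B) := by
    intro y hy k _
    obtain ⟨⟨h1, h2⟩, h3⟩ := hy
    simp only [B]
    split_ifs with hk hk'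
    · subst hk; exact h2
    · subst hk'
      have := abs_le.1 (show |z - y _| ≤ ε from h3)
      exact ⟨by linarith, by linarith⟩
    · exact h1 k hk
  have hB : MeasurableSet (univ.pi B) := MeasurableSet.univ_pi fun k => by
    simp only [B]; split_ifs <;> measurability
  refine (measure_mono hsub).trans ?_
  rw [(PiLp.volume_preserving_ofLp (Fin d)).measure_preimage hB.nullMeasurableSet, volume_pi_pi,
    ← Finset.mul_prod_erase _ _ (Finset.mem_univ j)]
  have h1 : volume (B j) = ENNReal.ofReal (2 * ε) := by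
    simp only [B, if_neg hij, ↓reduceIte, Real.volume_Icc]
    congr 1; ring
  rw [h1]
  refine mul_le_of_le_one_right (zero_le) (Finset.prod_le_one' fun k hk => ?_)
  simp only [B, if_neg (Finset.ne_of_mem_erase hk)]
  split_ifs
  · simp [Real.volume_Icc]
  · simpa [Real.volume_Ico] using hδ1

lemma volume_unitSlab_le {q : E d} {δ : ℝ} (hδ1 : δ ≤ 1) (i : Fin d) :
    volume (unitSlab q δ i) ≤ 1 := by
  classical
  let B : Fin d → Set ℝ := fun k => if k = i then Icc 0 1 else Ico (q k) (q k + δ)
  have hsub : unitSlab q δ i ⊆ (WithLp.ofLp : E d → Fin d → ℝ) ⁻¹' (univ.pi B) := by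
    intro y hy k _
    simp only [B]
    split_ifs with hk
    · subst hk; exact hy.2
    · exact hy.1 k hk
  have hB : MeasurableSet (univ.pi B) := MeasurableSet.univ_pi fun k => by
    simp only [B]; split_ifs <;> measurability
  refine (measure_mono hsub).trans ?_
  rw [(PiLp.volume_preserving_ofLp (Fin d)).measure_preimage hB.nullMeasurableSet, volume_pi_pi]
  refine Finset.prod_le_one' fun k _ => ?_
  simp only [B]
  split_ifs
  · simp [Real.volume_Icc]
  · simpa [Real.volume_Ico] using hδ1

/-- The replacement of coordinate `i` by the value of `u`. -/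
def graphMap (u : E d → ℝ) (i : Fin d) (x : E d) : E d :=
  x + (u x - x i) • EuclideanSpace.single i (1 : ℝ)

lemma graphMap_apply (u : E d → ℝ) (i j : Fin d) (x : E d) :
    graphMap u i x j = if j = i then u x else x j := by
  by_cases h : j = i
  · subst h; simp [graphMap]
  · simp [graphMap, h]

lemma det_rankOne (φ : E d →L[ℝ] ℝ) (i : Fin d) :
    (ContinuousLinearMap.id ℝ (E d) + φ.smulRight (EuclideanSpace.single i (1 : ℝ))).det =
      1 + φ (EuclideanSpace.single i (1 : ℝ)) := by
  classical
  let b := (EuclideanSpace.basisFun (Fin d) ℝ).toBasis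
  have hm : LinearMap.toMatrix b b
      (ContinuousLinearMap.id ℝ (E d) + φ.smulRight (EuclideanSpace.single i (1 : ℝ)) :
        E d →L[ℝ] E d).toLinearMap =
      1 + Matrix.replicateCol Unit (fun k => if k = i then (1 : ℝ) else 0) *
        Matrix.replicateRow Unit (fun l => φ (EuclideanSpace.single l (1 : ℝ))) := by
    ext k l
    simp [b, LinearMap.toMatrix_apply, Matrix.mul_apply, Matrix.one_apply, PiLp.single_apply,
      mul_comm]
  rw [ContinuousLinearMap.det, ← LinearMap.det_toMatrix b, hm,
    Matrix.det_one_add_replicateCol_mul_replicateRow]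
  simp [dotProduct]

lemma hasFDerivAt_graphMap {u : E d → ℝ} {u' : E d →L[ℝ] ℝ} {x : E d} (i : Fin d)
    (h : HasFDerivAt u u' x) :
    ∃ L : E d →L[ℝ] E d, HasFDerivAt (graphMap u i) L x ∧
      L.det = u' (EuclideanSpace.single i (1 : ℝ)) := by
  refine ⟨ContinuousLinearMap.id ℝ (E d) +
    (u' - EuclideanSpace.proj i).smulRight (EuclideanSpace.single i (1 : ℝ)),
    (hasFDerivAt_id x).add ((h.sub ((EuclideanSpace.proj i : E d →L[ℝ] ℝ).hasFDerivAt)).smul_const _),
    ?_⟩
  rw [det_rankOne]
  simp [PiLp.single_apply]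

end

end Vale.Agent.P137
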