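import Vale.Agent.P137.Defs

/-!
The maximal function of a nice function.
-/

namespace Vale.Agent.P137

open MeasureTheory Metric Set Filter Topology
open scoped ENNReal NNReal ContDiff RealInnerProductSpace

noncomputable section

variable {d : ℕ}

/-- The average over a ball, written on the unit ball. -/
def avgN (f : E d → ℝ) (c : E d) (r : ℝ) : ℝ :=
  (volume.real (closedBall (0 : E d) 1))⁻¹ * ∫ z in closedBall (0 : E d) 1, f (c + r • z)

lemma unitBall_pos : 0 < volume.real (closedBall (0 : E d) 1) := by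
  refine ENNReal.toReal_pos ?_ ?_
  · exact (measure_closedBall_pos volume 0 one_pos).ne'
  · exact measure_closedBall_lt_top.ne

lemma real_closedBall (c : E d) {r : ℝ} (hr : 0 < r) :
    volume.real (closedBall c r) = r ^ d * volume.real (closedBall (0 : E d) 1) := by
  rw [measureReal_def, measureReal_def, Measure.addHaar_closedBall' volume c hr.le,
    finrank_euclideanSpace_fin, ENNReal.toReal_mul, ENNReal.toReal_ofReal (by positivity)]

lemma avgB_eq_avgN (f : E d → ℝ) (c : E d) {r : ℝ} (hr : 0 < r) : avgB f c r = avgN f c r := by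
  rw [avgB, avgN, real_closedBall c hr,
    Measure.setIntegral_comp_smul_of_pos volume (fun w => f (c + w)) (closedBall (0 : E d) 1) hr,
    finrank_euclideanSpace_fin, smul_unitClosedBall, Real.norm_eq_abs, abs_of_pos hr, smul_eq_mul]
  have h : ∫ z in closedBall c r, f z = ∫ z in closedBall (0 : E d) r, f (c + z) := by
    rw [← (measurePreserving_add_left volume c).setIntegral_preimage_emb
      (MeasurableEquiv.addLeft c).measurableEmbedding f (closedBall c r)]
    congr 2
    ext z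
    simp [dist_eq_norm]
  rw [h, mul_inv]
  ring

lemma avgB_comp_smul (f : E d → ℝ) {R : ℝ} (hR : 0 < R) (c : E d) {r : ℝ} (hr : 0 < r) :
    avgB (fun z => f (R • z)) c r = avgB f (R • c) (R * r) := by
  rw [avgB_eq_avgN _ c hr, avgB_eq_avgN _ _ (mul_pos hR hr), avgN, avgN]
  simp only [smul_add, smul_smul]

variable {f : E d → ℝ} {g : E d → E d}

lemma IsC1c.continuous_fun (hf : IsC1c f g) : Continuous f :=
  continuous_iff_continuousAt.2 fun z => (hf.hasGrad z).continuousAt

lemma IsC1c.integrable (hf : IsC1c f g) : Integrable f :=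
  hf.continuous_fun.integrable_of_hasCompactSupport hf.supp

lemma IsC1c.exists_lipschitz (hf : IsC1c f g) : ∃ L : ℝ≥0, LipschitzWith L f := by
  obtain ⟨C, hC⟩ := hf.suppGrad.exists_bound_of_continuous hf.cont
  refine ⟨C.toNNReal, lipschitzWith_of_nnnorm_fderiv_le
    (fun z => (hf.hasGrad z).hasFDerivAt.differentiableAt) fun z => ?_⟩
  rw [← NNReal.coe_le_coe, coe_nnnorm, (hf.hasGrad z).hasFDerivAt.fderiv,
    LinearIsometryEquiv.norm_map]
  exact (hC z).trans (Real.le_coe_toNNReal C)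

lemma integrableOn_param (hf : IsC1c f g) (c : E d) (r : ℝ) :
    IntegrableOn (fun z => f (c + r • z)) (closedBall (0 : E d) 1) :=
  (hf.continuous_fun.comp (by fun_prop)).continuousOn.integrableOn_compact
    (isCompact_closedBall _ _)

lemma continuous_avgN (hf : IsC1c f g) :
    Continuous fun p : E d × ℝ => avgN f p.1 p.2 :=
  continuous_const.mul (continuous_parametric_integral_of_continuous
    (f := fun (p : E d × ℝ) z => f (p.1 + p.2 • z))
    (hf.continuous_fun.comp (by fun_prop)) (isCompact_closedBall _ _))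

lemma avgN_zero (f : E d → ℝ) (c : E d) : avgN f c 0 = f c := by
  simp only [avgN, zero_smul, add_zero, setIntegral_const, smul_eq_mul, ← mul_assoc]
  rw [inv_mul_cancel₀ unitBall_pos.ne', one_mul]

lemma avgN_sub_le (hf : IsC1c f g) {L : ℝ≥0} (hL : LipschitzWith L f) (c c' : E d) (r r' : ℝ) :
    avgN f c r - avgN f c' r' ≤ L * (‖c - c'‖ + |r - r'|) := by
  have hle : ∀ z ∈ closedBall (0 : E d) 1,
      f (c + r • z) - f (c' + r' • z) ≤ L * (‖c - c'‖ + |r - r'|) := by
    intro z hz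
    refine (le_abs_self _).trans ?_
    rw [← Real.dist_eq]
    refine (hL.dist_le_mul _ _).trans (mul_le_mul_of_nonneg_left ?_ L.coe_nonneg)
    rw [dist_eq_norm, show c + r • z - (c' + r' • z) = (c - c') + (r - r') • z by
      rw [sub_smul]; abel]
    refine (norm_add_le _ _).trans (add_le_add le_rfl ?_)
    rw [norm_smul, Real.norm_eq_abs]
    exact mul_le_of_le_one_right (abs_nonneg _) (by simpa using hz)
  rw [avgN, avgN, ← mul_sub, ← integral_sub (integrableOn_param hf c r) (integrableOn_param hf c' r'),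
    inv_mul_le_iff₀ unitBall_pos]
  refine (setIntegral_mono_on ((integrableOn_param hf c r).sub (integrableOn_param hf c' r'))
    (integrableOn_const measure_closedBall_lt_top.ne) measurableSet_closedBall hle).trans_eq ?_
  rw [setIntegral_const, smul_eq_mul]

lemma bddAbove_set (hf : IsC1c f g) (x : E d) :
    BddAbove (insert (f x)
      ((fun p : E d × ℝ => avgB f p.1 p.2) '' {p | 0 < p.2 ∧ dist x p.1 ≤ p.2})) := by
  obtain ⟨C, hC⟩ := hf.supp.exists_bound_of_continuous hf.continuous_fun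
  refine ⟨max C (f x), forall_mem_insert.2 ⟨le_max_right _ _, ?_⟩⟩
  rintro _ ⟨⟨c, r⟩, ⟨hr, -⟩, rfl⟩
  refine le_max_of_le_left ?_
  show avgB f c r ≤ C
  replace hr : 0 < r := hr
  rw [avgB_eq_avgN f c hr, avgN, inv_mul_le_iff₀ unitBall_pos]
  refine (setIntegral_mono_on (integrableOn_param hf c r)
    (integrableOn_const measure_closedBall_lt_top.ne) measurableSet_closedBall
    fun z _ => (le_abs_self _).trans (hC _)).trans_eq ?_
  rw [setIntegral_const, smul_eq_mul]

theorem le_umax (hf : IsC1c f g) (x : E d) : f x ≤ umax f x :=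
  le_csSup (bddAbove_set hf x) (mem_insert _ _)

theorem avgB_le_umax (hf : IsC1c f g) {x c : E d} {r : ℝ} (hr : 0 < r) (hx : dist x c ≤ r) :
    avgB f c r ≤ umax f x :=
  le_csSup (bddAbove_set hf x) (mem_insert_of_mem _ ⟨(c, r), ⟨hr, hx⟩, rfl⟩)

lemma avgN_le_umax (hf : IsC1c f g) {x c : E d} {r : ℝ} (hr : 0 ≤ r) (hx : dist x c ≤ r) :
    avgN f c r ≤ umax f x := by
  rcases hr.eq_or_lt with rfl | hr
  · obtain rfl : x = c := dist_le_zero.1 hx
    rw [avgN_zero]
    exact le_umax hf x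
  · rw [← avgB_eq_avgN f c hr]
    exact avgB_le_umax hf hr hx

theorem exists_lipschitz_umax (hf : IsC1c f g) : ∃ L : ℝ≥0, LipschitzWith L (umax f) := by
  obtain ⟨L, hL⟩ := hf.exists_lipschitz
  refine ⟨L, LipschitzWith.of_le_add_mul L fun x y => ?_⟩
  refine csSup_le (insert_nonempty _ _) (forall_mem_insert.2 ⟨?_, ?_⟩)
  · have h := hL.dist_le_mul x y
    rw [Real.dist_eq] at h
    linarith [le_umax hf y, le_abs_self (f x - f y)]
  · rintro _ ⟨⟨c, r⟩, ⟨hr, hx⟩, rfl⟩
    have hy : dist y (c + (y - x)) ≤ r := by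
      rw [dist_eq_norm, show y - (c + (y - x)) = x - c by abel, ← dist_eq_norm]
      exact hx
    have h1 := avgN_sub_le hf hL c (c + (y - x)) r r
    have h2 := avgN_le_umax hf hr.le hy
    rw [show c - (c + (y - x)) = x - y by abel, sub_self, abs_zero, add_zero, ← dist_eq_norm] at h1
    show avgB f c r ≤ _
    rw [avgB_eq_avgN f c hr]
    linarith

lemma avgB_le_mass (hf : IsC1c f g) (h0 : ∀ z, 0 ≤ f z) (c : E d) {r : ℝ} (hr : 0 < r) :
    avgB f c r ≤ (∫ z, f z) / (r ^ d * volume.real (closedBall (0 : E d) 1)) := by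
  rw [avgB, real_closedBall c hr, ← div_eq_inv_mul]
  exact div_le_div_of_nonneg_right (setIntegral_le_integral hf.integrable (Eventually.of_forall h0))
    (mul_nonneg (by positivity) unitBall_pos.le)

theorem exists_optimal (hd : 0 < d) (hf : IsC1c f g) (h0 : ∀ z, 0 ≤ f z) {x : E d}
    (hx : f x < umax f x) :
    ∃ c r, 0 < r ∧ dist x c ≤ r ∧ avgB f c r = umax f x := by
  obtain ⟨L, hL⟩ := hf.exists_lipschitz
  set m := (f x + umax f x) / 2 with hm
  have hm1 : f x < m := by rw [hm]; linarith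
  have hm2 : m < umax f x := by rw [hm]; linarith
  have hm0 : 0 < m := (h0 x).trans_lt hm1
  set W := volume.real (closedBall (0 : E d) 1)
  have hW : 0 < W := unitBall_pos
  set δ := (m - f x) / (2 * (L + 1))
  have hδ : 0 < δ := div_pos (by linarith) (by positivity)
  set R := max 1 ((∫ z, f z) / (m * W))
  have hbounds : ∀ c r, 0 < r → dist x c ≤ r → m < avgB f c r → δ ≤ r ∧ r ≤ R := by
    intro c r hr hxc hlt
    constructor
    · have h1 := avgN_sub_le hf hL c x r 0
      rw [avgN_zero, ← avgB_eq_avgN f c hr, ← dist_eq_norm, dist_comm, sub_zero, abs_of_pos hr]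
        at h1
      have h2 : (L : ℝ) * (dist x c + r) ≤ (L + 1) * (2 * r) := by
        have := L.coe_nonneg
        nlinarith [dist_nonneg (x := x) (y := c)]
      rw [div_le_iff₀ (by positivity)]
      linarith
    · refine le_max_iff.2 ?_
      by_cases h1 : r ≤ 1
      · exact Or.inl h1
      · push Not at h1
        refine Or.inr ((le_div_iff₀ (mul_pos hm0 hW)).2 ?_)
        have h2 := hlt.le.trans (avgB_le_mass hf h0 c hr)
        rw [le_div_iff₀ (by positivity)] at h2
        have h3 : r ≤ r ^ d := le_self_pow₀ h1.le (by omega)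
        nlinarith [mul_le_mul_of_nonneg_left h3 (mul_pos hm0 hW).le]
  obtain ⟨v, hv, hmv⟩ := exists_lt_of_lt_csSup (insert_nonempty _ _) hm2
  rcases hv with rfl | ⟨⟨c₀, r₀⟩, ⟨hr₀, hx₀⟩, rfl⟩
  · exact absurd hmv (not_lt.2 hm1.le)
  set Kset := (closedBall x R ×ˢ Icc δ R) ∩ {p : E d × ℝ | dist x p.1 ≤ p.2}
  have hcomp : IsCompact Kset := ((isCompact_closedBall x R).prod isCompact_Icc).inter_right
    (isClosed_le (continuous_const.dist continuous_fst) continuous_snd)
  have hmem : ∀ c r, 0 < r → dist x c ≤ r → m < avgB f c r → (c, r) ∈ Kset := by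
    intro c r hr hxc hlt
    obtain ⟨h1, h2⟩ := hbounds c r hr hxc hlt
    refine ⟨⟨?_, h1, h2⟩, hxc⟩
    rw [mem_closedBall, dist_comm]
    exact hxc.trans h2
  obtain ⟨⟨c, r⟩, ⟨⟨-, hδr, -⟩, hxc⟩, hmax⟩ :=
    hcomp.exists_isMaxOn ⟨_, hmem c₀ r₀ hr₀ hx₀ hmv⟩ (continuous_avgN hf).continuousOn
  have hr : 0 < r := hδ.trans_le hδr
  refine ⟨c, r, hr, hxc, le_antisymm (avgB_le_umax hf hr hxc) ?_⟩
  have hcr : m < avgB f c r := by
    rw [avgB_eq_avgN f c hr]
    refine lt_of_lt_of_le ?_ (hmax (hmem c₀ r₀ hr₀ hx₀ hmv))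
    show m < avgN f c₀ r₀
    rw [← avgB_eq_avgN f c₀ hr₀]
    exact hmv
  refine csSup_le (insert_nonempty _ _) (forall_mem_insert.2 ⟨by linarith, ?_⟩)
  rintro _ ⟨⟨c', r'⟩, ⟨hr', hx'⟩, rfl⟩
  show avgB f c' r' ≤ avgB f c r
  by_cases hlt : m < avgB f c' r'
  · rw [avgB_eq_avgN f c' hr', avgB_eq_avgN f c hr]
    exact hmax (hmem c' r' hr' hx' hlt)
  · linarith

lemma hasGradientAt_umax {x : E d} (hu : DifferentiableAt ℝ (umax f) x) :
    HasFDerivAt (umax f) (InnerProductSpace.toDual ℝ (E d) (gradient (umax f) x)) x :=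
  hu.hasGradientAt.hasFDerivAt

lemma inner_gradient_optimal (hf : IsC1c f g) {x c : E d} {r : ℝ}
    (hu : DifferentiableAt ℝ (umax f) x) (hr : 0 < r) (hx : dist x c ≤ r)
    (hopt : avgB f c r = umax f x) :
    r * ‖gradient (umax f) x‖ ≤ ⟪gradient (umax f) x, c - x⟫ := by
  set v := gradient (umax f) x with hv
  rcases eq_or_ne v 0 with h | h
  · simp [h]
  have hmin : IsLocalMinOn (umax f) (closedBall c r) x :=
    Filter.eventually_of_mem self_mem_nhdsWithin fun y hy =>
      hopt ▸ avgB_le_umax hf hr hy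
  set y := c - (r / ‖v‖) • v with hy
  have hyB : y ∈ closedBall c r := by
    have : 0 < ‖v‖ := norm_pos_iff.2 h
    rw [mem_closedBall, dist_eq_norm, hy, sub_sub_cancel_left, norm_neg, norm_smul,
      Real.norm_eq_abs, abs_of_pos (by positivity), div_mul_cancel₀ _ this.ne']
  have hseg : segment ℝ x y ⊆ closedBall c r :=
    (convex_closedBall c r).segment_subset (mem_closedBall.2 hx) hyB
  have h1 := hmin.hasFDerivWithinAt_nonneg (hasGradientAt_umax hu).hasFDerivWithinAt
    (sub_mem_posTangentConeAt_of_segment_subset hseg)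
  rw [InnerProductSpace.toDual_apply_apply, ← hv, hy,
    show c - (r / ‖v‖) • v - x = (c - x) - (r / ‖v‖) • v by abel, inner_sub_right,
    real_inner_smul_right, real_inner_self_eq_norm_sq, pow_two] at h1
  have h2 : r / ‖v‖ * (‖v‖ * ‖v‖) = r * ‖v‖ := by
    have := norm_ne_zero_iff.2 h
    field_simp
  linarith

theorem gradient_at_optimal (hd : 0 < d) (hf : IsC1c f g) {x c : E d} {r : ℝ}
    (hu : DifferentiableAt ℝ (umax f) x) (hr : 0 < r) (hx : dist x c ≤ r)
    (hopt : avgB f c r = umax f x) :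
    (∃ a : ℝ, 0 ≤ a ∧ gradient (umax f) x = a • (c - x)) ∧
      (gradient (umax f) x ≠ 0 → dist x c = r) := by
  have h1 := inner_gradient_optimal hf hu hr hx hopt
  set v := gradient (umax f) x
  have hcs := real_inner_le_norm v (c - x)
  have hxc : ‖c - x‖ ≤ r := by rwa [← dist_eq_norm, dist_comm]
  constructor
  · refine ⟨‖v‖ / r, by positivity, ?_⟩
    rw [← sub_eq_zero, ← norm_le_zero_iff]
    have h2 : ‖v - (‖v‖ / r) • (c - x)‖ ^ 2 ≤ 0 := by
      rw [norm_sub_sq_real, norm_smul, real_inner_smul_right, Real.norm_eq_abs,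
        abs_of_nonneg (div_nonneg (norm_nonneg v) hr.le)]
      have e1 : ‖v‖ / r * (r * ‖v‖) ≤ ‖v‖ / r * ⟪v, c - x⟫ :=
        mul_le_mul_of_nonneg_left h1 (by positivity)
      have e2 : ‖v‖ / r * (r * ‖v‖) = ‖v‖ ^ 2 := by field_simp
      have e3 : ‖v‖ / r * ‖c - x‖ ≤ ‖v‖ := by
        calc ‖v‖ / r * ‖c - x‖ ≤ ‖v‖ / r * r := mul_le_mul_of_nonneg_left hxc (by positivity)
          _ = ‖v‖ := div_mul_cancel₀ _ hr.ne'
      have e4 : (‖v‖ / r * ‖c - x‖) ^ 2 ≤ ‖v‖ ^ 2 := pow_le_pow_left₀ (by positivity) e3 2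
      linarith
    have h3 : ‖v - (‖v‖ / r) • (c - x)‖ = 0 :=
      pow_eq_zero_iff (n := 2) two_ne_zero |>.1 (le_antisymm h2 (by positivity))
    exact h3.le
  · intro hv
    have hv' := norm_pos_iff.2 hv
    refine le_antisymm hx ?_
    rw [dist_comm, dist_eq_norm]
    refine le_of_mul_le_mul_left ?_ hv'
    linarith

theorem norm_gradient_le (hd : 0 < d) (hf : IsC1c f g) (h0 : ∀ z, 0 ≤ f z) {x c : E d} {r : ℝ}
    (hu : DifferentiableAt ℝ (umax f) x) (hr : 0 < r) (hx : dist x c ≤ r)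
    (hopt : avgB f c r = umax f x) :
    ‖gradient (umax f) x‖ ≤
      d * (∫ z, f z) / (volume.real (closedBall (0 : E d) 1) * r ^ (d + 1)) := by
  have h1 := inner_gradient_optimal hf hu hr hx hopt
  set v := gradient (umax f) x
  set W := volume.real (closedBall (0 : E d) 1) with hW
  have hW0 : 0 < W := unitBall_pos
  let ψ : ℝ → ℝ := fun s => umax f (x + s • (x - c)) * (1 + s) ^ d
  have hψ : HasDerivAt ψ (⟪v, x - c⟫ + umax f x * d) 0 := by
    have hline : HasDerivAt (fun s : ℝ => x + s • (x - c)) (x - c) 0 := by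
      simpa using ((hasDerivAt_id (0 : ℝ)).smul_const (x - c)).const_add x
    have hA := (hasGradientAt_umax hu).comp_hasDerivAt_of_eq (0 : ℝ) hline (by simp)
    have hB : HasDerivAt (fun s : ℝ => (1 + s) ^ d) (d : ℝ) 0 := by
      simpa using ((hasDerivAt_id (0 : ℝ)).const_add 1).fun_pow d
    refine (hA.mul hB).congr_deriv ?_
    simp only [InnerProductSpace.toDual_apply_apply, Function.comp_apply, zero_smul, add_zero,
      one_pow, mul_one]
    rfl
  have hmin : IsLocalMinOn ψ (Ici 0) 0 := by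
    refine Filter.eventually_of_mem self_mem_nhdsWithin fun s (hs : 0 ≤ s) => ?_
    simp only [ψ, zero_smul, add_zero, one_pow, mul_one]
    have hs1 : 0 < 1 + s := by linarith
    have hball : dist (x + s • (x - c)) c ≤ (1 + s) * r := by
      rw [dist_eq_norm, show x + s • (x - c) - c = (1 + s) • (x - c) by
        rw [add_smul, one_smul]; abel, norm_smul, Real.norm_eq_abs, abs_of_pos hs1, ← dist_eq_norm]
      exact mul_le_mul_of_nonneg_left hx hs1.le
    have h2 := avgB_le_umax hf (mul_pos hs1 hr) hball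
    have h3 : avgB f c r ≤ avgB f c ((1 + s) * r) * (1 + s) ^ d := by
      rw [avgB, avgB, real_closedBall c hr, real_closedBall c (mul_pos hs1 hr)]
      have h4 : ∫ z in closedBall c r, f z ≤ ∫ z in closedBall c ((1 + s) * r), f z :=
        setIntegral_mono_set hf.integrable.integrableOn (Eventually.of_forall h0)
          (LE.le.eventuallyLE (closedBall_subset_closedBall (by nlinarith)))
      rw [mul_pow]
      calc (r ^ d * volume.real (closedBall (0 : E d) 1))⁻¹ * ∫ z in closedBall c r, f z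
          ≤ (r ^ d * volume.real (closedBall (0 : E d) 1))⁻¹ *
              ∫ z in closedBall c ((1 + s) * r), f z :=
            mul_le_mul_of_nonneg_left h4 (inv_nonneg.2 (mul_nonneg (by positivity) unitBall_pos.le))
        _ = _ := by field_simp
    calc umax f x = avgB f c r := hopt.symm
      _ ≤ avgB f c ((1 + s) * r) * (1 + s) ^ d := h3
      _ ≤ _ := mul_le_mul_of_nonneg_right h2 (by positivity)
  have hseg : segment ℝ (0 : ℝ) 1 ⊆ Ici 0 := by
    rw [segment_eq_Icc zero_le_one]; exact Icc_subset_Ici_self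
  have h5 := hmin.hasFDerivWithinAt_nonneg hψ.hasFDerivAt.hasFDerivWithinAt
    (sub_mem_posTangentConeAt_of_segment_subset hseg)
  simp only [sub_zero, ContinuousLinearMap.toSpanSingleton_apply, one_smul] at h5
  have h6 : r * ‖v‖ ≤ umax f x * d := by
    rw [← neg_sub x c, inner_neg_right] at h1
    linarith
  have h7 : umax f x ≤ (∫ z, f z) / (r ^ d * W) := hopt ▸ avgB_le_mass hf h0 c hr
  rw [le_div_iff₀ (by positivity)]
  calc ‖v‖ * (W * r ^ (d + 1)) = r * ‖v‖ * (r ^ d * W) := by ring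
    _ ≤ (∫ z, f z) / (r ^ d * W) * d * (r ^ d * W) :=
        mul_le_mul_of_nonneg_right (h6.trans (mul_le_mul_of_nonneg_right h7 (Nat.cast_nonneg _)))
          (by positivity)
    _ = d * (∫ z, f z) := by field_simp

theorem gradient_eq_of_attached (hf : IsC1c f g) {x : E d}
    (hu : DifferentiableAt ℝ (umax f) x) (hx : umax f x = f x) :
    gradient (umax f) x = g x := by
  have hmin : IsLocalMin (fun y => umax f y - f y) x := Eventually.of_forall fun y => by
    simp only [hx, sub_self]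
    linarith [le_umax hf y]
  have h := hmin.hasFDerivAt_eq_zero ((hasGradientAt_umax hu).sub (hf.hasGrad x).hasFDerivAt)
  rw [← map_sub] at h
  exact sub_eq_zero.1 ((InnerProductSpace.toDual ℝ (E d)).map_eq_zero_iff.1 h)

theorem measurableSet_scaleSet (hd : 0 < d) (hf : IsC1c f g) (k : ℤ) :
    MeasurableSet (scaleSet f k) := by
  obtain ⟨L, hL⟩ := exists_lipschitz_umax hf
  set Kc := closedBall (0 : E d) ((2 : ℝ) ^ (k + 1)) ×ˢ Icc ((2 : ℝ) ^ k) ((2 : ℝ) ^ (k + 1))
  have : CompactSpace Kc :=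
    isCompact_iff_compactSpace.1 ((isCompact_closedBall _ _).prod isCompact_Icc)
  let C : Set (E d × Kc) :=
    {q | ‖(q.2 : E d × ℝ).1‖ ≤ (q.2 : E d × ℝ).2 ∧
      avgN f (q.1 + (q.2 : E d × ℝ).1) (q.2 : E d × ℝ).2 = umax f q.1}
  have hC : IsClosed C := by
    refine (isClosed_le (α := ℝ) (β := E d × Kc) ?_ ?_).inter
      (isClosed_eq ?_ (hL.continuous.comp continuous_fst))
    · fun_prop
    · fun_prop
    exact (continuous_avgN hf).comp (f := fun q : E d × Kc => (q.1 + (q.2 : E d × ℝ).1, (q.2 : E d × ℝ).2))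
      (by fun_prop)
  have hproj := isClosedMap_fst_of_compactSpace _ hC
  have heq : scaleSet f k = {x | f x < umax f x} ∩
      {x | DifferentiableAt ℝ (umax f) x} ∩ Prod.fst '' C := by
    ext x
    simp only [scaleSet, mem_ofPred_eq, mem_inter_iff, mem_image, C]
    constructor
    · rintro ⟨h1, h2, c, r, hr, hxc, hopt⟩
      have hr0 : 0 < r := lt_of_lt_of_le (zpow_pos two_pos k) hr.1
      have hn : ‖c - x‖ ≤ r := by rwa [← dist_eq_norm, dist_comm]
      refine ⟨⟨h1, h2⟩, ⟨x, ⟨(c - x, r), ?_, hr⟩⟩, ⟨hn, ?_⟩, rfl⟩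
      · rw [mem_closedBall, dist_zero_right]
        exact hn.trans hr.2
      · show avgN f (x + (c - x)) r = umax f x
        rw [add_sub_cancel, ← avgB_eq_avgN f c hr0, hopt]
    · rintro ⟨⟨h1, h2⟩, ⟨y, ⟨⟨h, r⟩, hp⟩⟩, ⟨hn, hopt⟩, rfl⟩
      have hr0 : 0 < r := lt_of_lt_of_le (zpow_pos two_pos k) hp.2.1
      refine ⟨h1, h2, y + h, r, hp.2, ?_, ?_⟩
      · rw [dist_self_add_right]; exact hn
      · rw [avgB_eq_avgN f _ hr0]; exact hopt
  rw [heq]
  exact (((isOpen_lt hf.continuous_fun hL.continuous).measurableSet.inter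
    (measurableSet_of_differentiableAt ℝ (umax f))).inter hproj.measurableSet)

theorem detached_subset_iUnion (hd : 0 < d) (hf : IsC1c f g) (h0 : ∀ z, 0 ≤ f z) :
    {x | f x < umax f x ∧ DifferentiableAt ℝ (umax f) x} ⊆ ⋃ k : ℤ, scaleSet f k := by
  rintro x ⟨h1, h2⟩
  obtain ⟨c, r, hr, hxc, hopt⟩ := exists_optimal hd hf h0 h1
  obtain ⟨k, hk1, hk2⟩ := exists_mem_Ico_zpow hr one_lt_two
  exact mem_iUnion.2 ⟨k, h1, h2, c, r, ⟨hk1, hk2.le⟩, hxc, hopt⟩

theorem umax_scale (f : E d → ℝ) {R : ℝ} (hR : 0 < R) (x : E d) :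
    umax (fun z => f (R • z)) x = umax f (R • x) := by
  refine congrArg (fun S => sSup (insert (f (R • x)) S)) ?_
  ext v
  constructor
  · rintro ⟨⟨c, r⟩, ⟨hr, hxc⟩, rfl⟩
    refine ⟨(R • c, R * r), ⟨mul_pos hR hr, ?_⟩, (avgB_comp_smul f hR c hr).symm⟩
    rw [dist_smul₀, Real.norm_eq_abs, abs_of_pos hR]
    exact mul_le_mul_of_nonneg_left hxc hR.le
  · rintro ⟨⟨c, r⟩, ⟨hr, hxc⟩, rfl⟩
    refine ⟨(R⁻¹ • c, R⁻¹ * r), ⟨mul_pos (inv_pos.2 hR) hr, ?_⟩, ?_⟩
    · simp only at hxc ⊢
      rw [← inv_smul_smul₀ hR.ne' x, dist_smul₀, Real.norm_eq_abs, abs_of_pos (inv_pos.2 hR)]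
      exact mul_le_mul_of_nonneg_left hxc (inv_pos.2 hR).le
    · show avgB _ (R⁻¹ • c) (R⁻¹ * r) = avgB f c r
      rw [avgB_comp_smul f hR _ (mul_pos (inv_pos.2 hR) hr), smul_inv_smul₀ hR.ne', ← mul_assoc,
        mul_inv_cancel₀ hR.ne', one_mul]

theorem scaleSet_scale (f : E d → ℝ) (k : ℤ) :
    scaleSet (fun z => f (((2 : ℝ) ^ k) • z)) 0 =
      (fun z => ((2 : ℝ) ^ k) • z) ⁻¹' scaleSet f k := by
  set R := (2 : ℝ) ^ k
  have hR : 0 < R := zpow_pos two_pos k
  have hR2 : (2 : ℝ) ^ (k + 1) = R * 2 := zpow_add_one₀ two_ne_zero k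
  have hfun : umax (fun z => f (R • z)) = fun x => umax f (R • x) :=
    funext (umax_scale f hR)
  ext x
  simp only [scaleSet, mem_ofPred_eq, mem_preimage, umax_scale f hR, zero_add, zpow_zero, zpow_one,
    hR2]
  refine and_congr Iff.rfl (and_congr ⟨fun h => ?_, fun h => ?_⟩ ⟨?_, ?_⟩)
  · rw [hfun] at h
    have h' : DifferentiableAt ℝ (fun x => umax f (R • x)) (R⁻¹ • R • x) := by
      rwa [inv_smul_smul₀ hR.ne']
    have h2 := h'.comp (R • x) (differentiableAt_id.const_smul R⁻¹)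
    refine h2.congr_of_eventuallyEq (Eventually.of_forall fun y => ?_)
    simp [Function.comp, smul_inv_smul₀ hR.ne']
  · rw [hfun]
    exact h.comp x (differentiableAt_id.const_smul R)
  · rintro ⟨c, r, ⟨h1, h2⟩, hxc, hopt⟩
    have hr : 0 < r := by linarith
    refine ⟨R • c, R * r, ⟨le_mul_of_one_le_right hR.le h1, mul_le_mul_of_nonneg_left h2 hR.le⟩,
      ?_, ?_⟩
    · rw [dist_smul₀, Real.norm_eq_abs, abs_of_pos hR]
      exact mul_le_mul_of_nonneg_left hxc hR.le
    · rw [← avgB_comp_smul f hR c hr, hopt]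
  · rintro ⟨c, r, ⟨h1, h2⟩, hxc, hopt⟩
    have hr : 0 < r := hR.trans_le h1
    refine ⟨R⁻¹ • c, R⁻¹ * r, ⟨?_, ?_⟩, ?_, ?_⟩
    · rw [le_inv_mul_iff₀ hR, mul_one]; exact h1
    · rw [inv_mul_le_iff₀ hR]; exact h2
    · rw [← inv_smul_smul₀ hR.ne' x, dist_smul₀, Real.norm_eq_abs, abs_of_pos (inv_pos.2 hR)]
      exact mul_le_mul_of_nonneg_left hxc (inv_pos.2 hR).le
    · rw [avgB_comp_smul f hR _ (mul_pos (inv_pos.2 hR) hr), smul_inv_smul₀ hR.ne', ← mul_assoc,
        mul_inv_cancel₀ hR.ne', one_mul, hopt]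

lemma ofReal_avgB_eq (hd : 0 < d) (hf : IsC1c f g) (h0 : ∀ z, 0 ≤ f z) (c : E d) {r : ℝ}
    (hr : 0 < r) :
    (volume (ball c r))⁻¹ * ∫⁻ z in ball c r, ‖f z‖ₑ = ENNReal.ofReal (avgB f c r) := by
  have : Nonempty (Fin d) := ⟨⟨0, hd⟩⟩
  have hae : ball c r =ᵐ[volume] closedBall c r :=
    ae_eq_of_subset_of_measure_ge ball_subset_closedBall
      (Measure.addHaar_closedBall_eq_addHaar_ball volume c r).le measurableSet_ball.nullMeasurableSet
      measure_closedBall_lt_top.ne
  have hv : volume (closedBall c r) = ENNReal.ofReal (volume.real (closedBall c r)) :=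
    (ENNReal.ofReal_toReal measure_closedBall_lt_top.ne).symm
  rw [measure_congr hae, setLIntegral_congr hae, avgB, ← ofReal_integral_norm_eq_lintegral_enorm
    hf.integrable.integrableOn, hv, ← ENNReal.ofReal_inv_of_pos, ← ENNReal.ofReal_mul]
  · simp only [Real.norm_eq_abs, abs_of_nonneg (h0 _), measureReal_def,
      ]
  · exact inv_nonneg.2 measureReal_nonneg
  · exact ENNReal.toReal_pos (measure_closedBall_pos volume c hr).ne' measure_closedBall_lt_top.ne

theorem Mtilde_eq_umax (hd : 0 < d) (hf : IsC1c f g) (h0 : ∀ z, 0 ≤ f z) (x : E d) :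
    Mtilde f x = ENNReal.ofReal (umax f x) := by
  refine le_antisymm (iSup_le fun c => iSup_le fun r => iSup_le fun hx => ?_) ?_
  · have hr : 0 < r := pos_of_mem_ball hx
    rw [ofReal_avgB_eq hd hf h0 c hr]
    exact ENNReal.ofReal_le_ofReal (avgB_le_umax hf hr (mem_ball.1 hx).le)
  · have key : ∀ c r, 0 ≤ r → dist x c ≤ r → ENNReal.ofReal (avgN f c r) ≤ Mtilde f x := by
      intro c r hr hxc
      have hlim : Tendsto (fun s => ENNReal.ofReal (avgN f c s)) (𝓝[>] r)
          (𝓝 (ENNReal.ofReal (avgN f c r))) :=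
        ((ENNReal.continuous_ofReal.comp ((continuous_avgN hf).comp
          (f := fun s : ℝ => (c, s)) (by fun_prop))).tendsto r).mono_left nhdsWithin_le_nhds
      refine le_of_tendsto hlim (eventually_of_mem self_mem_nhdsWithin fun s (hs : r < s) => ?_)
      have hs0 : 0 < s := hr.trans_lt hs
      rw [← avgB_eq_avgN f c hs0, ← ofReal_avgB_eq hd hf h0 c hs0]
      exact le_iSup_of_le c (le_iSup_of_le s (le_iSup_of_le (mem_ball.2 (hxc.trans_lt hs)) le_rfl))
    by_cases htop : Mtilde f x = ⊤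
    · rw [htop]; exact le_top
    have hnn : ∀ c r, 0 ≤ avgN f c r := fun c r =>
      mul_nonneg (inv_nonneg.2 unitBall_pos.le) (integral_nonneg fun z => h0 _)
    rw [ENNReal.ofReal_le_iff_le_toReal htop]
    refine csSup_le (insert_nonempty _ _) (forall_mem_insert.2 ⟨?_, ?_⟩)
    · rw [← ENNReal.ofReal_le_iff_le_toReal htop, ← avgN_zero f x]
      exact key x 0 le_rfl (by simp)
    · rintro _ ⟨⟨c, r⟩, ⟨hr, hxc⟩, rfl⟩
      show avgB f c r ≤ _
      rw [← ENNReal.ofReal_le_iff_le_toReal htop, avgB_eq_avgN f c hr]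
      exact key c r hr.le hxc

end

end Vale.Agent.P137
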