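import Vale.Agent.P137.Families
import Vale.Agent.P137.MaxFun
import Vale.Agent.P137.CellAux

/-!
The gradient bound on points with optimal radius of unit scale.
-/

namespace Vale.Agent.P137

open MeasureTheory Metric Set Filter Topology
open scoped ENNReal NNReal ContDiff RealInnerProductSpace

noncomputable section

variable {d : ℕ}

/-- The side of the cells. -/
def cellSide (d : ℕ) : ℝ := 1 / (4 * d)

/-- The lattice of cell corners. -/
def cellPt (b : Fin d → ℤ) : E d := WithLp.toLp 2 fun i => cellSide d * b i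

/-- The weight that only sees coordinate `j`. -/
def projWgt (A : ℝ) (n : ℕ) (j : Fin d) (z : E d) : ℝ≥0∞ :=
  ENNReal.ofReal (dec n) + if |z j| ≤ A * dec n then 1 else 0

/-- The error as a function of the coordinates seen by `j`. -/
def cellH (A : ℝ) (g : E d → E d) (q : E d) (j : Fin d) (y : E d) : ℝ≥0∞ :=
  ∑' n, ENNReal.ofReal ((side n ^ d)⁻¹) *
    ∫⁻ η in bigBox q, projWgt A n j (mid η (side n) - y) *
      ENNReal.ofReal (deficit g η (side n))

/-- The points of a cell whose gradient points mostly along a signed axis. -/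
def cellPiece (f : E d → ℝ) (q : E d) (i : Fin d) (σ : ℝ) : Set (E d) :=
  {x | x ∈ scaleSet f 0 ∧ x ∈ box q (cellSide d) ∧ gradient (umax f) x ≠ 0 ∧
    ‖gradient (umax f) x‖ ≤ Real.sqrt d * (σ * gradient (umax f) x i)}

lemma cellSide_pos (hd : 0 < d) : 0 < cellSide d := by
  unfold cellSide; positivity

lemma cellSide_le (hd : 0 < d) : cellSide d ≤ 1 := by
  have : (1 : ℝ) ≤ d := by exact_mod_cast hd
  rw [cellSide, div_le_one (by positivity)]; linarith

lemma dec_nonneg (n : ℕ) : 0 ≤ dec n := by unfold dec; positivity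

lemma fderiv_eq_inner_gradient (u : E d → ℝ) (x v : E d) :
    fderiv ℝ u x v = ⟪gradient u x, v⟫ := by
  rw [gradient, InnerProductSpace.toDual_symm_apply]

lemma fderiv_single (u : E d → ℝ) (x : E d) (i : Fin d) :
    fderiv ℝ u x (EuclideanSpace.single i (1 : ℝ)) = gradient u x i := by
  rw [fderiv_eq_inner_gradient, EuclideanSpace.inner_single_right]
  simp

lemma measurable_gradient (u : E d → ℝ) : Measurable (gradient u) :=
  (InnerProductSpace.toDual ℝ (E d)).symm.continuous.measurable.comp (measurable_fderiv ℝ u)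

lemma measurableSet_cellPiece (hd : 0 < d) {f : E d → ℝ} {g : E d → E d} (hf : IsC1c f g)
    (q : E d) (i : Fin d) (σ : ℝ) : MeasurableSet (cellPiece f q i σ) := by
  have hm := measurable_gradient (umax f)
  have hi : Measurable fun x => gradient (umax f) x i :=
    (by fun_prop : Measurable fun y : E d => y i).comp hm
  exact (measurableSet_scaleSet hd hf 0).inter ((measurableSet_box _ _).inter
    ((hm (measurableSet_singleton 0).compl).inter
      (measurableSet_le hm.norm (measurable_const.mul (measurable_const.mul hi)))))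

lemma dist_le_one_of_mem_box (hd : 0 < d) {q x x' : E d} (hx : x ∈ box q (cellSide d))
    (hx' : x' ∈ box q (cellSide d)) : dist x x' ≤ 1 := by
  have hδ := cellSide_pos (d := d) hd
  have hd' : (1 : ℝ) ≤ d := by exact_mod_cast hd
  rw [EuclideanSpace.dist_eq, Real.sqrt_le_one]
  calc ∑ j, dist (x j) (x' j) ^ 2 ≤ ∑ _j : Fin d, cellSide d ^ 2 := by
        refine Finset.sum_le_sum fun j _ => ?_
        have h1 := hx j
        have h2 := hx' j
        rw [Real.dist_eq, sq_abs]
        nlinarith [h1.1, h1.2, h2.1, h2.2]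
    _ = (d : ℝ) * cellSide d ^ 2 := by simp
    _ ≤ 1 := by
        rw [cellSide, div_pow, mul_div_assoc', div_le_one (by positivity)]
        nlinarith

lemma closedBall_subset_root (hd : 0 < d) {q x ξ : E d} (hx : x ∈ box q (cellSide d))
    (hξ : ξ ∈ rootBox q) : closedBall x 64 ⊆ box ξ S0 := by
  intro z hz i
  have hc : |z i - x i| ≤ 64 := by
    have := (PiLp.norm_apply_le (z - x) i).trans (mem_closedBall_iff_norm.1 hz)
    simpa [Real.norm_eq_abs] using this
  have h1 := hx i
  have h2 := hξ i
  have h3 := cellSide_le (d := d) hd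
  have h4 := abs_le.1 hc
  simp only [diag, PiLp.sub_apply] at h2
  constructor <;> simp only [S0] <;> linarith [h1.1, h1.2, h2.1, h2.2, h4.1, h4.2]

/-- The range of the maximal function on a cell. -/
lemma exists_range_bound (hd : 0 < d) : ∃ K A : ℝ, 0 ≤ K ∧ 0 ≤ A ∧
    ∀ (f : E d → ℝ) (g : E d → E d), IsC1c f g → ∀ (q x x' : E d),
      x ∈ scaleSet f 0 → x' ∈ scaleSet f 0 → x ∈ box q (cellSide d) →
      x' ∈ box q (cellSide d) →
      ENNReal.ofReal (umax f x' - umax f x) ≤ ENNReal.ofReal K * cellErr A g q x := by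
  obtain ⟨K, A, hK, hA, hpair⟩ := exists_pair_bound (d := d) hd
  obtain ⟨K', hK', havg⟩ := exists_cellErr_bound (d := d) hd
  refine ⟨(K + 1) * K', A, by positivity, hA, fun f g hf q x x' hx hx' hxq hxq' => ?_⟩
  obtain ⟨-, -, c, r, hr, hcx, hopt⟩ := hx
  obtain ⟨-, -, cB, rB, hrB, hcx', hopt'⟩ := hx'
  norm_num at hr hrB
  have hpos : ENNReal.ofReal (K + 1) ≠ 0 := by
    rw [Ne, ENNReal.ofReal_eq_zero]; linarith
  have key : ENNReal.ofReal (umax f x' - umax f x) / ENNReal.ofReal (K + 1) ≤
      ENNReal.ofReal K' * cellErr A g q x := by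
    refine havg A g (hf.cont.integrable_of_hasCompactSupport hf.suppGrad) q x _ fun ξ hξ => ?_
    rw [ENNReal.div_le_iff_le_mul (Or.inl hpos) (Or.inl ENNReal.ofReal_ne_top)]
    have hdist : dist cB x ≤ 4 := by
      have := dist_le_one_of_mem_box hd hxq' hxq
      linarith [dist_triangle cB x' x, dist_comm cB x', hrB.2]
    have h := hpair f g hf x ξ cB c rB r (umax f x) hdist ⟨hrB.1, hrB.2⟩ ⟨hr.1, hr.2⟩ hcx hopt
      (fun c' r' hr' hc' => avgB_le_umax hf hr' hc') (closedBall_subset_root hd hxq hξ)
    rw [hopt'] at h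
    refine h.trans ?_
    refine (mul_le_mul' (ENNReal.ofReal_le_ofReal ?_) le_rfl).trans (le_of_eq (mul_comm _ _))
    linarith
  rw [ENNReal.div_le_iff_le_mul (Or.inl hpos) (Or.inl ENNReal.ofReal_ne_top)] at key
  refine key.trans (le_of_eq ?_)
  rw [ENNReal.ofReal_mul (by linarith : (0 : ℝ) ≤ K + 1)]
  ring

lemma wgt_le_projWgt (A : ℝ) (n : ℕ) (j : Fin d) (z : E d) : wgt A n z ≤ projWgt A n j z := by
  refine add_le_add le_rfl ?_
  by_cases h : ‖z‖ ≤ A * dec n
  · have hj : |z j| ≤ A * dec n :=
      le_trans (by simpa [Real.norm_eq_abs] using PiLp.norm_apply_le z j) h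
    simp [h, hj]
  · simp [h]

lemma projWgt_congr (A : ℝ) (n : ℕ) (j : Fin d) {z w : E d} (h : z j = w j) :
    projWgt A n j z = projWgt A n j w := by
  simp only [projWgt]
  split_ifs with h1 h2 h2 <;> simp_all

lemma measurable_projWgt_sub (A : ℝ) (n : ℕ) (j : Fin d) :
    Measurable fun p : E d × E d => projWgt A n j (mid p.1 (side n) - p.2) := by
  have hc : Continuous fun p : E d × E d => |(mid p.1 (side n) - p.2) j| := by
    unfold mid; fun_prop
  exact (measurable_const (a := ENNReal.ofReal (dec n))).add (Measurable.ite (measurableSet_le hc.measurable measurable_const)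
    measurable_const measurable_const)

lemma measurable_cellTerm (A : ℝ) {g : E d → E d} (hg : Integrable g) (n : ℕ) (j : Fin d) :
    Measurable fun p : E d × E d =>
      projWgt A n j (mid p.1 (side n) - p.2) * ENNReal.ofReal (deficit g p.1 (side n)) :=
  (measurable_projWgt_sub A n j).mul
    ((measurable_deficit hg (side_pos n)).comp measurable_fst).ennreal_ofReal

lemma measurable_cellH (A : ℝ) {g : E d → E d} (hg : Integrable g) (q : E d) (j : Fin d) :
    Measurable (cellH A g q j) := by
  refine Measurable.tsum fun n => measurable_const.mul ?_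
  exact Measurable.lintegral_prod_left' (μ := volume.restrict (bigBox q))
    (measurable_cellTerm A hg n j)

lemma lintegral_projWgt_le {q : E d} (hd : 0 < d) {A : ℝ} (hA : 0 ≤ A) (n : ℕ) {i j : Fin d}
    (hij : j ≠ i) (z : E d) :
    ∫⁻ y in unitSlab q (cellSide d) i, projWgt A n j (z - y) ≤
      ENNReal.ofReal ((1 + 2 * A) * dec n) := by
  have hms : MeasurableSet {y : E d | |(z - y) j| ≤ A * dec n} :=
    measurableSet_le (by fun_prop) measurable_const
  have h1 := volume_unitSlab_le (q := q) (cellSide_le hd) i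
  have h2 := volume_unitSlab_inter_le (q := q) (cellSide_le hd) hij (z j)
    (A * dec n)
  have he : (fun y : E d => projWgt A n j (z - y)) = fun y => ENNReal.ofReal (dec n) +
      {y : E d | |(z - y) j| ≤ A * dec n}.indicator (fun _ => (1 : ℝ≥0∞)) y := by
    funext y
    simp [projWgt, Set.indicator]
  rw [he, lintegral_add_left measurable_const, setLIntegral_const, lintegral_indicator hms,
    Measure.restrict_restrict hms, setLIntegral_const, one_mul,
    show (1 + 2 * A) * dec n = dec n + 2 * (A * dec n) by ring,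
    ENNReal.ofReal_add (dec_nonneg n) (by positivity [dec_nonneg n])]
  refine add_le_add (mul_le_of_le_one_right (zero_le) h1) (le_trans ?_ h2)
  refine measure_mono fun y hy => ⟨hy.2, ?_⟩
  simpa using hy.1

lemma injOn_graphMap (hd : 0 < d) {f : E d → ℝ} {g : E d → E d} (hf : IsC1c f g) (q : E d)
    (i : Fin d) {σ : ℝ} (hσ : |σ| = 1) :
    InjOn (graphMap (umax f) i) (cellPiece f q i σ) := by
  have hσ2 : σ * σ = 1 := by rw [← abs_mul_abs_self, hσ, one_mul]
  suffices h : ∀ x1 ∈ cellPiece f q i σ, ∀ x2 ∈ cellPiece f q i σ,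
      graphMap (umax f) i x1 = graphMap (umax f) i x2 → ¬ 0 < σ * (x2 i - x1 i) by
    intro x1 h1 x2 h2 he
    have ha : ∀ j ≠ i, x1 j = x2 j := fun j hj => by
      simpa [graphMap_apply, hj] using congrArg (fun v : E d => v j) he
    have hi : x1 i = x2 i := by
      have hle1 := not_lt.1 (h x1 h1 x2 h2 he)
      have hle2 := not_lt.1 (h x2 h2 x1 h1 he.symm)
      have h0 : σ * (x2 i - x1 i) = 0 := by linarith
      have : x2 i - x1 i = σ * (σ * (x2 i - x1 i)) := by rw [← mul_assoc, hσ2, one_mul]
      rw [h0, mul_zero] at this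
      linarith
    ext j
    by_cases hj : j = i
    · subst hj; exact hi
    · exact ha j hj
  rintro x1 ⟨hx1, hq1, hne1, hdir1⟩ x2 ⟨hx2, hq2, hne2, hdir2⟩ he hs
  obtain ⟨-, hdiff1, c, r, hr, hcx, hopt⟩ := hx1
  obtain ⟨-, hdiff2, -⟩ := hx2
  norm_num at hr
  have hr0 : 0 < r := by linarith [hr.1]
  obtain ⟨⟨a, ha0, hga⟩, hrad⟩ := gradient_at_optimal hd hf hdiff1 hr0 hcx hopt
  have hnorm : ‖c - x1‖ = r := by rw [← dist_eq_norm, dist_comm]; exact hrad hne1
  have hapos : 0 < a := ha0.lt_of_ne fun h => hne1 (by rw [hga, ← h, zero_smul])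
  have hsd : 0 < Real.sqrt d := Real.sqrt_pos.2 (by exact_mod_cast hd)
  have hci : r ≤ Real.sqrt d * (σ * (c - x1) i) := by
    rw [hga, norm_smul, Real.norm_of_nonneg ha0, hnorm] at hdir1
    refine le_of_mul_le_mul_left (hdir1.trans (le_of_eq ?_)) hapos
    simp only [PiLp.smul_apply, smul_eq_mul]
    ring
  set e : E d := EuclideanSpace.single i (1 : ℝ) with hedef
  set s : ℝ := x2 i - x1 i
  have hx2e : x2 = x1 + s • e := by
    ext j
    by_cases hj : j = i
    · subst hj; simp [hedef, s]
    · have := congrArg (fun v : E d => v j) he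
      simp only [graphMap_apply, hj, if_false] at this
      simp [hedef, hj, this]
  have hu12 : umax f x1 = umax f x2 := by
    have := congrArg (fun v : E d => v i) he
    simpa [graphMap_apply] using this
  set γ : ℝ → ℝ := fun t => umax f (x1 + t • e) with hγ
  have hinside : ∀ t : ℝ, 0 < σ * t → σ * t < 2 * r / Real.sqrt d → umax f x1 ≤ γ t := by
    intro t ht1 ht2
    rw [← hopt]
    refine avgB_le_umax hf hr0 ?_
    rw [dist_eq_norm, show x1 + t • e - c = t • e - (c - x1) by abel]
    refine le_of_pow_le_pow_left₀ (two_ne_zero) hr0.le ?_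
    rw [norm_sub_sq_real, hnorm, norm_smul, real_inner_smul_left, hedef,
      EuclideanSpace.inner_single_left]
    simp only [PiLp.norm_single, norm_one, mul_one, map_one, one_mul, Real.norm_eq_abs, sq_abs]
    set w := (c - x1) i
    have h3 : σ * t * Real.sqrt d < 2 * r := by rwa [lt_div_iff₀ hsd] at ht2
    have h4 : t * w = (σ * t) * (σ * w) := by
      linear_combination (-(t * w)) * hσ2
    have h5 : t ^ 2 = (σ * t) * (σ * t) := by linear_combination (-(t * t)) * hσ2
    rw [h4, h5]
    have h6 : (σ * t) * Real.sqrt d ≤ 2 * (Real.sqrt d * (σ * w)) := by linarith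
    have h7 : σ * t ≤ 2 * (σ * w) := by
      rw [← mul_le_mul_iff_left₀ hsd]; linarith
    nlinarith [mul_le_mul_of_nonneg_left h7 ht1.le]
  have hs2 : σ * s < 2 * r / Real.sqrt d := by
    have h1 := hq1 i
    have h2 := hq2 i
    have hlt : σ * s ≤ cellSide d := by
      refine (le_abs_self _).trans ?_
      rw [abs_mul, hσ, one_mul, abs_le]
      constructor <;> linarith [h1.1, h1.2, h2.1, h2.2]
    refine hlt.trans_lt ?_
    rw [lt_div_iff₀ hsd]
    have hsq : Real.sqrt d ≤ d := by
      rw [Real.sqrt_le_left (by positivity)]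
      have : (1 : ℝ) ≤ d := by exact_mod_cast hd
      nlinarith
    calc cellSide d * Real.sqrt d ≤ cellSide d * d :=
          mul_le_mul_of_nonneg_left hsq (cellSide_pos hd).le
      _ = 1 / 4 := by rw [cellSide]; field_simp
      _ < 2 * r := by linarith [hr.1]
  have hmin : IsLocalMin γ s := by
    have hc : Continuous fun t : ℝ => σ * t := by fun_prop
    filter_upwards [(isOpen_lt continuous_const hc).mem_nhds hs,
      (isOpen_lt hc continuous_const).mem_nhds hs2] with t ht1 ht2
    show umax f (x1 + s • e) ≤ γ t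
    rw [← hx2e, ← hu12]
    exact hinside t ht1 ht2
  have hder : HasDerivAt γ (fderiv ℝ (umax f) x2 e) s := by
    have hl : HasDerivAt (fun t : ℝ => x1 + t • e) e s := by
      simpa using ((hasDerivAt_id s).smul_const e).const_add x1
    exact hdiff2.hasFDerivAt.comp_hasDerivAt_of_eq s hl hx2e
  have hz := hmin.hasDerivAt_eq_zero hder
  rw [hedef, fderiv_single] at hz
  rw [hz, mul_zero, mul_zero, norm_le_zero_iff] at hdir2
  exact hne2 hdir2

lemma piece_bound (hd : 0 < d) {K A : ℝ}
    {f : E d → ℝ} {g : E d → E d} (hf : IsC1c f g)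
    (hKA : ∀ (q x x' : E d), x ∈ scaleSet f 0 → x' ∈ scaleSet f 0 → x ∈ box q (cellSide d) →
      x' ∈ box q (cellSide d) →
      ENNReal.ofReal (umax f x' - umax f x) ≤ ENNReal.ofReal K * cellErr A g q x)
    (q : E d) {i j : Fin d} (hij : j ≠ i) {σ : ℝ} (hσ : |σ| = 1) :
    ∫⁻ x in cellPiece f q i σ, ‖gradient (umax f) x‖ₑ ≤
      ENNReal.ofReal (Real.sqrt d) *
        ∫⁻ y in unitSlab q (cellSide d) i, ENNReal.ofReal K * cellH A g q j y := by
  set u := umax f with hu
  set P := cellPiece f q i σ with hP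
  have hg : Integrable g := hf.cont.integrable_of_hasCompactSupport hf.suppGrad
  have hPm : MeasurableSet P := measurableSet_cellPiece hd hf q i σ
  have hd' : ∀ x ∈ P, HasFDerivAt (graphMap u i) (fderiv ℝ (graphMap u i) x) x ∧
      (fderiv ℝ (graphMap u i) x).det = gradient u x i := by
    intro x hx
    obtain ⟨L, hL, hdet⟩ := hasFDerivAt_graphMap i hx.1.2.1.hasFDerivAt
    rw [hL.fderiv]
    exact ⟨hL, by rw [hdet, fderiv_single]⟩
  calc ∫⁻ x in P, ‖gradient u x‖ₑ
      ≤ ∫⁻ x in P, ENNReal.ofReal (Real.sqrt d) *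
          ENNReal.ofReal |(fderiv ℝ (graphMap u i) x).det| := by
        refine setLIntegral_mono' hPm fun x hx => ?_
        rw [(hd' x hx).2, ← ofReal_norm, ← ENNReal.ofReal_mul (Real.sqrt_nonneg _)]
        refine ENNReal.ofReal_le_ofReal (hx.2.2.2.trans ?_)
        refine mul_le_mul_of_nonneg_left ?_ (Real.sqrt_nonneg _)
        exact (le_abs_self _).trans (by rw [abs_mul, hσ, one_mul])
    _ = ENNReal.ofReal (Real.sqrt d) * volume (graphMap u i '' P) := by
        rw [lintegral_const_mul' _ _ ENNReal.ofReal_ne_top,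
          lintegral_abs_det_fderiv_eq_addHaar_image volume hPm
            (fun x hx => (hd' x hx).1.hasFDerivWithinAt) (injOn_graphMap hd hf q i hσ)]
    _ ≤ _ := by
        refine mul_le_mul_right ?_ _
        obtain ⟨L, hL⟩ := exists_lipschitz_umax hf
        have hbdd : BddAbove (u '' P) := by
          refine BddAbove.mono (image_mono ?_)
            ((isCompact_closedBall q d).image hL.continuous).bddAbove
          intro x hx
          rw [mem_closedBall]
          refine (dist_le_one_of_mem_box hd hx.2.1 (fun k => ⟨le_rfl, ?_⟩)).trans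
            (by exact_mod_cast hd)
          linarith [cellSide_pos (d := d) hd]
        set a := sSup (u '' P)
        refine le_trans (measure_mono ?_) (region_le i
          (measurable_const.mul (measurable_cellH A hg q j)) ?_ a)
        · rintro _ ⟨x, hx, rfl⟩
          refine ⟨fun k hk => by simpa [graphMap_apply, hk] using hx.2.1 k, ?_, ?_⟩
          · simpa [graphMap_apply] using le_csSup hbdd (mem_image_of_mem u hx)
          · have hHx : cellErr A g q x ≤ cellH A g q j (graphMap u i x) := by
              refine ENNReal.tsum_le_tsum fun n => mul_le_mul_right ?_ _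
              refine lintegral_mono fun η => mul_le_mul_left ?_ _
              refine (wgt_le_projWgt A n j _).trans (le_of_eq ?_)
              exact projWgt_congr A n j (by simp [graphMap_apply, hij])
            refine le_trans ?_ (mul_le_mul_right hHx _)
            simp only [graphMap_apply, if_pos]
            by_cases htop : ENNReal.ofReal K * cellErr A g q x = ⊤
            · rw [htop]; exact le_top
            · rw [← ENNReal.ofReal_toReal htop]
              refine ENNReal.ofReal_le_ofReal ?_
              rw [sub_le_iff_le_add]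
              refine csSup_le (Nonempty.image _ ⟨x, hx⟩) ?_
              rintro _ ⟨x', hx', rfl⟩
              have h := hKA q x x' hx.1 hx'.1 hx.2.1 hx'.2.1
              have := (ENNReal.ofReal_le_iff_le_toReal htop).1 h
              linarith
        · intro y z hyz
          unfold cellH
          refine congrArg (fun v : ℝ≥0∞ => ENNReal.ofReal K * v) (tsum_congr fun n => ?_)
          refine congrArg (fun v : ℝ≥0∞ => ENNReal.ofReal ((side n ^ d)⁻¹) * v) ?_
          refine lintegral_congr fun η => ?_
          rw [projWgt_congr A n j (show (mid η (side n) - y) j = (mid η (side n) - z) j by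
            simp [hyz j hij])]

lemma tsum_indicator_le (hd : 0 < d) (D : E d → ℝ≥0∞) (η : E d) :
    ∑' b : Fin d → ℤ, (bigBox (cellPt b)).indicator D η ≤
      ((Nat.floor (400 / cellSide d) + 2) ^ d : ℕ) * D η := by
  classical
  set δ := cellSide d with hδdef
  have hδ : 0 < δ := cellSide_pos hd
  set m : ℕ := Nat.floor (400 / δ) + 2 with hm
  set lo : Fin d → ℤ := fun k => ⌊(η k - 200) / δ⌋ with hlo
  set F : Finset (Fin d → ℤ) :=
    Fintype.piFinset fun k => Finset.Ico (lo k) (lo k + m) with hF
  have hsupp : ∀ b ∉ F, (bigBox (cellPt b)).indicator D η = 0 := by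
    intro b hb
    refine Set.indicator_of_notMem (fun h => hb ?_) _
    rw [hF, Fintype.mem_piFinset]
    intro k
    have hk := h k
    simp only [cellPt, diag, PiLp.sub_apply] at hk
    have h1' : (η k - 200) / δ ≤ b k := by
      rw [div_le_iff₀ hδ]; nlinarith [hk.1, hk.2]
    have h2 : (b k : ℝ) ≤ (η k - 200) / δ + 400 / δ := by
      rw [← add_div, le_div_iff₀ hδ]; nlinarith [hk.1, hk.2]
    rw [Finset.mem_Ico]
    refine ⟨Int.cast_le.1 (le_trans (Int.floor_le _) h1' : ((lo k : ℤ) : ℝ) ≤ b k), ?_⟩
    have h3 := Int.lt_floor_add_one ((η k - 200) / δ)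
    have h4 := Nat.lt_floor_add_one (400 / δ)
    have : (b k : ℝ) < (lo k : ℝ) + m := by
      simp only [hlo, hm, Nat.cast_add, Nat.cast_ofNat]; linarith
    exact_mod_cast this
  rw [tsum_eq_sum hsupp]
  refine (Finset.sum_le_sum fun b _ => Set.indicator_le_self _ D η).trans ?_
  rw [Finset.sum_const, nsmul_eq_mul]
  refine mul_le_mul_left ?_ _
  rw [hF, Fintype.card_piFinset]
  simp only [Int.card_Ico, add_sub_cancel_left, Int.toNat_natCast, Finset.prod_const,
    Finset.card_univ, Fintype.card_fin, le_refl]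

theorem exists_scale_one (hd : 2 ≤ d) : ∃ K : ℝ, 0 ≤ K ∧
    ∀ (f : E d → ℝ) (g : E d → E d), IsC1c f g →
      ∫⁻ x in scaleSet f 0, ‖gradient (umax f) x‖ₑ ≤
        ENNReal.ofReal K *
          ∑' i, ENNReal.ofReal (dec i) *
            ENNReal.ofReal (Nc g (side i / 2) - Nc g (side i)) := by
  have hd0 : 0 < d := by omega
  obtain ⟨K, A, hK, hA, hrange⟩ := exists_range_bound (d := d) hd0
  set N : ℕ := (Nat.floor (400 / cellSide d) + 2) ^ d with hN
  refine ⟨N * (2 * d * (Real.sqrt d * (K * (1 + 2 * A)))), by positivity, fun f g hf => ?_⟩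
  have hg : Integrable g := hf.cont.integrable_of_hasCompactSupport hf.suppGrad
  set D : ℕ → E d → ℝ≥0∞ := fun n η => ENNReal.ofReal (deficit g η (side n)) with hD
  have hDm : ∀ n, Measurable (D n) := fun n => (measurable_deficit hg (side_pos n)).ennreal_ofReal
  set c : ℕ → ℝ≥0∞ := fun n => ENNReal.ofReal ((side n ^ d)⁻¹) with hc
  set W : E d → ℝ≥0∞ := fun q =>
    ∑' n, c n * (ENNReal.ofReal (dec n) * ∫⁻ η in bigBox q, D n η) with hW
  set M : ℝ≥0∞ := ENNReal.ofReal (2 * d * (Real.sqrt d * (K * (1 + 2 * A)))) with hM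
  have hpiece : ∀ q : E d, ∀ i : Fin d, ∀ σ : ℝ, |σ| = 1 →
      ∫⁻ x in cellPiece f q i σ, ‖gradient (umax f) x‖ₑ ≤
        ENNReal.ofReal (Real.sqrt d * (K * (1 + 2 * A))) * W q := by
    intro q i σ hσ
    have : Nontrivial (Fin d) := Fin.nontrivial_iff_two_le.2 hd
    obtain ⟨j, hij⟩ := exists_ne i
    refine (piece_bound hd0 hf (fun q x x' => hrange f g hf q x x') q hij hσ).trans ?_
    rw [lintegral_const_mul _ (measurable_cellH A hg q j),
      ENNReal.ofReal_mul (Real.sqrt_nonneg _), ENNReal.ofReal_mul hK, mul_assoc, mul_assoc]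
    refine mul_le_mul_right (mul_le_mul_right ?_ _) _
    have hm : ∀ n, Measurable fun y : E d => ∫⁻ η in bigBox q,
        projWgt A n j (mid η (side n) - y) * ENNReal.ofReal (deficit g η (side n)) := fun n =>
      Measurable.lintegral_prod_left' (μ := volume.restrict (bigBox q)) (measurable_cellTerm A hg n j)
    unfold cellH
    rw [lintegral_tsum fun n => ((hm n).const_mul _).aemeasurable,
      hW, ← ENNReal.tsum_mul_left]
    refine ENNReal.tsum_le_tsum fun n => ?_
    rw [lintegral_const_mul _ (hm n),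
      lintegral_lintegral_swap
        (f := fun y η => projWgt A n j (mid η (side n) - y) *
          ENNReal.ofReal (deficit g η (side n)))
        ((measurable_cellTerm A hg n j).comp measurable_swap).aemeasurable]
    calc c n * ∫⁻ η in bigBox q, ∫⁻ y in unitSlab q (cellSide d) i,
          projWgt A n j (mid η (side n) - y) * D n η
        ≤ c n * ∫⁻ η in bigBox q, ENNReal.ofReal ((1 + 2 * A) * dec n) * D n η := by
          refine mul_le_mul_right (lintegral_mono fun η => ?_) _
          rw [lintegral_mul_const' _ _ (by simp [hD])]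
          exact mul_le_mul_left (lintegral_projWgt_le hd0 hA n hij _) _
      _ = _ := by
          rw [lintegral_const_mul _ (hDm n), ENNReal.ofReal_mul (by linarith)]
          ring
  have hcell : ∀ q : E d,
      ∫⁻ x in scaleSet f 0 ∩ box q (cellSide d), ‖gradient (umax f) x‖ₑ ≤ M * W q := by
    intro q
    have hsub : scaleSet f 0 ∩ box q (cellSide d) ⊆ {x | gradient (umax f) x = 0} ∪
        ⋃ p : Fin d × Bool, cellPiece f q p.1 (if p.2 then 1 else -1) := by
      intro x hx
      by_cases h0 : gradient (umax f) x = 0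
      · exact Or.inl h0
      refine Or.inr ?_
      set v := gradient (umax f) x
      have : Nonempty (Fin d) := ⟨⟨0, hd0⟩⟩
      obtain ⟨i, -, hi⟩ := Finset.exists_max_image (Finset.univ : Finset (Fin d))
        (fun i => |v i|) Finset.univ_nonempty
      have hv : ‖v‖ ≤ Real.sqrt d * |v i| := by
        rw [EuclideanSpace.norm_eq, ← Real.sqrt_sq (abs_nonneg (v i)),
          ← Real.sqrt_mul (by positivity)]
        refine Real.sqrt_le_sqrt ((Finset.sum_le_sum fun k _ =>
          pow_le_pow_left₀ (norm_nonneg _) (hi k (Finset.mem_univ k)) 2).trans ?_)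
        simp
      refine mem_iUnion.2 ⟨(i, decide (0 ≤ v i)), hx.1, hx.2, h0, ?_⟩
      refine hv.trans (le_of_eq ?_)
      by_cases hs : 0 ≤ v i
      · simp [hs, abs_of_nonneg hs, v]
      · simp [hs, abs_of_neg (not_le.1 hs), v]
    refine (lintegral_mono_set hsub).trans ((lintegral_union_le _ _ _).trans ?_)
    have hz : ∫⁻ x in {x | gradient (umax f) x = 0}, ‖gradient (umax f) x‖ₑ = 0 := by
      rw [setLIntegral_congr_fun (g := fun _ => 0)
        (measurableSet_eq_fun (measurable_gradient _) measurable_const)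
        (fun x hx => by simp [show gradient (umax f) x = 0 from hx])]
      simp
    rw [hz, zero_add]
    refine (lintegral_iUnion_le _ _).trans ?_
    rw [tsum_fintype]
    refine (Finset.sum_le_sum fun p _ => hpiece q p.1 _ (by split_ifs <;> simp)).trans
      (le_of_eq ?_)
    simp only [Finset.sum_const, Finset.card_univ, Fintype.card_prod, Fintype.card_fin,
      Fintype.card_bool, nsmul_eq_mul, hM]
    rw [← mul_assoc, ENNReal.ofReal_mul (by positivity : (0 : ℝ) ≤ 2 * d)]
    congr 2
    rw [ENNReal.ofReal_mul (by norm_num : (0 : ℝ) ≤ 2), ENNReal.ofReal_natCast]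
    push_cast
    simp [mul_comm]
  have hcover : scaleSet f 0 ⊆ ⋃ b : Fin d → ℤ, scaleSet f 0 ∩ box (cellPt b) (cellSide d) := by
    intro x hx
    have hδ := cellSide_pos (d := d) hd0
    refine mem_iUnion.2 ⟨fun k => ⌊x k / cellSide d⌋, hx, fun k => ?_⟩
    simp only [cellPt]
    have h1 := Int.floor_le (x k / cellSide d)
    have h2 := Int.lt_floor_add_one (x k / cellSide d)
    rw [le_div_iff₀ hδ] at h1
    rw [div_lt_iff₀ hδ] at h2
    constructor <;> nlinarith
  refine ((lintegral_mono_set hcover).trans (lintegral_iUnion_le _ _)).trans ?_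
  refine (ENNReal.tsum_le_tsum fun b => hcell (cellPt b)).trans ?_
  rw [ENNReal.tsum_mul_left, hW, ENNReal.tsum_comm,
    ENNReal.ofReal_mul (by positivity : (0 : ℝ) ≤ (N : ℝ)), ENNReal.ofReal_natCast, ← hM,
    mul_comm (N : ℝ≥0∞) M, mul_assoc]
  refine mul_le_mul_right ?_ _
  rw [← ENNReal.tsum_mul_left]
  refine ENNReal.tsum_le_tsum fun n => ?_
  rw [ENNReal.tsum_mul_left, ENNReal.tsum_mul_left, ← lintegral_deficit hg (side_pos n)]
  calc c n * (ENNReal.ofReal (dec n) * ∑' b : Fin d → ℤ, ∫⁻ η in bigBox (cellPt b), D n η)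
      ≤ c n * (ENNReal.ofReal (dec n) * ((N : ℝ≥0∞) * ∫⁻ η, D n η)) := by
        refine mul_le_mul_right (mul_le_mul_right ?_ _) _
        have hbm : ∀ b : Fin d → ℤ, MeasurableSet (bigBox (cellPt b)) := fun b =>
          measurableSet_box _ _
        simp only [← lintegral_indicator (hbm _)]
        rw [← lintegral_tsum fun b => ((hDm n).indicator (hbm b)).aemeasurable,
          ← lintegral_const_mul _ (hDm n)]
        exact lintegral_mono fun η => tsum_indicator_le hd0 (D n) η
    _ = _ := by simp only [hc, hD]; ring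

end

end Vale.Agent.P137
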