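import Vale.Agent.P137.Defs

/-!
Cubes, deficits and the translation-averaged variation.
-/

namespace Vale.Agent.P137

open MeasureTheory Metric Set Filter Topology
open scoped ENNReal NNReal ContDiff RealInnerProductSpace

noncomputable section

variable {d : ℕ}

theorem box_eq_preimage (ξ : E d) (s : ℝ) :
    box ξ s = (fun z : E d => WithLp.ofLp z) ⁻¹'
      univ.pi fun i => Ico (ξ i) (ξ i + s) := by
  ext z; simp [box]

theorem measurableSet_box (ξ : E d) (s : ℝ) : MeasurableSet (box ξ s) := by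
  rw [box_eq_preimage]
  exact (PiLp.volume_preserving_ofLp (Fin d)).measurable
    (MeasurableSet.univ_pi fun i => measurableSet_Ico)

theorem volume_box (ξ : E d) {s : ℝ} (hs : 0 ≤ s) :
    volume (box ξ s) = ENNReal.ofReal (s ^ d) := by
  rw [box_eq_preimage, (PiLp.volume_preserving_ofLp (Fin d)).measure_preimage
    (MeasurableSet.univ_pi fun i => measurableSet_Ico).nullMeasurableSet, volume_pi_pi]
  simp [ENNReal.ofReal_pow hs]

theorem volume_box_swap (z : E d) {s : ℝ} (hs : 0 ≤ s) :
    volume {ξ : E d | z ∈ box ξ s} = ENNReal.ofReal (s ^ d) := by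
  have h : {ξ : E d | z ∈ box ξ s} = (fun w : E d => WithLp.ofLp w) ⁻¹'
      univ.pi fun i => Ioc (z i - s) (z i) := by
    ext ξ; simp [box]; grind
  rw [h, (PiLp.volume_preserving_ofLp (Fin d)).measure_preimage
    (MeasurableSet.univ_pi fun i => measurableSet_Ioc).nullMeasurableSet, volume_pi_pi]
  simp [ENNReal.ofReal_pow hs]

theorem measurableSet_box_prod (s : ℝ) :
    MeasurableSet {p : E d × E d | p.2 ∈ box p.1 s} := by
  have : {p : E d × E d | p.2 ∈ box p.1 s} =
      ⋂ i, ({p | p.1 i ≤ p.2 i} ∩ {p | p.2 i < p.1 i + s}) := by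
    ext p; simp [box]
  rw [this]
  exact MeasurableSet.iInter fun i =>
    (measurableSet_le (by fun_prop) (by fun_prop)).inter
      (measurableSet_lt (by fun_prop) (by fun_prop))

theorem gridPt_apply {m : ℕ} (ξ : E d) (ℓ : ℝ) (b : Fin d → Fin m) (i : Fin d) :
    gridPt ξ ℓ b i = ξ i + ℓ * (b i : ℕ) := rfl

theorem iUnion_box_children (ξ : E d) {s : ℝ} (hs : 0 < s) :
    ⋃ b : Fin d → Fin 2, box (gridPt ξ (s / 2) b) (s / 2) = box ξ s := by
  ext z
  simp only [mem_iUnion, box, mem_ofPred_eq, gridPt_apply]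
  constructor
  · rintro ⟨b, hb⟩ i
    obtain ⟨h1, h2⟩ := hb i
    have : ((b i : ℕ) : ℝ) ≤ 1 := by exact_mod_cast (show (b i : ℕ) ≤ 1 by omega)
    have : (0 : ℝ) ≤ (b i : ℕ) := Nat.cast_nonneg _
    constructor <;> nlinarith
  · intro h
    refine ⟨fun i => if ξ i + s / 2 ≤ z i then 1 else 0, fun i => ?_⟩
    obtain ⟨h1, h2⟩ := h i
    beta_reduce
    split_ifs with hc <;> simp <;> constructor <;> linarith

theorem pairwise_disjoint_children (ξ : E d) {s : ℝ} (hs : 0 < s) :
    Pairwise (Function.onFun Disjoint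
      fun b : Fin d → Fin 2 => box (gridPt ξ (s / 2) b) (s / 2)) := by
  intro b b' hbb
  refine disjoint_left.2 fun z hz hz' => hbb (funext fun i => ?_)
  obtain ⟨h1, h2⟩ := hz i
  obtain ⟨h3, h4⟩ := hz' i
  simp only [gridPt_apply] at h1 h2 h3 h4
  have e1 := (b i).2
  have e2 := (b' i).2
  by_contra hne
  have : (b i : ℕ) + 1 ≤ (b' i : ℕ) ∨ (b' i : ℕ) + 1 ≤ (b i : ℕ) := by
    have : (b i : ℕ) ≠ (b' i : ℕ) := fun h => hne (Fin.ext h)
    omega
  rcases this with h | h
  · have : ((b i : ℕ) : ℝ) + 1 ≤ (b' i : ℕ) := by exact_mod_cast h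
    nlinarith
  · have : ((b' i : ℕ) : ℝ) + 1 ≤ (b i : ℕ) := by exact_mod_cast h
    nlinarith

theorem boxI_sum_children {g : E d → E d} (hg : Integrable g) (ξ : E d) {s : ℝ} (hs : 0 < s) :
    ∑ b : Fin d → Fin 2, boxI g (gridPt ξ (s / 2) b) (s / 2) = boxI g ξ s := by
  simp only [boxI]
  rw [← iUnion_box_children ξ hs, integral_iUnion_fintype (fun b => measurableSet_box _ _)
    (pairwise_disjoint_children ξ hs) fun b => hg.integrableOn]

theorem stronglyMeasurable_boxI {g : E d → E d} (hg : Integrable g) (s : ℝ) :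
    StronglyMeasurable fun ξ => boxI g ξ s := by
  have hg' := hg.1.stronglyMeasurable_mk
  have h2 : StronglyMeasurable (fun p : E d × E d =>
      {q : E d × E d | q.2 ∈ box q.1 s}.indicator (fun q => hg.1.mk g q.2) p) :=
    (hg'.comp_measurable measurable_snd).indicator (measurableSet_box_prod s)
  have h := h2.integral_prod_right' (ν := (volume : Measure (E d)))
  have he : (fun ξ => boxI g ξ s) = fun ξ => ∫ z, {q : E d × E d | q.2 ∈ box q.1 s}.indicator
      (fun q => hg.1.mk g q.2) (ξ, z) := funext fun ξ => by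
    show ∫ z in box ξ s, g z = _
    rw [setIntegral_congr_ae (measurableSet_box ξ s) (hg.1.ae_eq_mk.mono fun x hx _ => hx),
      ← integral_indicator (measurableSet_box ξ s)]
    exact integral_congr_ae (Eventually.of_forall fun z => by
      by_cases hp : z ∈ box ξ s <;> simp [Set.indicator, hp])
  rw [he]
  exact h

theorem lintegral_norm_boxI_le {g : E d → E d} (hg : Integrable g) {s : ℝ} (hs : 0 ≤ s) :
    ∫⁻ ξ, ‖boxI g ξ s‖ₑ ≤ ENNReal.ofReal (s ^ d) * ∫⁻ z, ‖g z‖ₑ := by
  set g' := hg.1.mk g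
  have hm : Measurable (fun z => ‖g' z‖ₑ) := hg.1.stronglyMeasurable_mk.enorm
  have he : ∫⁻ z, ‖g z‖ₑ = ∫⁻ z, ‖g' z‖ₑ :=
    lintegral_congr_ae (hg.1.ae_eq_mk.mono fun z hz => by simp only [g']; rw [← hz])
  rw [he]
  calc ∫⁻ ξ, ‖boxI g ξ s‖ₑ ≤ ∫⁻ ξ, ∫⁻ z, (box ξ s).indicator (fun z => ‖g' z‖ₑ) z := by
        refine lintegral_mono fun ξ => (enorm_integral_le_lintegral_enorm _).trans (le_of_eq ?_)
        rw [lintegral_indicator (measurableSet_box ξ s)]
        exact lintegral_congr_ae (ae_restrict_of_ae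
          (hg.1.ae_eq_mk.mono fun z hz => by simp only [g']; rw [← hz]))
    _ = ∫⁻ z, ∫⁻ ξ, (box ξ s).indicator (fun z => ‖g' z‖ₑ) z := by
        refine lintegral_lintegral_swap (Measurable.aemeasurable ?_)
        have h2 := (hm.comp (measurable_snd (α := E d) (β := E d))).indicator
          (measurableSet_box_prod (d := d) s)
        convert h2 using 1
        ext p
        by_cases hp : p.2 ∈ box p.1 s <;> simp [Function.uncurry, Set.indicator, hp]
    _ = ∫⁻ z, ENNReal.ofReal (s ^ d) * ‖g' z‖ₑ := by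
        refine lintegral_congr fun z => ?_
        have hz : MeasurableSet {ξ : E d | z ∈ box ξ s} :=
          (measurableSet_box_prod (d := d) s).preimage
            (measurable_id.prodMk (measurable_const (a := z)))
        rw [← volume_box_swap z hs, mul_comm, ← lintegral_indicator_const hz]
        exact lintegral_congr fun ξ => by
          by_cases hp : z ∈ box ξ s <;> simp [Set.indicator, hp]
    _ = ENNReal.ofReal (s ^ d) * ∫⁻ z, ‖g' z‖ₑ := lintegral_const_mul _ hm

theorem integrable_boxI {g : E d → E d} (hg : Integrable g) {s : ℝ} (hs : 0 ≤ s) :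
    Integrable fun ξ => boxI g ξ s :=
  ⟨(stronglyMeasurable_boxI hg s).aestronglyMeasurable,
    (lintegral_norm_boxI_le hg hs).trans_lt (ENNReal.mul_lt_top ENNReal.ofReal_lt_top hg.2)⟩

theorem integral_norm_boxI_le {g : E d → E d} (hg : Integrable g) {s : ℝ} (hs : 0 ≤ s) :
    ∫ ξ, ‖boxI g ξ s‖ ≤ s ^ d * ∫ z, ‖g z‖ := by
  rw [integral_norm_eq_lintegral_enorm (stronglyMeasurable_boxI hg s).aestronglyMeasurable,
    integral_norm_eq_lintegral_enorm hg.1, ← ENNReal.toReal_ofReal (pow_nonneg hs d),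
    ← ENNReal.toReal_mul]
  exact ENNReal.toReal_mono (ENNReal.mul_ne_top ENNReal.ofReal_ne_top hg.2.ne)
    (lintegral_norm_boxI_le hg hs)

theorem integral_children {g : E d → E d} (hg : Integrable g) {s : ℝ} (hs : 0 < s) :
    Integrable (fun ξ => deficit g ξ s) ∧ ∫ ξ, deficit g ξ s =
      (2 ^ d * ∫ ξ, ‖boxI g ξ (s / 2)‖) - ∫ ξ, ‖boxI g ξ s‖ := by
  have h0 : Integrable (fun ξ => ‖boxI g ξ (s / 2)‖) := (integrable_boxI hg (by positivity)).norm
  have h1 : ∀ b : Fin d → Fin 2, Integrable (fun ξ => ‖boxI g (gridPt ξ (s / 2) b) (s / 2)‖) :=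
    fun b => by
      simpa [gridPt] using h0.comp_add_right (WithLp.toLp 2 fun i => s / 2 * ((b i : ℕ) : ℝ))
  have h2 : Integrable fun ξ => ‖boxI g ξ s‖ := (integrable_boxI hg hs.le).norm
  refine ⟨(integrable_finsetSum _ fun b _ => h1 b).sub h2, ?_⟩
  unfold deficit
  rw [integral_sub (integrable_finsetSum _ fun b _ => h1 b) h2,
    integral_finsetSum _ fun b _ => h1 b]
  congr 1
  calc _ = ∑ _b : Fin d → Fin 2, ∫ ξ, ‖boxI g ξ (s / 2)‖ := by
        refine Finset.sum_congr rfl fun b _ => ?_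
        simp only [gridPt]
        exact integral_add_right_eq_self (μ := (volume : Measure (E d)))
          (fun ξ => ‖boxI g ξ (s / 2)‖) _
    _ = _ := by simp

theorem norm_le_of_abs_le (v : E d) {s : ℝ} (hs : 0 ≤ s) (h : ∀ i, |v i| ≤ s) :
    ‖v‖ ≤ √(d : ℝ) * s := by
  rw [EuclideanSpace.norm_eq, ← Real.sqrt_sq hs, ← Real.sqrt_mul (Nat.cast_nonneg d)]
  refine Real.sqrt_le_sqrt ((Finset.sum_le_card_nsmul _ _ (s ^ 2) fun i _ => ?_).trans_eq ?_)
  · rw [Real.norm_eq_abs]
    exact pow_le_pow_left₀ (abs_nonneg _) (h i) 2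
  · simp

theorem dist_le_of_mem_box {ξ z : E d} {s : ℝ} (hs : 0 ≤ s) (hz : z ∈ box ξ s) :
    dist z ξ ≤ √(d : ℝ) * s := by
  rw [dist_eq_norm]
  refine norm_le_of_abs_le _ hs fun i => ?_
  obtain ⟨h1, h2⟩ := hz i
  simp only [PiLp.sub_apply]
  rw [abs_of_nonneg (by linarith)]
  linarith

theorem tendsto_Nc_of_continuous {h : E d → E d} (hc : Continuous h) (hs : HasCompactSupport h) :
    Tendsto (Nc h) (𝓝[>] 0) (𝓝 (∫ z, ‖h z‖)) := by
  have hi := hc.integrable_of_hasCompactSupport hs (μ := (volume : Measure (E d)))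
  obtain ⟨C, hC⟩ := hs.exists_bound_of_continuous hc
  obtain ⟨R, hR⟩ := hs.isCompact.isBounded.subset_closedBall 0
  have hC0 : 0 ≤ C := (norm_nonneg _).trans (hC 0)
  have key : Tendsto (fun s => ∫ ξ, (s ^ d)⁻¹ * ‖boxI h ξ s‖) (𝓝[>] 0) (𝓝 (∫ z, ‖h z‖)) := by
    refine tendsto_integral_filter_of_dominated_convergence
      (fun ξ => (closedBall (0 : E d) (R + √(d : ℝ))).indicator (fun _ => C) ξ) ?_ ?_ ?_ ?_
    · exact Eventually.of_forall fun s =>
        ((stronglyMeasurable_boxI hi s).norm.measurable.const_mul _).aestronglyMeasurable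
    · filter_upwards [self_mem_nhdsWithin,
        mem_nhdsWithin_of_mem_nhds (Iic_mem_nhds (zero_lt_one : (0 : ℝ) < 1))] with s hs0 hs1
      replace hs0 : 0 < s := hs0
      refine Eventually.of_forall fun ξ => ?_
      rw [Real.norm_of_nonneg (by positivity)]
      by_cases hξ : ξ ∈ closedBall (0 : E d) (R + √(d : ℝ))
      · rw [indicator_of_mem hξ, inv_mul_le_iff₀ (by positivity), mul_comm]
        refine (norm_setIntegral_le_of_norm_le_const (by rw [volume_box _ hs0.le]; simp)
          (fun z _ => hC z)).trans (le_of_eq ?_)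
        rw [measureReal_def, volume_box _ hs0.le, ENNReal.toReal_ofReal (by positivity)]
      · rw [indicator_of_notMem hξ]
        have : boxI h ξ s = 0 := setIntegral_eq_zero_of_forall_eq_zero fun z hz => by
          by_contra hne
          apply hξ
          have h1 := mem_closedBall.1 (hR (subset_tsupport _ hne))
          have h2 := dist_le_of_mem_box hs0.le hz
          have h3 := dist_triangle ξ z (0 : E d)
          have h4 : √(d : ℝ) * s ≤ √(d : ℝ) := mul_le_of_le_one_right (Real.sqrt_nonneg _) hs1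
          rw [mem_closedBall, dist_comm] at *
          linarith [dist_comm ξ z, dist_comm z ξ, dist_comm (0 : E d) ξ, dist_comm (0 : E d) z]
        simp [this]
    · exact (integrable_indicator_iff measurableSet_closedBall).2
        (integrableOn_const measure_closedBall_lt_top.ne)
    · refine Eventually.of_forall fun ξ => ?_
      rw [Metric.tendsto_nhds]
      intro ε hε
      obtain ⟨δ, hδ, hδ'⟩ := Metric.continuousAt_iff.1 (hc.continuousAt (x := ξ)) (ε / 2)
        (half_pos hε)
      have hev : ∀ᶠ s : ℝ in 𝓝[>] 0, √(d : ℝ) * s < δ := by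
        refine mem_nhdsWithin_of_mem_nhds ?_
        have : Continuous fun s : ℝ => √(d : ℝ) * s := by fun_prop
        exact this.continuousAt.preimage_mem_nhds (Iio_mem_nhds (by simpa using hδ))
      filter_upwards [self_mem_nhdsWithin, hev] with s hs0 hs1
      replace hs0 : 0 < s := hs0
      have hv : volume.real (box ξ s) = s ^ d := by
        rw [measureReal_def, volume_box _ hs0.le, ENNReal.toReal_ofReal (by positivity)]
      have hne : volume (box ξ s) < ⊤ := by rw [volume_box _ hs0.le]; simp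
      have e : ‖boxI h ξ s - s ^ d • h ξ‖ ≤ ε / 2 * s ^ d := by
        rw [boxI, ← hv, ← setIntegral_const, ← integral_sub hi.integrableOn
          (integrableOn_const hne.ne)]
        refine (norm_setIntegral_le_of_norm_le_const hne fun z hz => ?_).trans le_rfl
        rw [← dist_eq_norm]
        exact (hδ' ((dist_le_of_mem_box hs0.le hz).trans_lt hs1)).le
      have e2 := (abs_norm_sub_norm_le _ _).trans e
      rw [norm_smul, Real.norm_of_nonneg (by positivity)] at e2
      have hp : 0 < s ^ d := pow_pos hs0 d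
      rw [Real.dist_eq, show (s ^ d)⁻¹ * ‖boxI h ξ s‖ - ‖h ξ‖
        = (s ^ d)⁻¹ * (‖boxI h ξ s‖ - s ^ d * ‖h ξ‖) by field_simp, abs_mul,
        abs_of_pos (inv_pos.2 hp), inv_mul_lt_iff₀ hp]
      nlinarith
  simp only [integral_const_mul] at key
  exact key

theorem card_filter_interval_le (m : ℕ) (p : Fin m → Prop) [DecidablePred p] {a L : ℝ}
    (hL : 0 ≤ L) (h : ∀ j, p j → a ≤ ((j : ℕ) : ℝ) ∧ ((j : ℕ) : ℝ) ≤ a + L) :
    ((Finset.univ.filter p).card : ℝ) ≤ L + 1 := by
  rcases (Finset.univ.filter p).eq_empty_or_nonempty with he | hne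
  · rw [he]; simp; linarith
  set S := Finset.univ.filter p
  have h1 := h _ (Finset.mem_filter.1 (S.min'_mem hne)).2
  have h2 := h _ (Finset.mem_filter.1 (S.max'_mem hne)).2
  have hsub : S ⊆ Finset.Icc (S.min' hne) (S.max' hne) := fun j hj =>
    Finset.mem_Icc.2 ⟨S.min'_le j hj, S.le_max' j hj⟩
  have hc := Finset.card_le_card hsub
  rw [Fin.card_Icc] at hc
  have hle : (S.min' hne : ℕ) ≤ (S.max' hne : ℕ) := S.min'_le _ (S.max'_mem hne)
  have : ((S.card : ℕ) : ℝ) ≤ ((S.max' hne : ℕ) : ℝ) + 1 - ((S.min' hne : ℕ) : ℝ) := by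
    calc ((S.card : ℕ) : ℝ) ≤ (((S.max' hne : ℕ) + 1 - (S.min' hne : ℕ) : ℕ) : ℝ) := by
          exact_mod_cast hc
      _ = _ := by rw [Nat.cast_sub (by omega)]; push_cast; ring
  linarith

theorem side_pos (i : ℕ) : 0 < side i := by unfold side S0; positivity

theorem side_le (i : ℕ) : side i ≤ 256 := by
  unfold side S0
  exact div_le_self (by norm_num) (one_le_pow₀ one_le_two)

theorem side_mul_le (i : ℕ) (j : Fin (2 ^ i)) : side i * ((j : ℕ) : ℝ) ≤ 256 - side i := by
  have h : ((j : ℕ) : ℝ) + 1 ≤ (2 : ℝ) ^ i := by exact_mod_cast j.2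
  have h2 : side i * (2 : ℝ) ^ i = 256 := by unfold side S0; field_simp
  nlinarith [side_pos i]

theorem measurable_wgt (A : ℝ) (i : ℕ) : Measurable (wgt (d := d) A i) := by
  have h1 : MeasurableSet {z : E d | ‖z‖ ≤ A * dec i} :=
    measurableSet_le measurable_norm measurable_const
  have h2 : Measurable fun z : E d => (if ‖z‖ ≤ A * dec i then (1 : ℝ≥0∞) else 0) :=
    Measurable.ite h1 measurable_const measurable_const
  exact h2.const_add (ENNReal.ofReal (dec i))

/-- Each point is hit by at most `(356 / side i) ^ d` grid translates of the root box. -/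
theorem sum_grid_le (i : ℕ) (q : E d) {F : E d → ℝ≥0∞} (hF : Measurable F) :
    ∑ b : Fin d → Fin (2 ^ i), ∫⁻ ξ in rootBox q, F (gridPt ξ (side i) b) ≤
      ENNReal.ofReal ((356 / side i) ^ d) * ∫⁻ η in bigBox q, F η := by
  classical
  have hl := side_pos i
  let v : (Fin d → Fin (2 ^ i)) → E d := fun b => WithLp.toLp 2 fun j => side i * ((b j : ℕ) : ℝ)
  let G : E d → ℝ≥0∞ := (bigBox q).indicator F
  let P : (Fin d → Fin (2 ^ i)) → E d → ℝ≥0∞ := fun b η =>
    if η - v b ∈ rootBox q then G η else 0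
  have hroot : MeasurableSet (rootBox q) := measurableSet_box _ _
  have hbig : MeasurableSet (bigBox q) := measurableSet_box _ _
  have hPm : ∀ b, Measurable (P b) := fun b =>
    Measurable.ite (hroot.preimage (measurable_id.sub_const _)) (hF.indicator hbig) measurable_const
  have hshift : ∀ b, ∫⁻ ξ in rootBox q, F (gridPt ξ (side i) b) = ∫⁻ η, P b η := by
    intro b
    rw [← lintegral_indicator hroot, ← lintegral_add_right_eq_self (P b) (v b)]
    refine lintegral_congr fun ξ => ?_
    show _ = if ξ + v b - v b ∈ rootBox q then G (ξ + v b) else 0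
    rw [add_sub_cancel_right]
    by_cases hξ : ξ ∈ rootBox q
    · rw [indicator_of_mem hξ, if_pos hξ]
      have hmem : ξ + v b ∈ bigBox q := fun j => by
        obtain ⟨h1, h2⟩ := hξ j
        simp only [v, diag, PiLp.sub_apply, PiLp.add_apply] at h1 h2 ⊢
        have := side_mul_le i (b j)
        have : 0 ≤ side i * ((b j : ℕ) : ℝ) := by positivity
        constructor <;> linarith
      simp only [G, indicator_of_mem hmem, v, gridPt]
    · rw [indicator_of_notMem hξ, if_neg hξ]
  rw [Finset.sum_congr rfl fun b _ => hshift b, ← lintegral_finsetSum _ fun b _ => hPm b,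
    ← lintegral_indicator hbig, ← lintegral_const_mul _ (hF.indicator hbig)]
  refine lintegral_mono fun η => ?_
  simp only [P, ← Finset.sum_filter, Finset.sum_const, nsmul_eq_mul]
  refine mul_le_mul_left ?_ _
  rw [← ENNReal.ofReal_natCast]
  refine ENNReal.ofReal_le_ofReal ?_
  let p : Fin d → Fin (2 ^ i) → Prop := fun j k =>
    q j - 170 ≤ η j - side i * ((k : ℕ) : ℝ) ∧ η j - side i * ((k : ℕ) : ℝ) < q j - 170 + 100
  have hsub : (Finset.univ.filter fun b => η - v b ∈ rootBox q) ⊆
      Fintype.piFinset fun j => Finset.univ.filter (p j) := fun b hb => by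
    rw [Fintype.mem_piFinset]
    intro j
    simpa [p, v, rootBox, box, diag] using (Finset.mem_filter.1 hb).2 j
  calc ((Finset.univ.filter fun b => η - v b ∈ rootBox q).card : ℝ)
      ≤ ((Fintype.piFinset fun j => Finset.univ.filter (p j)).card : ℝ) := by
        exact_mod_cast Finset.card_le_card hsub
    _ = ∏ j, ((Finset.univ.filter (p j)).card : ℝ) := by rw [Fintype.card_piFinset]; push_cast; rfl
    _ ≤ ∏ _j : Fin d, (356 / side i) := by
        refine Finset.prod_le_prod (fun j _ => Nat.cast_nonneg _) fun j _ => ?_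
        refine (card_filter_interval_le _ _ (a := (η j - q j + 70) / side i)
          (L := 100 / side i) (by positivity) fun k hk => ?_).trans ?_
        · obtain ⟨h1, h2⟩ := hk
          rw [← add_div, div_le_iff₀ hl, le_div_iff₀ hl]
          constructor <;> linarith
        · rw [div_add_one hl.ne']
          gcongr
          linarith [side_le i]
    _ = (356 / side i) ^ d := by rw [Finset.prod_const, Finset.card_univ, Fintype.card_fin]


theorem deficit_nonneg {g : E d → E d} (hg : Integrable g) (ξ : E d) {s : ℝ} (hs : 0 < s) :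
    0 ≤ deficit g ξ s := by
  rw [deficit, sub_nonneg, ← boxI_sum_children hg ξ hs]
  exact norm_sum_le _ _

theorem measurable_deficit {g : E d → E d} (hg : Integrable g) {s : ℝ} (hs : 0 < s) :
    Measurable fun ξ => deficit g ξ s := by
  refine (Finset.measurable_sum _ fun b _ => ?_).sub (stronglyMeasurable_boxI hg s).norm.measurable
  exact (stronglyMeasurable_boxI hg (s / 2)).norm.measurable.comp
    (by unfold gridPt; fun_prop)

theorem lintegral_deficit {g : E d → E d} (hg : Integrable g) {s : ℝ} (hs : 0 < s) :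
    ENNReal.ofReal ((s ^ d)⁻¹) * ∫⁻ ξ, ENNReal.ofReal (deficit g ξ s) =
      ENNReal.ofReal (Nc g (s / 2) - Nc g s) := by
  obtain ⟨hi, he⟩ := integral_children hg hs
  rw [← ofReal_integral_eq_lintegral_ofReal hi
    (Eventually.of_forall fun ξ => deficit_nonneg hg ξ hs), ← ENNReal.ofReal_mul (by positivity), he]
  congr 1
  simp only [Nc, div_pow]
  field_simp

theorem Nc_nonneg (g : E d → E d) {s : ℝ} (hs : 0 < s) : 0 ≤ Nc g s := by
  exact mul_nonneg (by positivity) (integral_nonneg fun ξ => norm_nonneg _)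

theorem Nc_le_integral {g : E d → E d} (hg : Integrable g) {s : ℝ} (hs : 0 < s) :
    Nc g s ≤ ∫ z, ‖g z‖ := by
  rw [Nc, inv_mul_le_iff₀ (pow_pos hs d)]
  exact integral_norm_boxI_le hg hs.le

theorem Nc_half_ge {g : E d → E d} (hg : Integrable g) {s : ℝ} (hs : 0 < s) :
    Nc g s ≤ Nc g (s / 2) := by
  obtain ⟨_, he⟩ := integral_children hg hs
  have h0 : 0 ≤ ∫ ξ, deficit g ξ s := integral_nonneg fun ξ => deficit_nonneg hg ξ hs
  rw [he, sub_nonneg] at h0
  simp only [Nc, div_pow, inv_div]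
  rw [inv_mul_le_iff₀ (pow_pos hs d)]
  calc ∫ ξ, ‖boxI g ξ s‖ ≤ 2 ^ d * ∫ ξ, ‖boxI g ξ (s / 2)‖ := h0
    _ = _ := by field_simp

theorem abs_Nc_sub_le {g h : E d → E d} (hg : Integrable g) (hh : Integrable h) {s : ℝ}
    (hs : 0 < s) : |Nc g s - Nc h s| ≤ ∫ z, ‖g z - h z‖ := by
  have hd : ∀ ξ, boxI g ξ s - boxI h ξ s = boxI (fun z => g z - h z) ξ s := fun ξ =>
    (integral_sub hg.integrableOn hh.integrableOn).symm
  have ig := (integrable_boxI hg hs.le).norm
  have ih := (integrable_boxI hh hs.le).norm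
  rw [Nc, Nc, ← mul_sub, ← integral_sub ig ih, abs_mul, abs_of_nonneg (by positivity),
    inv_mul_le_iff₀ (pow_pos hs d)]
  refine (abs_integral_le_integral_abs).trans
    ((integral_mono (ig.sub ih).abs ?_ fun ξ => ?_).trans (integral_norm_boxI_le (hg.sub hh) hs.le))
  · exact (integrable_boxI (hg.sub hh) hs.le).norm
  · exact (abs_norm_sub_norm_le _ _).trans_eq (congrArg norm (hd ξ))

theorem tendsto_Nc {g : E d → E d} (hg : Integrable g) :
    Tendsto (Nc g) (𝓝[>] 0) (𝓝 (∫ z, ‖g z‖)) := by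
  rw [Metric.tendsto_nhds]
  intro ε hε
  obtain ⟨h, hsupp, hgh, hc, hi⟩ := hg.exists_hasCompactSupport_integral_sub_le
    (show 0 < ε / 4 by positivity)
  filter_upwards [Metric.tendsto_nhds.1 (tendsto_Nc_of_continuous hc hsupp) (ε / 2) (half_pos hε),
    self_mem_nhdsWithin] with s hs hs0
  have h1 := abs_Nc_sub_le hg hi (show 0 < s from hs0)
  have h2 : |∫ z, ‖h z‖ - ‖g z‖| ≤ ∫ z, ‖g z - h z‖ := by
    refine (abs_integral_le_integral_abs).trans
      (integral_mono (hi.norm.sub hg.norm).abs (hg.sub hi).norm fun z => ?_)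
    exact (abs_norm_sub_norm_le _ _).trans_eq (norm_sub_rev _ _)
  rw [integral_sub hi.norm hg.norm] at h2
  rw [Real.dist_eq] at hs ⊢
  have h3 := abs_le.1 h1
  have h4 := abs_le.1 h2
  have h5 := abs_lt.1 hs
  rw [abs_lt]
  constructor <;> linarith

theorem exists_cellErr_bound (hd : 0 < d) : ∃ K : ℝ, 0 ≤ K ∧ ∀ (A : ℝ) (g : E d → E d),
    Integrable g → ∀ (q x : E d) (t : ℝ≥0∞),
      (∀ ξ ∈ rootBox q, t ≤ ∑' i, levelSum (fun z => wgt A i (z - x)) g ξ i) →
      t ≤ ENNReal.ofReal K * cellErr A g q x := by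
  refine ⟨(356 / 100) ^ d, by positivity, fun A g hg q x t ht => ?_⟩
  set F : ℕ → E d → ℝ≥0∞ := fun i η =>
    wgt A i (mid η (side i) - x) * ENNReal.ofReal (deficit g η (side i)) with hF
  have hFm : ∀ i, Measurable (F i) := fun i =>
    ((measurable_wgt A i).comp (by unfold mid; fun_prop)).mul
      (measurable_deficit hg (side_pos i)).ennreal_ofReal
  have hgm : ∀ i (b : Fin d → Fin (2 ^ i)), Measurable fun ξ => F i (gridPt ξ (side i) b) :=
    fun i b => (hFm i).comp (by unfold gridPt; fun_prop)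
  have hroot : MeasurableSet (rootBox q) := measurableSet_box _ _
  have h1 : t * ENNReal.ofReal ((100 : ℝ) ^ d) ≤
      ∑' i, ENNReal.ofReal ((356 / side i) ^ d) * ∫⁻ η in bigBox q, F i η := by
    calc t * ENNReal.ofReal ((100 : ℝ) ^ d) = ∫⁻ _ξ in rootBox q, t := by
          rw [setLIntegral_const, rootBox, volume_box _ (by norm_num)]
      _ ≤ ∫⁻ ξ in rootBox q, ∑' i, ∑ b, F i (gridPt ξ (side i) b) := setLIntegral_mono' hroot ht
      _ = ∑' i, ∑ b, ∫⁻ ξ in rootBox q, F i (gridPt ξ (side i) b) := by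
          rw [lintegral_tsum fun i => (Finset.measurable_sum _ fun b _ => hgm i b).aemeasurable]
          exact tsum_congr fun i => lintegral_finsetSum _ fun b _ => hgm i b
      _ ≤ _ := ENNReal.tsum_le_tsum fun i => sum_grid_le i q (hFm i)
  have h2 : t * ENNReal.ofReal ((100 : ℝ) ^ d) ≤
      ENNReal.ofReal ((356 / 100) ^ d) * cellErr A g q x * ENNReal.ofReal ((100 : ℝ) ^ d) := by
    refine h1.trans (le_of_eq ?_)
    rw [cellErr, mul_right_comm, ← ENNReal.ofReal_mul (by positivity), ← ENNReal.tsum_mul_left]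
    refine tsum_congr fun i => ?_
    rw [← mul_assoc, ← ENNReal.ofReal_mul (by positivity)]
    congr 2
    have := side_pos i
    rw [← mul_pow, div_pow]
    field_simp
  exact (ENNReal.mul_le_mul_iff_left (by simp) ENNReal.ofReal_ne_top).1 h2

end

end Vale.Agent.P137
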