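import Mathlib

/-!
P137: endpoint Sobolev regularity of the uncentred maximal function.  Definitions.
-/

namespace Vale.Agent.P137

open MeasureTheory Metric Set
open scoped ENNReal NNReal ContDiff RealInnerProductSpace

noncomputable section

/-- Euclidean space of dimension `d`. -/
abbrev E (d : ℕ) := EuclideanSpace ℝ (Fin d)

variable {d : ℕ}

/-- The uncentred maximal function: the supremum over open balls containing `x` of the average
of `|f|`. -/
def Mtilde (f : E d → ℝ) (x : E d) : ℝ≥0∞ :=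
  ⨆ (c : E d) (r : ℝ) (_ : x ∈ ball c r), (volume (ball c r))⁻¹ * ∫⁻ z in ball c r, ‖f z‖ₑ

/-- `g` is a weak gradient of `f`. -/
def IsWeakGrad (f : E d → ℝ) (g : E d → E d) : Prop :=
  ∀ φ : E d → ℝ, ContDiff ℝ ∞ φ → HasCompactSupport φ → ∀ v : E d,
    ∫ x, f x * fderiv ℝ φ x v = -∫ x, ⟪g x, v⟫ * φ x

/-- A continuously differentiable compactly supported function with its gradient. -/
structure IsC1c (f : E d → ℝ) (g : E d → E d) : Prop where
  hasGrad : ∀ z, HasGradientAt f (g z) z
  cont : Continuous g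
  supp : HasCompactSupport f
  suppGrad : HasCompactSupport g

/-- Average over a closed ball. -/
def avgB (f : E d → ℝ) (c : E d) (r : ℝ) : ℝ :=
  (volume.real (closedBall c r))⁻¹ * ∫ z in closedBall c r, f z

/-- The maximum of `f x` and all averages over closed balls containing `x`. -/
def umax (f : E d → ℝ) (x : E d) : ℝ :=
  sSup (insert (f x) ((fun p : E d × ℝ => avgB f p.1 p.2) '' {p | 0 < p.2 ∧ dist x p.1 ≤ p.2}))

/-- Detached differentiability points with an optimal radius in `[2^k, 2^(k+1)]`. -/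
def scaleSet (f : E d → ℝ) (k : ℤ) : Set (E d) :=
  {x | f x < umax f x ∧ DifferentiableAt ℝ (umax f) x ∧
    ∃ c r, r ∈ Icc ((2 : ℝ) ^ k) ((2 : ℝ) ^ (k + 1)) ∧ dist x c ≤ r ∧ avgB f c r = umax f x}

/-- The vector with all coordinates equal to `t`. -/
def diag (d : ℕ) (t : ℝ) : E d := WithLp.toLp 2 fun _ => t

/-- The half-open cube with corner `ξ` and side `s`. -/
def box (ξ : E d) (s : ℝ) : Set (E d) := {z | ∀ i, ξ i ≤ z i ∧ z i < ξ i + s}

/-- The centre of a cube. -/
def mid (ξ : E d) (s : ℝ) : E d := ξ + diag d (s / 2)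

/-- The point with index `b` in the grid based at `ξ` with step `ℓ`. -/
def gridPt {m : ℕ} (ξ : E d) (ℓ : ℝ) (b : Fin d → Fin m) : E d :=
  ξ + WithLp.toLp 2 fun i => ℓ * (b i : ℕ)

/-- The integral of `g` over a cube. -/
def boxI (g : E d → E d) (ξ : E d) (s : ℝ) : E d := ∫ z in box ξ s, g z

/-- The cancellation deficit of a cube: what the triangle inequality loses over its children. -/
def deficit (g : E d → E d) (ξ : E d) (s : ℝ) : ℝ :=
  (∑ b : Fin d → Fin 2, ‖boxI g (gridPt ξ (s / 2) b) (s / 2)‖) - ‖boxI g ξ s‖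

/-- The translation-averaged variation seen at scale `s`. -/
def Nc (g : E d → E d) (s : ℝ) : ℝ := (s ^ d)⁻¹ * ∫ ξ, ‖boxI g ξ s‖

/-- The side of the root cubes at unit scale. -/
def S0 : ℝ := 256

/-- The side of the cubes of level `i` below a root cube. -/
def side (i : ℕ) : ℝ := S0 / 2 ^ i

/-- Weighted sum of deficits over the level `i` descendants of the root cube at `ξ`. -/
def levelSum (w : E d → ℝ≥0∞) (g : E d → E d) (ξ : E d) (i : ℕ) : ℝ≥0∞ :=
  ∑ b : Fin d → Fin (2 ^ i),
    w (mid (gridPt ξ (side i) b) (side i)) *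
      ENNReal.ofReal (deficit g (gridPt ξ (side i) b) (side i))

/-- The geometric decay used for all weights. -/
def dec (i : ℕ) : ℝ := ((2 : ℝ) ^ (-(1 / 16 : ℝ))) ^ i

/-- The weight of a level `i` cube at position `z` relative to the contact point. -/
def wgt (A : ℝ) (i : ℕ) (z : E d) : ℝ≥0∞ :=
  ENNReal.ofReal (dec i) + if ‖z‖ ≤ A * dec i then 1 else 0

/-- The band weight of a ball. -/
def bandWgt (A : ℝ) (c : E d) (ρ : ℝ) (i : ℕ) (z : E d) : ℝ≥0∞ :=
  ENNReal.ofReal (((2 : ℝ) ^ i)⁻¹) + if |dist z c - ρ| ≤ A * ((2 : ℝ) ^ i)⁻¹ then 1 else 0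

/-- The large box of corners relevant for the cell at `q`. -/
def bigBox (q : E d) : Set (E d) := box (q - diag d 200) 400

/-- The box of root corners for the cell at `q`. -/
def rootBox (q : E d) : Set (E d) := box (q - diag d 170) 100

/-- The translation-averaged error at `x` for the cell at `q`. -/
def cellErr (A : ℝ) (g : E d → E d) (q x : E d) : ℝ≥0∞ :=
  ∑' i, ENNReal.ofReal ((side i ^ d)⁻¹) *
    ∫⁻ η in bigBox q, wgt A i (mid η (side i) - x) * ENNReal.ofReal (deficit g η (side i))

end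

end Vale.Agent.P137
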