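import Vale.Agent.P137.Defs

/-!
How long a moving sphere stays close to a point.
-/

namespace Vale.Agent.P137

open MeasureTheory Metric Set Filter Topology
open scoped ENNReal NNReal ContDiff RealInnerProductSpace

noncomputable section

variable {d : ℕ}

lemma dec_pow_sixteen (i : ℕ) : dec i ^ 16 = ((2 : ℝ) ^ i)⁻¹ := by
  have h : ((2 : ℝ) ^ (-(1 / 16 : ℝ))) ^ (16 : ℕ) = 2⁻¹ := by
    rw [← Real.rpow_natCast, ← Real.rpow_mul (by norm_num)]
    norm_num [Real.rpow_neg_one]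
  rw [dec, ← pow_mul, mul_comm, pow_mul, h, inv_pow]

lemma dec_pos_le_one (i : ℕ) : 0 < dec i ∧ dec i ≤ 1 :=
  ⟨pow_pos (Real.rpow_pos_of_pos (by norm_num) _) _,
    pow_le_one₀ (Real.rpow_nonneg (by norm_num) _)
      (Real.rpow_le_one_of_one_le_of_nonpos (by norm_num) (by norm_num))⟩

/-- A quadratic with leading coefficient `a` stays below `e` in absolute value only on a set of
measure `O(sqrt (e / a))`. -/
lemma volume_quadratic_le {a e : ℝ} (b c : ℝ) (ha : 0 < a) (he : 0 ≤ e) :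
    volume {t : ℝ | |a * t ^ 2 + b * t + c| ≤ e} ≤ ENNReal.ofReal (3 * √(e / a)) := by
  set h := -b / (2 * a) with hh
  set k := c / a - h ^ 2 with hk
  set δ := e / a with hδ
  have hid : ∀ t, a * t ^ 2 + b * t + c = a * ((t - h) ^ 2 + k) := by
    intro t
    simp only [hh, hk]
    field_simp
    ring
  set L := √(-k - δ) with hL
  set U := √(-k + δ) with hU
  have hsub : {t : ℝ | |a * t ^ 2 + b * t + c| ≤ e} ⊆
      Icc (h - U) (h - L) ∪ Icc (h + L) (h + U) := by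
    intro t ht
    rw [mem_ofPred_eq, hid, abs_mul, abs_of_pos ha, mul_comm, ← le_div_iff₀ ha] at ht
    obtain ⟨h1, h2⟩ := abs_le.1 ht
    have lo : L ≤ |t - h| := by
      rw [hL, ← Real.sqrt_sq_eq_abs]
      exact Real.sqrt_le_sqrt (by linarith)
    have hi : |t - h| ≤ U := by
      rw [hU, ← Real.sqrt_sq_eq_abs]
      exact Real.sqrt_le_sqrt (by linarith)
    rcases le_total t h with hth | hth
    · rw [abs_of_nonpos (by linarith)] at lo hi
      exact Or.inl ⟨by linarith, by linarith⟩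
    · rw [abs_of_nonneg (by linarith)] at lo hi
      exact Or.inr ⟨by linarith, by linarith⟩
  have hδ0 : 0 ≤ δ := div_nonneg he ha.le
  have hLU : U - L ≤ √(2 * δ) := by
    rcases le_total (-k + δ) 0 with h0 | h0
    · rw [hU, Real.sqrt_eq_zero_of_nonpos h0]
      linarith [Real.sqrt_nonneg (-k - δ), Real.sqrt_nonneg (2 * δ)]
    · have sU := Real.sq_sqrt h0
      rcases le_total (-k - δ) 0 with h1 | h1
      · rw [hL, Real.sqrt_eq_zero_of_nonpos h1, sub_zero, hU]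
        exact Real.sqrt_le_sqrt (by linarith)
      · refine Real.le_sqrt_of_sq_le ?_
        have sL := Real.sq_sqrt h1
        have : L ≤ U := Real.sqrt_le_sqrt (by linarith)
        rw [← hL] at sL
        rw [← hU] at sU
        nlinarith [Real.sqrt_nonneg (-k - δ)]
  have h2 : 2 * √(2 * δ) ≤ 3 * √δ := by
    rw [Real.sqrt_mul (by norm_num : (0 : ℝ) ≤ 2)]
    have : √2 ≤ 3 / 2 := by rw [Real.sqrt_le_left (by norm_num)]; norm_num
    nlinarith [Real.sqrt_nonneg δ]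
  calc volume {t : ℝ | |a * t ^ 2 + b * t + c| ≤ e}
      ≤ volume (Icc (h - U) (h - L) ∪ Icc (h + L) (h + U)) := measure_mono hsub
    _ ≤ volume (Icc (h - U) (h - L)) + volume (Icc (h + L) (h + U)) := measure_union_le _ _
    _ ≤ ENNReal.ofReal (√(2 * δ)) + ENNReal.ofReal (√(2 * δ)) := by
      rw [Real.volume_Icc, Real.volume_Icc]
      exact add_le_add (ENNReal.ofReal_le_ofReal (by linarith))
        (ENNReal.ofReal_le_ofReal (by linarith))
    _ ≤ _ := by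
      rw [← ENNReal.ofReal_add (Real.sqrt_nonneg _) (Real.sqrt_nonneg _)]
      exact ENNReal.ofReal_le_ofReal (by linarith)

/-- A linear function stays below `e` in absolute value only on a short interval. -/
lemma volume_linear_le {a e : ℝ} (c : ℝ) (ha : a ≠ 0) :
    volume {t : ℝ | |a * t + c| ≤ e} ≤ ENNReal.ofReal (2 * e / |a|) := by
  have hsub : {t : ℝ | |a * t + c| ≤ e} ⊆ Icc (-c / a - e / |a|) (-c / a + e / |a|) := by
    intro t ht
    have h : |t - -c / a| ≤ e / |a| := by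
      rw [le_div_iff₀ (abs_pos.2 ha), ← abs_mul]
      refine le_of_eq_of_le (congrArg abs ?_) ht
      field_simp
      ring
    obtain ⟨h1, h2⟩ := abs_le.1 h
    exact ⟨by linarith, by linarith⟩
  refine (measure_mono hsub).trans_eq ?_
  rw [Real.volume_Icc]
  congr 1
  ring

/-- Closeness of a distance to a radius gives closeness of the squares. -/
lemma abs_sq_sub_sq_le {D ρ η Z : ℝ} (hD : 0 ≤ D) (hρ : 0 ≤ ρ) (hZ : ρ ≤ Z)
    (h : |D - ρ| ≤ η) : |D ^ 2 - ρ ^ 2| ≤ η * (2 * Z + η) := by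
  rw [show D ^ 2 - ρ ^ 2 = (D - ρ) * (D + ρ) by ring, abs_mul,
    abs_of_nonneg (show (0 : ℝ) ≤ D + ρ by linarith)]
  exact mul_le_mul h (by linarith [le_abs_self (D - ρ)]) (by linarith)
    ((abs_nonneg _).trans h)

/-- The quadratic bound behind all three band lemmas. -/
lemma band_sq_le {A D ρ Z : ℝ} (i : ℕ) (hD : 0 ≤ D) (hρ : 0 ≤ ρ) (hZ : ρ ≤ Z)
    (h : |D - ρ| ≤ A * ((2 : ℝ) ^ i)⁻¹) :
    |D ^ 2 - ρ ^ 2| ≤ max A 1 * (2 * Z + max A 1) * dec i ^ 16 := by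
  obtain ⟨t0, t1⟩ := dec_pos_le_one i
  set a := max A 1
  have ha : 0 ≤ a := zero_le_one.trans (le_max_right _ _)
  have hη : |D - ρ| ≤ a * dec i ^ 16 := by
    rw [dec_pow_sixteen]
    exact h.trans (mul_le_mul_of_nonneg_right (le_max_left _ _) (by positivity))
  refine (abs_sq_sub_sq_le hD hρ hZ hη).trans ?_
  have : a * dec i ^ 16 ≤ a := mul_le_of_le_one_right ha (pow_le_one₀ t0.le t1)
  calc a * dec i ^ 16 * (2 * Z + a * dec i ^ 16)
      ≤ a * dec i ^ 16 * (2 * Z + a) :=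
        mul_le_mul_of_nonneg_left (by linarith) (by positivity)
    _ = _ := by ring

theorem exists_band_translate (R A : ℝ) : ∃ K : ℝ, 0 ≤ K ∧
    ∀ (z c v : E d) (r : ℝ) (i : ℕ), 1 ≤ ‖v‖ → ‖v‖ ≤ R → 0 ≤ r → r ≤ R →
      volume {τ ∈ Icc (0 : ℝ) 1 | |dist z (c + τ • v) - r| ≤ A * ((2 : ℝ) ^ i)⁻¹} ≤
        ENNReal.ofReal (K * dec i) := by
  refine ⟨3 * √(max A 1 * (2 * |R| + max A 1)), by positivity,
    fun z c v r i hv hvR hr hrR => ?_⟩
  obtain ⟨t0, t1⟩ := dec_pos_le_one i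
  set C := max A 1 * (2 * |R| + max A 1) with hC
  have hC0 : 0 ≤ C := by positivity
  have hv2 : 1 ≤ ‖v‖ ^ 2 := one_le_pow₀ hv
  refine (measure_mono (t := {τ : ℝ | |‖v‖ ^ 2 * τ ^ 2 + -2 * ⟪z - c, v⟫ * τ +
    (‖z - c‖ ^ 2 - r ^ 2)| ≤ C * dec i ^ 16}) ?_).trans
    ((volume_quadratic_le _ _ (by linarith) (by positivity)).trans (ENNReal.ofReal_le_ofReal ?_))
  · rintro τ ⟨-, hτ⟩
    have := band_sq_le i dist_nonneg hr (hrR.trans (le_abs_self R)) hτ
    rw [dist_eq_norm, show z - (c + τ • v) = (z - c) - τ • v by abel, norm_sub_sq_real,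
      real_inner_smul_right, norm_smul, mul_pow, Real.norm_eq_abs, sq_abs] at this
    refine le_of_eq_of_le (congrArg abs ?_) this
    ring
  · rw [mul_assoc 3 (√C)]
    refine mul_le_mul_of_nonneg_left ?_ (by norm_num)
    calc √(C * dec i ^ 16 / ‖v‖ ^ 2) ≤ √(C * dec i ^ 16) :=
          Real.sqrt_le_sqrt (div_le_self (by positivity) hv2)
      _ = √C * dec i ^ 8 := by
          rw [Real.sqrt_mul hC0, show dec i ^ 16 = (dec i ^ 8) ^ 2 by ring,
            Real.sqrt_sq (by positivity)]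
      _ ≤ √C * dec i :=
          mul_le_mul_of_nonneg_left (pow_le_of_le_one t0.le t1 (by norm_num)) (Real.sqrt_nonneg _)

lemma ofReal_mul_dec_le (K A' : ℝ) (hK : 0 ≤ K) (i : ℕ) (p : E d) :
    ENNReal.ofReal (K * dec i) ≤ ENNReal.ofReal K * wgt A' i p := by
  rw [ENNReal.ofReal_mul hK]
  exact mul_le_mul' le_rfl le_self_add

lemma volume_Icc_sep_le_wgt {K A' : ℝ} (hK : 1 ≤ K) {i : ℕ} {p : E d} (h : ‖p‖ ≤ A' * dec i)
    {S : Set ℝ} (hS : S ⊆ Icc (0 : ℝ) 1) : volume S ≤ ENNReal.ofReal K * wgt A' i p := by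
  calc volume S ≤ volume (Icc (0 : ℝ) 1) := measure_mono hS
    _ = 1 * 1 := by simp
    _ ≤ ENNReal.ofReal K * wgt A' i p :=
      mul_le_mul' (ENNReal.one_le_ofReal.2 hK) (by rw [wgt, if_pos h]; exact le_add_self)

theorem exists_band_dilate (A : ℝ) : ∃ K A' : ℝ, 0 ≤ K ∧ 0 ≤ A' ∧
    ∀ (p e : E d) (i : ℕ), ‖e‖ = 1 →
      volume {τ ∈ Icc (0 : ℝ) 1 |
          |dist p ((16 * (1 + τ)) • e) - 16 * (1 + τ)| ≤ A * ((2 : ℝ) ^ i)⁻¹} ≤
        ENNReal.ofReal K * wgt A' i p := by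
  set C := max A 1 * (2 * 32 + max A 1) with hC
  have hC0 : 0 ≤ C := by positivity
  refine ⟨C + 1, √(64 + C), by linarith, Real.sqrt_nonneg _, fun p e i he => ?_⟩
  obtain ⟨t0, t1⟩ := dec_pos_le_one i
  set t := dec i with ht
  set σ := ⟪p, e⟫ with hσ
  set S := {τ ∈ Icc (0 : ℝ) 1 |
    |dist p ((16 * (1 + τ)) • e) - 16 * (1 + τ)| ≤ A * ((2 : ℝ) ^ i)⁻¹} with hS
  have hsq : ∀ τ ∈ S, |-32 * σ * τ + (‖p‖ ^ 2 - 32 * σ)| ≤ C * t ^ 16 := by
    rintro τ ⟨⟨a0, a1⟩, hτ⟩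
    have := band_sq_le (Z := 32) i dist_nonneg (by linarith) (by linarith) hτ
    rw [dist_eq_norm, norm_sub_sq_real, real_inner_smul_right, norm_smul, he, mul_one,
      Real.norm_eq_abs, sq_abs, ← hσ] at this
    refine le_of_eq_of_le (congrArg abs ?_) this
    ring
  by_cases hs : t ^ 8 ≤ |σ|
  · have hne : -32 * σ ≠ 0 := by
      have : 0 < |σ| := (pow_pos t0 8).trans_le hs
      simpa using abs_pos.1 this
    refine ((measure_mono hsq).trans ((volume_linear_le _ hne).trans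
      (ENNReal.ofReal_le_ofReal ?_))).trans (ofReal_mul_dec_le (C + 1) _ (by linarith) i p)
    rw [div_le_iff₀ (abs_pos.2 hne), abs_mul, abs_neg]
    norm_num
    calc 2 * (C * t ^ 16) ≤ 32 * ((C + 1) * (t * t ^ 8)) := by
          have e1 : t ^ 16 ≤ t * t ^ 8 := by
            rw [← pow_succ']
            exact pow_le_pow_of_le_one t0.le t1 (by norm_num)
          nlinarith [mul_le_mul_of_nonneg_left e1 hC0, mul_pos t0 (pow_pos t0 8),
            mul_nonneg hC0 (mul_pos t0 (pow_pos t0 8)).le]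
      _ ≤ (C + 1) * t * (32 * |σ|) := by
          nlinarith [mul_le_mul_of_nonneg_left hs (mul_nonneg (by linarith : 0 ≤ C + 1) t0.le)]
  · rcases S.eq_empty_or_nonempty with h0 | ⟨τ, hτ⟩
    · rw [h0, measure_empty]
      exact zero_le
    · refine volume_Icc_sep_le_wgt (by linarith) ?_ fun _ hx => hx.1
      have h := (abs_le.1 (hsq τ hτ)).2
      obtain ⟨⟨a0, a1⟩, -⟩ := hτ
      have hb : σ * (1 + τ) ≤ 2 * t ^ 8 :=
        calc σ * (1 + τ) ≤ |σ| * (1 + τ) :=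
              mul_le_mul_of_nonneg_right (le_abs_self σ) (by linarith)
          _ ≤ t ^ 8 * 2 :=
              mul_le_mul (le_of_lt (not_le.1 hs)) (by linarith) (by linarith) (by positivity)
          _ = _ := by ring
      have e1 : t ^ 16 ≤ t ^ 2 := pow_le_pow_of_le_one t0.le t1 (by norm_num)
      have e2 : t ^ 8 ≤ t ^ 2 := pow_le_pow_of_le_one t0.le t1 (by norm_num)
      rw [← ht, ← Real.sqrt_sq t0.le, ← Real.sqrt_mul (by linarith)]
      refine Real.le_sqrt_of_sq_le ?_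
      nlinarith [mul_le_mul_of_nonneg_left e1 hC0]

/-- A point that the tilting spheres stay close to without moving transversally is near zero. -/
lemma tilt_degenerate {p P e : E d} {r τ t L C : ℝ} (he : ‖e‖ = 1) (hP : ‖P‖ ≤ r) (hr1 : 1 ≤ r)
    (hr2 : r ≤ 2) (t0 : 0 ≤ t) (t1 : t ≤ 1) (hC0 : 0 ≤ C) (hL0 : 0 ≤ L) (hpL : ‖p‖ ≤ L)
    (hbt : r - ⟪P, e⟫ ≤ t ^ 4) (hs : |16 * ⟪p, e⟫ - ⟪p, P⟫| ≤ t ^ 2) (a0 : 0 ≤ τ) (a1 : τ ≤ 1)
    (hl : -2 * (16 * ⟪p, e⟫ - ⟪p, P⟫) * τ + (‖p‖ ^ 2 - 2 * ⟪p, P⟫) ≤ (C + 36) * t ^ 4) :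
    ‖p‖ ≤ √(C + 38 + (4 + 12 * L)) * t := by
  have t2 : 0 ≤ t ^ 2 := sq_nonneg t
  have hPre : ‖P - r • e‖ ≤ 2 * t ^ 2 := by
    have e2 : ‖P - r • e‖ ^ 2 ≤ (2 * t ^ 2) ^ 2 := by
      rw [norm_sub_sq_real, real_inner_smul_right, norm_smul, he, mul_one, Real.norm_eq_abs,
        sq_abs]
      nlinarith [norm_nonneg P, mul_le_mul_of_nonneg_left hbt (show (0 : ℝ) ≤ r by linarith)]
    exact (abs_le_of_sq_le_sq' e2 (by linarith)).2
  have hw : |⟪p, P⟫ - r * ⟪p, e⟫| ≤ 2 * L * t ^ 2 := by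
    rw [← real_inner_smul_right, ← inner_sub_right]
    refine (abs_real_inner_le_norm _ _).trans ?_
    calc ‖p‖ * ‖P - r • e‖ ≤ L * (2 * t ^ 2) := mul_le_mul hpL hPre (norm_nonneg _) hL0
      _ = _ := by ring
  have hpe : |⟪p, e⟫| ≤ (1 + 2 * L) * t ^ 2 := by
    have e1 : (16 - r) * |⟪p, e⟫| ≤ (1 + 2 * L) * t ^ 2 :=
      calc (16 - r) * |⟪p, e⟫| = |(16 - r) * ⟪p, e⟫| := by
            rw [abs_mul, abs_of_nonneg (show (0 : ℝ) ≤ 16 - r by linarith)]
        _ = |(16 * ⟪p, e⟫ - ⟪p, P⟫) + (⟪p, P⟫ - r * ⟪p, e⟫)| := by ring_nf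
        _ ≤ |16 * ⟪p, e⟫ - ⟪p, P⟫| + |⟪p, P⟫ - r * ⟪p, e⟫| := abs_add_le _ _
        _ ≤ _ := by linarith
    exact (le_mul_of_one_le_left (abs_nonneg _) (by linarith)).trans e1
  have hre : r * ⟪p, e⟫ ≤ 2 * ((1 + 2 * L) * t ^ 2) :=
    calc r * ⟪p, e⟫ ≤ r * |⟪p, e⟫| :=
          mul_le_mul_of_nonneg_left (le_abs_self _) (by linarith)
      _ ≤ _ := mul_le_mul hr2 hpe (abs_nonneg _) zero_le_two
  have hst : (16 * ⟪p, e⟫ - ⟪p, P⟫) * τ ≤ t ^ 2 :=
    calc _ ≤ |16 * ⟪p, e⟫ - ⟪p, P⟫| * τ := mul_le_mul_of_nonneg_right (le_abs_self _) a0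
      _ ≤ |16 * ⟪p, e⟫ - ⟪p, P⟫| * 1 := mul_le_mul_of_nonneg_left a1 (abs_nonneg _)
      _ ≤ t ^ 2 := by linarith
  have e4 : (C + 36) * t ^ 4 ≤ (C + 36) * t ^ 2 :=
    mul_le_mul_of_nonneg_left (pow_le_pow_of_le_one t0 t1 (by norm_num)) (by linarith)
  have := (abs_le.1 hw).2
  rw [← Real.sqrt_sq t0, ← Real.sqrt_mul (by positivity)]
  refine Real.le_sqrt_of_sq_le ?_
  linarith

theorem exists_band_tilt (A : ℝ) : ∃ K A' : ℝ, 0 ≤ K ∧ 0 ≤ A' ∧
    ∀ (p P e : E d) (r : ℝ) (i : ℕ), ‖e‖ = 1 → ‖P‖ ≤ r → r ∈ Icc (1 : ℝ) 2 →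
      volume {τ ∈ Icc (0 : ℝ) 1 |
          |dist p ((1 - τ) • P + (16 * τ) • e) - ((1 - τ) * r + 16 * τ)| ≤
            A * ((2 : ℝ) ^ i)⁻¹} ≤
        ENNReal.ofReal K * wgt A' i p := by
  set C := max A 1 * (2 * 18 + max A 1) with hC
  set L := 36 + max A 1 with hL
  have hC0 : 0 ≤ C := by positivity
  have hL0 : 0 ≤ L := by positivity
  refine ⟨3 * √C + (C + 36) + 1, √(C + 38 + (4 + 12 * L)), by positivity, Real.sqrt_nonneg _,
    fun p P e r i he hP hr => ?_⟩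
  obtain ⟨hr1, hr2⟩ := hr
  obtain ⟨t0, t1⟩ := dec_pos_le_one i
  set t := dec i with ht
  set K := 3 * √C + (C + 36) + 1 with hKdef
  have hK : 1 ≤ K := by linarith [Real.sqrt_nonneg C]
  set Pe := ⟪P, e⟫ with hPe
  set b := r - Pe with hb
  set h := r ^ 2 - ‖P‖ ^ 2 with hh
  have hPeP : Pe ≤ ‖P‖ := (real_inner_le_norm P e).trans_eq (by rw [he, mul_one])
  have h0 : 0 ≤ h := by nlinarith [norm_nonneg P]
  have hb0 : 0 ≤ b := by linarith
  have h4 : h ≤ 4 * b :=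
    calc h = (r - ‖P‖) * (r + ‖P‖) := by rw [hh]; ring
      _ ≤ b * 4 := mul_le_mul (by linarith) (by linarith) (by linarith [norm_nonneg P]) hb0
      _ = _ := by ring
  set σ := 16 * ⟪p, e⟫ - ⟪p, P⟫ with hσ
  set S := {τ ∈ Icc (0 : ℝ) 1 |
    |dist p ((1 - τ) • P + (16 * τ) • e) - ((1 - τ) * r + 16 * τ)| ≤ A * ((2 : ℝ) ^ i)⁻¹} with hS
  have hsq : ∀ τ ∈ S, |(32 * b - h) * τ ^ 2 + (-2 * σ + 2 * h - 32 * b) * τ +
      (‖p‖ ^ 2 - 2 * ⟪p, P⟫ - h)| ≤ C * t ^ 16 := by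
    rintro τ ⟨⟨a0, a1⟩, hτ⟩
    have := band_sq_le (Z := 18) i dist_nonneg (by nlinarith) (by nlinarith) hτ
    rw [dist_eq_norm, norm_sub_sq_real, inner_add_right, real_inner_smul_right,
      real_inner_smul_right, norm_add_sq_real, norm_smul, norm_smul, mul_pow, mul_pow,
      Real.norm_eq_abs, Real.norm_eq_abs, sq_abs, sq_abs, real_inner_smul_left,
      real_inner_smul_right, he, ← hPe] at this
    refine le_of_eq_of_le (congrArg abs ?_) this
    simp only [hσ, hh, hb]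
    ring
  clear_value K C L σ h b Pe
  by_cases hbt : t ^ 4 ≤ b
  · have ha : 0 < 32 * b - h := by linarith [pow_pos t0 4]
    refine ((measure_mono hsq).trans ((volume_quadratic_le _ _ ha (by positivity)).trans
      (ENNReal.ofReal_le_ofReal ?_))).trans (ofReal_mul_dec_le K _ (by linarith) i p)
    have hC12 : √(C * t ^ 16 / (32 * b - h)) ≤ √C * t ^ 6 := by
      rw [← Real.sqrt_sq (pow_pos t0 6).le, ← Real.sqrt_mul hC0]
      refine Real.sqrt_le_sqrt ?_
      rw [div_le_iff₀ ha]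
      calc C * t ^ 16 = C * (t ^ 6) ^ 2 * t ^ 4 := by ring
        _ ≤ C * (t ^ 6) ^ 2 * (32 * b - h) :=
          mul_le_mul_of_nonneg_left (by linarith) (by positivity)
    calc 3 * √(C * t ^ 16 / (32 * b - h)) ≤ 3 * (√C * t) := by
          refine mul_le_mul_of_nonneg_left (hC12.trans ?_) (by norm_num)
          exact mul_le_mul_of_nonneg_left (pow_le_of_le_one t0.le t1 (by norm_num))
            (Real.sqrt_nonneg _)
      _ ≤ K * t := by
          rw [← mul_assoc]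
          exact mul_le_mul_of_nonneg_right (by linarith) t0.le
  · have hbt := not_le.1 hbt
    have e16 : t ^ 16 ≤ t ^ 4 := pow_le_pow_of_le_one t0.le t1 (by norm_num)
    have hlin : ∀ τ ∈ S, |-2 * σ * τ + (‖p‖ ^ 2 - 2 * ⟪p, P⟫)| ≤ (C + 36) * t ^ 4 := by
      intro τ hτ
      have h1 := hsq τ hτ
      obtain ⟨⟨a0, a1⟩, -⟩ := hτ
      have hrem : |(1 - τ) ^ 2 * h + 32 * b * (τ * (1 - τ))| ≤ 36 * t ^ 4 := by
        have u1 : (1 - τ) ^ 2 ≤ 1 := pow_le_one₀ (by linarith) (by linarith)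
        have u2 : τ * (1 - τ) ≤ 1 := by nlinarith
        have u0 : 0 ≤ τ * (1 - τ) := mul_nonneg a0 (by linarith)
        rw [abs_of_nonneg (by positivity)]
        nlinarith [mul_le_mul_of_nonneg_right u1 h0, mul_le_mul_of_nonneg_left u2 hb0]
      calc |-2 * σ * τ + (‖p‖ ^ 2 - 2 * ⟪p, P⟫)|
          = |((32 * b - h) * τ ^ 2 + (-2 * σ + 2 * h - 32 * b) * τ +
              (‖p‖ ^ 2 - 2 * ⟪p, P⟫ - h)) + ((1 - τ) ^ 2 * h + 32 * b * (τ * (1 - τ)))| := by
            ring_nf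
        _ ≤ C * t ^ 16 + 36 * t ^ 4 := (abs_add_le _ _).trans (add_le_add h1 hrem)
        _ ≤ _ := by nlinarith [mul_le_mul_of_nonneg_left e16 hC0]
    by_cases hs : t ^ 2 ≤ |σ|
    · have hne : -2 * σ ≠ 0 := by
        have : 0 < |σ| := (pow_pos t0 2).trans_le hs
        simpa using abs_pos.1 this
      refine ((measure_mono hlin).trans ((volume_linear_le _ hne).trans
        (ENNReal.ofReal_le_ofReal ?_))).trans (ofReal_mul_dec_le K _ (by linarith) i p)
      rw [div_le_iff₀ (abs_pos.2 hne), abs_mul, abs_neg, abs_two]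
      calc 2 * ((C + 36) * t ^ 4) ≤ 2 * (K * (t * t ^ 2)) := by
            refine mul_le_mul_of_nonneg_left (mul_le_mul (by linarith [Real.sqrt_nonneg C]) ?_
              (by positivity) (by linarith)) zero_le_two
            rw [← pow_succ']
            exact pow_le_pow_of_le_one t0.le t1 (by norm_num)
        _ ≤ K * t * (2 * |σ|) := by
            nlinarith [mul_le_mul_of_nonneg_left hs
              (mul_nonneg (by linarith : 0 ≤ K) t0.le)]
    · rcases S.eq_empty_or_nonempty with hS0 | ⟨τ, hτ⟩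
      · rw [hS0, measure_empty]
        exact zero_le
      · refine volume_Icc_sep_le_wgt hK ?_ fun _ hx => hx.1
        have hl := (abs_le.1 (hlin τ hτ)).2
        obtain ⟨⟨a0, a1⟩, hd⟩ := hτ
        have hs := not_le.1 hs
        -- the point is bounded
        have hpL : ‖p‖ ≤ L := by
          have c1 : ‖(1 - τ) • P + (16 * τ) • e‖ ≤ 18 := by
            refine (norm_add_le _ _).trans ?_
            rw [norm_smul, norm_smul, he, Real.norm_eq_abs, Real.norm_eq_abs,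
              abs_of_nonneg (by linarith), abs_of_nonneg (by linarith)]
            nlinarith [norm_nonneg P]
          have c2 := (abs_le.1 hd).2
          have c3 : A * ((2 : ℝ) ^ i)⁻¹ ≤ max A 1 :=
            (mul_le_mul_of_nonneg_right (le_max_left A 1) (by positivity)).trans
              (mul_le_of_le_one_right (by positivity)
                (inv_le_one_of_one_le₀ (one_le_pow₀ one_le_two)))
          have c4 := dist_triangle p ((1 - τ) • P + (16 * τ) • e) 0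
          rw [dist_zero_right, dist_zero_right] at c4
          nlinarith
        exact tilt_degenerate he hP hr1 hr2 t0.le t1 hC0 hL0 hpL
          (by rw [← hPe, ← hb]; exact hbt.le) (by rw [← hσ]; exact hs.le) a0 a1
          (by rw [← hσ]; exact hl)

end

end Vale.Agent.P137
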