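import Vale.Agent.P137.Tree
import Vale.Agent.P137.Sublevel

/-!
Comparing two balls through three one-parameter families of balls.

For a linear family of balls `B_t` the change of the averages of `f` is the time integral of the
flux of `g` through `B_t` against an explicit field.  The fields of the three families used here
point, up to controlled transversal parts, in the direction of the integral of `g` over the root
cube, so each flux is bounded below by the deficits.  The time averages of the band weights are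
bounded by the weights at the contact point.
-/

namespace Vale.Agent.P137

open MeasureTheory Metric Set Filter Topology
open scoped ENNReal NNReal ContDiff RealInnerProductSpace

noncomputable section

variable {d : ℕ}

namespace Families

/-- The volume of the unit ball. -/
def vol1 (d : ℕ) : ℝ := volume.real (closedBall (0 : E d) 1)

lemma vol1_pos : 0 < vol1 d :=
  ENNReal.toReal_pos (measure_closedBall_pos volume 0 one_pos).ne' measure_closedBall_lt_top.ne

lemma vol_closedBall (c : E d) {r : ℝ} (hr : 0 ≤ r) :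
    volume.real (closedBall c r) = r ^ d * vol1 d := by
  rw [Measure.addHaar_real_closedBall' volume c hr, finrank_euclideanSpace_fin]; rfl

lemma integrable_of_isC1c {f : E d → ℝ} {g : E d → E d} (hf : IsC1c f g) : Integrable g :=
  hf.cont.integrable_of_hasCompactSupport hf.suppGrad

lemma avgB_unit (G : E d → ℝ) (c : E d) {r : ℝ} (hr : 0 < r) :
    avgB G c r = avgB (fun w => G (c + r • w)) 0 1 := by
  have h1 : ∫ w in closedBall (0 : E d) 1, G (c + r • w) =
      (r ^ d)⁻¹ * ∫ z in closedBall c r, G z := by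
    have h := Measure.setIntegral_comp_smul_of_pos (μ := volume) (fun z : E d => G (c + z))
      (closedBall (0 : E d) 1) hr
    rw [smul_unitClosedBall_of_nonneg hr.le, finrank_euclideanSpace_fin, smul_eq_mul] at h
    rw [h]
    congr 1
    rw [← integral_indicator measurableSet_closedBall, ← integral_indicator measurableSet_closedBall]
    refine Eq.trans ?_ (integral_add_left_eq_self ((closedBall c r).indicator G) c)
    refine integral_congr_ae (.of_forall fun z => ?_)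
    have hiff : c + z ∈ closedBall c r ↔ z ∈ closedBall (0 : E d) r := by simp
    by_cases hz : z ∈ closedBall (0 : E d) r
    · simp [indicator_of_mem hz, indicator_of_mem (hiff.2 hz)]
    · simp [indicator_of_notMem hz, indicator_of_notMem (mt hiff.1 hz)]
  rw [avgB, avgB, h1, vol_closedBall c hr.le, vol_closedBall (0 : E d) zero_le_one, one_pow, one_mul,
    mul_inv]
  ring

lemma avgB_inner (g Y : E d → E d) (c : E d) (r : ℝ) :
    avgB (fun z => ⟪g z, Y z⟫) c r =
      ∫ z in closedBall c r, ⟪g z, (volume.real (closedBall c r))⁻¹ • Y z⟫ := by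
  simp only [avgB, inner_smul_right, integral_const_mul]

/-- The averaged flux seen at time `t` along a linear family of balls. -/
def flux (g : E d → E d) (c0 v : E d) (r0 s t : ℝ) : ℝ :=
  avgB (fun z => ⟪g z, v + (s / (r0 + t * s)) • (z - (c0 + t • v))⟫) (c0 + t • v) (r0 + t * s)

lemma flux_eq (g : E d → E d) (c0 v : E d) {r0 s t : ℝ} (ht : 0 < r0 + t * s) :
    flux g c0 v r0 s t =
      avgB (fun w => ⟪g ((c0 + r0 • w) + t • (v + s • w)), v + s • w⟫) 0 1 := by
  rw [flux, avgB_unit _ _ ht]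
  congr 1
  funext w
  rw [show c0 + t • v + (r0 + t * s) • w = (c0 + r0 • w) + t • (v + s • w) by module,
    show (c0 + r0 • w) + t • (v + s • w) - (c0 + t • v) = (r0 + t * s) • w by module,
    smul_smul, div_mul_cancel₀ _ ht.ne']

lemma continuous_flux {g : E d → E d} (hg : Continuous g) (c0 v : E d) {r0 s : ℝ}
    (h : ∀ t ∈ Icc (0 : ℝ) 1, 0 < r0 + t * s) :
    ContinuousOn (flux g c0 v r0 s) (Icc 0 1) := by
  have hc : Continuous fun t : ℝ =>
      avgB (fun w => ⟪g ((c0 + r0 • w) + t • (v + s • w)), v + s • w⟫) 0 1 :=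
    continuous_const.mul (continuous_parametric_integral_of_continuous (μ := volume)
      (f := fun (t : ℝ) (w : E d) => ⟪g ((c0 + r0 • w) + t • (v + s • w)), v + s • w⟫)
      (by fun_prop) (isCompact_closedBall 0 1))
  exact hc.continuousOn.congr fun t ht => flux_eq g c0 v (h t ht)

/-- a jointly continuous function is integrable over a ball times a time interval -/
lemma integrable_prod {h : E d × ℝ → ℝ} (hh : Continuous h) (c : E d) (r : ℝ) :
    Integrable h ((volume.restrict (closedBall c r)).prod (volume.restrict (Ioc (0 : ℝ) 1))) := by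
  rw [Measure.prod_restrict]
  exact (hh.continuousOn.integrableOn_compact ((isCompact_closedBall c r).prod isCompact_Icc)).mono_set
    (Set.prod_mono le_rfl Ioc_subset_Icc_self)

/-- The change of the average along a linear family of balls. -/
lemma avgB_sub {f : E d → ℝ} {g : E d → E d} (hf : IsC1c f g) (c0 v : E d) {r0 s : ℝ}
    (h : ∀ t ∈ Icc (0 : ℝ) 1, 0 < r0 + t * s) :
    avgB f (c0 + v) (r0 + s) - avgB f c0 r0 = ∫ t in (0 : ℝ)..1, flux g c0 v r0 s t := by
  have hfc : Continuous f := continuous_iff_continuousAt.2 fun z => (hf.hasGrad z).continuousAt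
  have hg := hf.cont
  have h0 : 0 < r0 := by simpa using h 0 (by simp)
  have h1 : 0 < r0 + s := by simpa using h 1 (by simp)
  set G : E d → ℝ → ℝ := fun w t => ⟪g ((c0 + r0 • w) + t • (v + s • w)), v + s • w⟫
  have hG : Continuous fun q : E d × ℝ => G q.1 q.2 := by unfold G; fun_prop
  have hftc : ∀ w, f (c0 + v + (r0 + s) • w) - f (c0 + r0 • w) = ∫ t in Ioc (0 : ℝ) 1, G w t := by
    intro w
    have hd : ∀ t : ℝ, HasDerivAt (fun t : ℝ => f ((c0 + r0 • w) + t • (v + s • w))) (G w t) t :=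
      fun t => by
        have h2 : HasDerivAt (fun t : ℝ => (c0 + r0 • w) + t • (v + s • w)) (v + s • w) t := by
          simpa using ((hasDerivAt_id t).smul_const (v + s • w)).const_add (c0 + r0 • w)
        have h3 := ((hf.hasGrad _).hasFDerivAt).comp_hasDerivAt t h2
        simpa [G, Function.comp_def, InnerProductSpace.toDual_apply_apply] using h3
    rw [← intervalIntegral.integral_of_le zero_le_one,
      intervalIntegral.integral_eq_sub_of_hasDerivAt (fun t _ => hd t)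
        ((hG.comp (continuous_const.prodMk continuous_id)).intervalIntegrable 0 1)]
    simp only [one_smul, zero_smul, add_zero]
    rw [show c0 + r0 • w + (v + s • w) = c0 + v + (r0 + s) • w by module]
  rw [avgB_unit f _ h1, avgB_unit f _ h0, avgB, avgB, ← mul_sub]
  have i1 : ∀ (c : E d) (a : ℝ), IntegrableOn (fun w => f (c + a • w)) (closedBall (0 : E d) 1) :=
    fun c a => (hfc.comp (by fun_prop)).continuousOn.integrableOn_compact (isCompact_closedBall 0 1)
  rw [← integral_sub (i1 _ _) (i1 _ _)]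
  simp only [hftc]
  rw [integral_integral_swap (integrable_prod hG 0 1), intervalIntegral.integral_of_le zero_le_one,
    ← integral_const_mul]
  refine setIntegral_congr_fun measurableSet_Ioc fun t ht => ?_
  rw [flux_eq g c0 v (h t (Ioc_subset_Icc_self ht))]
  rfl

/-- The radial profile of the flux between two concentric balls. -/
def phi (d : ℕ) (r0 a : ℝ) : ℝ :=
  ∫ t in (min 1 (max 0 ((a - r0) / (16 - r0))))..1, (16 - r0) / (r0 + t * (16 - r0)) ^ (d + 1)

lemma kbound {r0 t : ℝ} (h : r0 ∈ Icc (1 : ℝ) 2) (ht : 0 ≤ t) :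
    0 ≤ (16 - r0) / (r0 + t * (16 - r0)) ^ (d + 1) ∧
      (16 - r0) / (r0 + t * (16 - r0)) ^ (d + 1) ≤ 16 - r0 := by
  have h1 : 1 ≤ r0 + t * (16 - r0) := by nlinarith [h.1, h.2]
  exact ⟨div_nonneg (by linarith [h.2]) (pow_nonneg (by linarith) _),
    div_le_self (by linarith [h.2]) (one_le_pow₀ h1)⟩

lemma continuousOn_k {r0 : ℝ} (h : r0 ∈ Icc (1 : ℝ) 2) :
    ContinuousOn (fun t : ℝ => (16 - r0) / (r0 + t * (16 - r0)) ^ (d + 1)) (Icc 0 1) :=
  continuousOn_const.div (by fun_prop) fun t ht => pow_ne_zero _ (by nlinarith [h.1, h.2, ht.1])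

lemma cut_mem (r0 a : ℝ) : min 1 (max 0 ((a - r0) / (16 - r0))) ∈ Icc (0 : ℝ) 1 :=
  ⟨le_min zero_le_one (le_max_left _ _), min_le_left _ _⟩

lemma phi_nonneg {r0 : ℝ} (h : r0 ∈ Icc (1 : ℝ) 2) (a : ℝ) : 0 ≤ phi d r0 a :=
  intervalIntegral.integral_nonneg (cut_mem r0 a).2 fun _ ht =>
    (kbound h ((cut_mem r0 a).1.trans ht.1)).1

lemma phi_le {r0 : ℝ} (h : r0 ∈ Icc (1 : ℝ) 2) (a : ℝ) : phi d r0 a ≤ max 0 (16 - a) ∧ phi d r0 a ≤ 16 := by
  set α := min 1 (max 0 ((a - r0) / (16 - r0)))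
  obtain ⟨ha0, ha1⟩ := cut_mem r0 a
  have hs : 0 < 16 - r0 := by linarith [h.2]
  have hb : phi d r0 a ≤ (16 - r0) * (1 - α) := by
    have := intervalIntegral.norm_integral_le_of_norm_le_const (a := α) (b := 1)
      (f := fun t => (16 - r0) / (r0 + t * (16 - r0)) ^ (d + 1)) (C := 16 - r0) fun t ht => by
        rw [uIoc_of_le ha1] at ht
        have := kbound (d := d) h (ha0.trans ht.1.le)
        rw [Real.norm_eq_abs, abs_of_nonneg this.1]; exact this.2
    rw [Real.norm_eq_abs, abs_of_nonneg (sub_nonneg.2 ha1)] at this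
    exact (le_abs_self _).trans this
  refine ⟨hb.trans ?_, hb.trans ?_⟩
  · rcases le_total 1 ((a - r0) / (16 - r0)) with h1 | h1
    · have : α = 1 := min_eq_left (h1.trans (le_max_right _ _))
      simp [this]
    · refine le_trans ?_ (le_max_right _ _)
      have : (a - r0) / (16 - r0) ≤ α := le_min h1 (le_max_right _ _)
      rw [div_le_iff₀ hs] at this
      linarith
  · nlinarith [h.1]

lemma phi_lip {r0 : ℝ} (h : r0 ∈ Icc (1 : ℝ) 2) (a b : ℝ) : |phi d r0 a - phi d r0 b| ≤ |a - b| := by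
  set k := fun t : ℝ => (16 - r0) / (r0 + t * (16 - r0)) ^ (d + 1)
  set α := fun a : ℝ => min 1 (max 0 ((a - r0) / (16 - r0)))
  have hs : 0 < 16 - r0 := by linarith [h.2]
  have hi : ∀ u ∈ Icc (0 : ℝ) 1, IntervalIntegrable k volume u 1 := fun u hu =>
    ((continuousOn_k h).mono (by rw [uIcc_of_le hu.2]; exact Icc_subset_Icc_left hu.1)).intervalIntegrable
  rw [phi, phi, intervalIntegral.integral_interval_sub_interval_comm' (hi _ (cut_mem r0 a))
    (hi _ (cut_mem r0 b)) (((continuousOn_k h).mono (uIcc_subset_Icc (cut_mem r0 a) (cut_mem r0 b))).intervalIntegrable)]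
  rw [intervalIntegral.integral_same, zero_sub, abs_neg, ← Real.norm_eq_abs]
  refine (intervalIntegral.norm_integral_le_of_norm_le_const (C := 16 - r0) fun t ht => ?_).trans ?_
  · have h0 : 0 ≤ t := (uIcc_subset_Icc (cut_mem r0 b) (cut_mem r0 a) (uIoc_subset_uIcc ht)).1
    rw [Real.norm_eq_abs, abs_of_nonneg (kbound h h0).1]
    exact (kbound h h0).2
  · refine le_trans (mul_le_mul_of_nonneg_left ((abs_min_sub_min_le_max 1 (max 0 ((a - r0) / (16 - r0))) 1
      (max 0 ((b - r0) / (16 - r0)))).trans (max_le (by rw [sub_self, abs_zero]; exact abs_nonneg _) le_rfl)) hs.le) ?_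
    refine le_trans (mul_le_mul_of_nonneg_left ((abs_max_sub_max_le_max 0 ((a - r0) / (16 - r0)) 0
      ((b - r0) / (16 - r0))).trans (max_le (by rw [sub_self, abs_zero]; exact abs_nonneg _) le_rfl)) hs.le) (le_of_eq ?_)
    rw [← sub_div, abs_div, abs_of_pos hs, show a - r0 - (b - r0) = a - b by ring,
      mul_div_cancel₀ _ hs.ne']

lemma phi_eq_zero {r0 : ℝ} (h : r0 ∈ Icc (1 : ℝ) 2) {a : ℝ} (ha : 16 ≤ a) : phi d r0 a = 0 :=
  le_antisymm ((phi_le h a).1.trans (by simp [max_eq_left (show 16 - a ≤ 0 by linarith)])) (phi_nonneg h a)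

/-- The field transporting the average between two concentric balls. -/
def shell (c0 : E d) (r0 : ℝ) (z : E d) : E d := (phi d r0 (dist z c0) / vol1 d) • (z - c0)

lemma lipschitz_shell {r0 : ℝ} (h : r0 ∈ Icc (1 : ℝ) 2) (c0 z y : E d) :
    ‖shell c0 r0 z - shell c0 r0 y‖ ≤ 32 / vol1 d * ‖z - y‖ := by
  have key : ∀ z y : E d, dist y c0 ≤ 16 →
      ‖phi d r0 (dist z c0) • (z - c0) - phi d r0 (dist y c0) • (y - c0)‖ ≤ 32 * ‖z - y‖ := by
    intro z y hy
    rw [show phi d r0 (dist z c0) • (z - c0) - phi d r0 (dist y c0) • (y - c0) =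
      phi d r0 (dist z c0) • (z - y) + (phi d r0 (dist z c0) - phi d r0 (dist y c0)) • (y - c0) by module]
    refine (norm_add_le _ _).trans ?_
    rw [norm_smul, norm_smul, Real.norm_eq_abs, Real.norm_eq_abs, abs_of_nonneg (phi_nonneg h _),
      ← dist_eq_norm y c0]
    have h1 : |phi d r0 (dist z c0) - phi d r0 (dist y c0)| ≤ ‖z - y‖ := by
      refine (phi_lip h _ _).trans ?_
      rw [← dist_eq_norm z y]
      exact abs_dist_sub_le z y c0
    nlinarith [mul_le_mul_of_nonneg_right (phi_le (d := d) h (dist z c0)).2 (norm_nonneg (z - y)),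
      mul_le_mul h1 hy dist_nonneg (norm_nonneg (z - y))]
  have hV := vol1_pos (d := d)
  simp only [shell, div_eq_inv_mul, mul_smul, ← smul_sub, norm_smul, norm_inv, Real.norm_eq_abs,
    abs_of_pos hV]
  rw [show (vol1 d)⁻¹ * 32 * ‖z - y‖ = (vol1 d)⁻¹ * (32 * ‖z - y‖) by ring]
  refine mul_le_mul_of_nonneg_left ?_ (inv_nonneg.2 hV.le)
  rcases le_total (dist y c0) 16 with hy | hy
  · exact key z y hy
  rcases le_total (dist z c0) 16 with hz | hz
  · rw [norm_sub_rev, norm_sub_rev z y]; exact key y z hz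
  · simp [phi_eq_zero h hy, phi_eq_zero h hz]

/-- The change of the average between two concentric balls. -/
lemma shell_eq {f : E d → ℝ} {g : E d → E d} (hf : IsC1c f g) (c0 : E d) {r0 : ℝ}
    (h : r0 ∈ Icc (1 : ℝ) 2) :
    avgB f c0 16 - avgB f c0 r0 = ∫ z in closedBall c0 16, ⟪g z, shell c0 r0 z⟫ := by
  set s := 16 - r0 with hs
  have hs0 : 0 < s := by linarith [h.2]
  have hpos : ∀ t ∈ Icc (0 : ℝ) 1, 0 < r0 + t * s := fun t ht => by nlinarith [h.1, ht.1]
  have hsub := avgB_sub hf c0 0 hpos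
  rw [add_zero, show r0 + s = 16 by rw [hs]; ring] at hsub
  rw [hsub, intervalIntegral.integral_of_le zero_le_one]
  -- the joint integrand
  set S : Set (E d × ℝ) := {q | dist q.1 c0 ≤ r0 + q.2 * s}
  set H : E d → ℝ → ℝ := fun z t =>
    S.indicator (fun q => (s / (r0 + q.2 * s) ^ (d + 1)) / vol1 d * ⟪g q.1, q.1 - c0⟫) (z, t)
  have hSm : MeasurableSet S := (isClosed_le (by fun_prop) (by fun_prop)).measurableSet
  have hH : Integrable (Function.uncurry H)
      ((volume.restrict (closedBall c0 16)).prod (volume.restrict (Ioc (0 : ℝ) 1))) := by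
    refine Integrable.indicator ?_ hSm
    rw [Measure.prod_restrict]
    refine IntegrableOn.mono_set ?_ (Set.prod_mono le_rfl Ioc_subset_Icc_self)
    refine ContinuousOn.integrableOn_compact ((isCompact_closedBall c0 16).prod isCompact_Icc) ?_
    have := hf.cont
    refine ((continuousOn_const.div (by fun_prop) fun q hq => pow_ne_zero _ (hpos q.2 hq.2).ne').div_const
      _).mul (by fun_prop)
  have e1 : ∀ t ∈ Ioc (0 : ℝ) 1, flux g c0 0 r0 s t = ∫ z in closedBall c0 16, H z t := by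
    intro t ht
    have hr := hpos t (Ioc_subset_Icc_self ht)
    have hsub' : closedBall c0 (r0 + t * s) ⊆ closedBall c0 16 :=
      closedBall_subset_closedBall (by nlinarith [ht.2, hs])
    have e : (fun z => H z t) = (closedBall c0 (r0 + t * s)).indicator
        (fun z => (s / (r0 + t * s) ^ (d + 1)) / vol1 d * ⟪g z, z - c0⟫) := by
      funext z
      by_cases hm : z ∈ closedBall c0 (r0 + t * s)
      · rw [indicator_of_mem hm]; exact indicator_of_mem (show (z, t) ∈ S from hm) _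
      · rw [indicator_of_notMem hm]; exact indicator_of_notMem (show (z, t) ∉ S from hm) _
    rw [e, setIntegral_indicator measurableSet_closedBall, inter_eq_right.2 hsub']
    simp only [flux, smul_zero, add_zero, zero_add, avgB, inner_smul_right, integral_const_mul,
      vol_closedBall c0 hr.le]
    rw [pow_succ]
    field_simp
  rw [setIntegral_congr_fun measurableSet_Ioc e1, ← integral_integral_swap hH]
  refine setIntegral_congr_fun measurableSet_closedBall fun z hz => ?_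
  set a := dist z c0
  set α := min 1 (max 0 ((a - r0) / s))
  have e2 : (fun t => H z t) = {t : ℝ | a ≤ r0 + t * s}.indicator
      (fun t => (s / (r0 + t * s) ^ (d + 1)) / vol1 d * ⟪g z, z - c0⟫) := by
    funext t
    by_cases hm : t ∈ {t : ℝ | a ≤ r0 + t * s}
    · rw [indicator_of_mem hm]; exact indicator_of_mem (show (z, t) ∈ S from hm) _
    · rw [indicator_of_notMem hm]; exact indicator_of_notMem (show (z, t) ∉ S from hm) _
  rw [e2, setIntegral_indicator (isClosed_le continuous_const (by fun_prop)).measurableSet]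
  have hz' : a ≤ 16 := hz
  have e3 : (Ioc (0 : ℝ) 1 ∩ {t : ℝ | a ≤ r0 + t * s} : Set ℝ) =ᵐ[volume] Ioc α 1 := by
    refine ae_eq_set.2 ⟨measure_mono_null (t := {α}) ?_ (measure_singleton α), measure_mono_null (t := ∅) ?_ measure_empty⟩
    · rintro t ⟨⟨ht, hta⟩, hn⟩
      simp only [mem_Ioc, not_and, not_le] at hn
      refine le_antisymm ?_ ?_
      · by_contra hc
        exact (hn (not_le.1 hc)).not_ge ht.2
      · refine (min_le_right _ _).trans (max_le ht.1.le ?_)
        rw [div_le_iff₀ hs0]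
        linarith [show a ≤ r0 + t * s from hta]
    · rintro t ⟨⟨ht0, ht1⟩, hn⟩
      refine hn ⟨⟨lt_of_le_of_lt (cut_mem r0 a).1 ht0, ht1⟩, ?_⟩
      show a ≤ r0 + t * s
      have h2 : (a - r0) / s ≤ t := by
        rcases le_total ((a - r0) / s) 1 with h1 | h1
        · exact (le_min h1 (le_max_right 0 _)).trans ht0.le
        · rw [show α = 1 from min_eq_left (h1.trans (le_max_right _ _))] at ht0
          linarith
      rw [div_le_iff₀ hs0] at h2
      linarith
  rw [setIntegral_congr_set e3, ← intervalIntegral.integral_of_le (cut_mem r0 a).2,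
    intervalIntegral.integral_mul_const, intervalIntegral.integral_div, shell, inner_smul_right]
  rfl

lemma one_le_dec_pow (i : ℕ) : ((2 : ℝ) ^ i)⁻¹ ≤ dec i := by
  rw [dec, ← inv_pow]
  refine pow_le_pow_left₀ (by norm_num) ?_ i
  calc ((2 : ℝ))⁻¹ = (2 : ℝ) ^ (-1 : ℝ) := by rw [Real.rpow_neg_one]
    _ ≤ _ := Real.rpow_le_rpow_of_exponent_le (by norm_num) (by norm_num)

lemma dec_pos (i : ℕ) : 0 < dec i := pow_pos (Real.rpow_pos_of_pos two_pos _) i

lemma wgt_mono {A A' : ℝ} (h : A ≤ A') (i : ℕ) (z : E d) : wgt A i z ≤ wgt A' i z := by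
  unfold wgt
  gcongr
  by_cases hz : ‖z‖ ≤ A * dec i
  · rw [if_pos hz, if_pos (hz.trans (mul_le_mul_of_nonneg_right h (dec_pos i).le))]
  · rw [if_neg hz]; exact zero_le

lemma dec_le_wgt (A : ℝ) (i : ℕ) (z : E d) : ENNReal.ofReal (dec i) ≤ wgt A i z := le_self_add

/-- the positive part dominates -/
lemma ofReal_integral_le {α : Type*} [MeasurableSpace α] {μ : Measure α} (h : α → ℝ) :
    ENNReal.ofReal (∫ x, h x ∂μ) ≤ ∫⁻ x, ENNReal.ofReal (h x) ∂μ := by
  by_cases hi : Integrable h μ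
  · rw [integral_eq_lintegral_pos_part_sub_lintegral_neg_part hi]
    exact (ENNReal.ofReal_le_ofReal (sub_le_self _ ENNReal.toReal_nonneg)).trans ENNReal.ofReal_toReal_le
  · simp [integral_undef hi]

/-- integrating the band weights in time -/
lemma time_bound {K A K2 A' : ℝ} (hK : 0 ≤ K) (hK2 : 0 ≤ K2) (g : E d → E d) (ξ x : E d)
    (c : ℝ → E d) (ρ : ℝ → ℝ) (hc : Continuous c) (hρ : Continuous ρ) (J : ℝ → ℝ)
    (hJ : ∀ t ∈ Ioc (0 : ℝ) 1,
      ENNReal.ofReal (-(J t)) ≤ ENNReal.ofReal K * ∑' i, levelSum (bandWgt A (c t) (ρ t) i) g ξ i)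
    (hband : ∀ (z : E d) (i : ℕ),
      volume {τ ∈ Icc (0 : ℝ) 1 | |dist z (c τ) - ρ τ| ≤ A * ((2 : ℝ) ^ i)⁻¹} ≤
        ENNReal.ofReal K2 * wgt A' i (z - x)) :
    ENNReal.ofReal (-(∫ t in (0 : ℝ)..1, J t)) ≤
      ENNReal.ofReal (K * (1 + K2)) * ∑' i, levelSum (fun z => wgt A' i (z - x)) g ξ i := by
  have hcont : ∀ z : E d, Continuous fun t => |dist z (c t) - ρ t| := fun z =>
    ((continuous_const.dist hc).sub hρ).abs
  have hmeas : ∀ i (z : E d), Measurable fun t => bandWgt A (c t) (ρ t) i z := fun i z => by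
    unfold bandWgt
    refine Measurable.const_add (Measurable.ite ?_ measurable_const measurable_const) _
    exact (isClosed_le (hcont z) continuous_const).measurableSet
  have hone : ∀ i (z : E d), ∫⁻ t in Ioc (0 : ℝ) 1, bandWgt A (c t) (ρ t) i z ≤
      ENNReal.ofReal (1 + K2) * wgt A' i (z - x) := by
    intro i z
    set S := {t : ℝ | |dist z (c t) - ρ t| ≤ A * ((2 : ℝ) ^ i)⁻¹}
    have hS : MeasurableSet S := (isClosed_le (hcont z) continuous_const).measurableSet
    have e : (fun t => bandWgt A (c t) (ρ t) i z) = fun t =>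
        ENNReal.ofReal (((2 : ℝ) ^ i)⁻¹) + S.indicator 1 t := by
      funext t; simp only [bandWgt, S, Set.indicator_apply, Set.mem_ofPred_eq, Pi.one_apply]
    rw [e, lintegral_add_left measurable_const, setLIntegral_const, Real.volume_Ioc, sub_zero,
      ENNReal.ofReal_one, mul_one, lintegral_indicator_one hS, Measure.restrict_apply hS,
      ENNReal.ofReal_add zero_le_one hK2, ENNReal.ofReal_one, add_mul, one_mul]
    refine add_le_add ((ENNReal.ofReal_le_ofReal (one_le_dec_pow i)).trans (dec_le_wgt A' i _)) ?_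
    refine (measure_mono ?_).trans (hband z i)
    exact fun t ht => ⟨Ioc_subset_Icc_self ht.2, ht.1⟩
  rw [← intervalIntegral.integral_neg, intervalIntegral.integral_of_le zero_le_one]
  calc ENNReal.ofReal (∫ t in Ioc (0 : ℝ) 1, -J t)
      ≤ ∫⁻ t in Ioc (0 : ℝ) 1, ENNReal.ofReal (-J t) := ofReal_integral_le _
    _ ≤ ∫⁻ t in Ioc (0 : ℝ) 1, ENNReal.ofReal K * ∑' i, levelSum (bandWgt A (c t) (ρ t) i) g ξ i :=
        setLIntegral_mono' measurableSet_Ioc hJ
    _ = ENNReal.ofReal K * ∑' i, ∫⁻ t in Ioc (0 : ℝ) 1, levelSum (bandWgt A (c t) (ρ t) i) g ξ i := by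
        have hl : ∀ i, Measurable fun t => levelSum (bandWgt A (c t) (ρ t) i) g ξ i := fun i =>
          Finset.measurable_sum _ fun b _ => (hmeas i _).mul_const _
        rw [lintegral_const_mul _ (Measurable.tsum hl), lintegral_tsum fun i => (hl i).aemeasurable]
    _ ≤ ENNReal.ofReal K * ∑' i, ENNReal.ofReal (1 + K2) * levelSum (fun z => wgt A' i (z - x)) g ξ i := by
        refine mul_le_mul' le_rfl (ENNReal.tsum_le_tsum fun i => ?_)
        simp only [levelSum]
        rw [lintegral_finsetSum _ fun b _ => (hmeas i _).mul_const _, Finset.mul_sum]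
        refine Finset.sum_le_sum fun b _ => ?_
        rw [lintegral_mul_const _ (hmeas i _), ← mul_assoc]
        exact mul_le_mul' (hone i _) le_rfl
    _ = _ := by rw [ENNReal.tsum_mul_left, ← mul_assoc, ← ENNReal.ofReal_mul hK]

lemma levelSum_mono {A A' : ℝ} (h : A ≤ A') (g : E d → E d) (ξ x : E d) (i : ℕ) :
    levelSum (fun z => wgt A i (z - x)) g ξ i ≤ levelSum (fun z => wgt A' i (z - x)) g ξ i :=
  Finset.sum_le_sum fun _ _ => mul_le_mul' (wgt_mono h i _) le_rfl

/-- squared norm of the part orthogonal to a unit vector -/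
lemma perp_sq {e : E d} (he : ‖e‖ = 1) (v : E d) :
    ‖v - ⟪e, v⟫ • e‖ ^ 2 = ‖v‖ ^ 2 - ⟪e, v⟫ ^ 2 := by
  rw [norm_sub_sq_real, norm_smul, Real.norm_eq_abs, he, mul_one, sq_abs, inner_smul_right,
    real_inner_comm e v]
  ring

lemma perp_le {e : E d} (he : ‖e‖ = 1) (v : E d) : ‖v - ⟪e, v⟫ • e‖ ^ 2 ≤ ‖v‖ ^ 2 := by
  rw [perp_sq he]; nlinarith [sq_nonneg ⟪e, v⟫]

lemma perp_add {e : E d} (v w : E d) :
    ‖(v + w) - ⟪e, v + w⟫ • e‖ ^ 2 ≤ 2 * ‖v - ⟪e, v⟫ • e‖ ^ 2 + 2 * ‖w - ⟪e, w⟫ • e‖ ^ 2 := by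
  rw [show (v + w) - ⟪e, v + w⟫ • e = (v - ⟪e, v⟫ • e) + (w - ⟪e, w⟫ • e) by
    rw [inner_add_right, add_smul]; module]
  have h := norm_add_le (v - ⟪e, v⟫ • e) (w - ⟪e, w⟫ • e)
  nlinarith [norm_nonneg (v - ⟪e, v⟫ • e + (w - ⟪e, w⟫ • e)), norm_nonneg (v - ⟪e, v⟫ • e),
    norm_nonneg (w - ⟪e, w⟫ • e), sq_nonneg (‖v - ⟪e, v⟫ • e‖ - ‖w - ⟪e, w⟫ • e‖)]

lemma perp_smul {e : E d} (a : ℝ) (v : E d) :
    ‖a • v - ⟪e, a • v⟫ • e‖ ^ 2 = a ^ 2 * ‖v - ⟪e, v⟫ • e‖ ^ 2 := by
  rw [inner_smul_right, mul_smul, ← smul_sub, norm_smul, mul_pow, Real.norm_eq_abs, sq_abs]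

lemma vol_bounds {r : ℝ} (h1 : 1 ≤ r) (h2 : r ≤ 32) :
    0 < (r ^ d * vol1 d)⁻¹ ∧ (r ^ d * vol1 d)⁻¹ ≤ (vol1 d)⁻¹ ∧
      1 / ((32 : ℝ) ^ d * vol1 d) ≤ (r ^ d * vol1 d)⁻¹ := by
  have hV := vol1_pos (d := d)
  have hp : 0 < r ^ d := pow_pos (by linarith) d
  refine ⟨inv_pos.2 (mul_pos hp hV), inv_anti₀ hV (le_mul_of_one_le_left hV.le (one_le_pow₀ h1)), ?_⟩
  rw [one_div]
  exact inv_anti₀ (mul_pos hp hV) (mul_le_mul_of_nonneg_right (pow_le_pow_left₀ (by linarith) h2 d) hV.le)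

/-- the flux through balls near `x` of an admissible field is bounded below by the deficits -/
def LowerBound (g : E d → E d) (ξ x e : E d) (K1 A1 : ℝ) : Prop :=
  ∀ (c : E d) (ρ : ℝ) (F : E d → E d), 0 < ρ → ρ + dist c x ≤ 64 →
    (∀ z y, ‖F z - F y‖ ≤ 50 / vol1 d * ‖z - y‖) →
    (∀ z ∈ closedBall c ρ, ‖F z‖ ≤ 400 / vol1 d ∧
      1 / (4 * (32 : ℝ) ^ d * vol1 d) * (ρ - dist z c) ≤ ⟪e, F z⟫ ∧
      ‖F z - ⟪e, F z⟫ • e‖ ^ 2 ≤ 40000 * (32 : ℝ) ^ d / vol1 d * ⟪e, F z⟫) →
    ENNReal.ofReal (-∫ z in closedBall c ρ, ⟪g z, F z⟫) ≤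
      ENNReal.ofReal K1 * ∑' i, levelSum (bandWgt A1 c ρ i) g ξ i

/-- scaling a field with the three properties -/
lemma scaled_field {e Y : E d} {a V Q D : ℝ} (hV : 0 < V) (hQ : 1 ≤ Q) (a0 : 0 < a)
    (a1 : a ≤ V⁻¹) (a2 : 1 / (Q * V) ≤ a) (hn : ‖Y‖ ≤ 36) (hD : 0 ≤ D) (hlo : D / 2 ≤ ⟪e, Y⟫)
    (hperp : ‖Y - ⟪e, Y⟫ • e‖ ^ 2 ≤ 1000 * ⟪e, Y⟫) :
    ‖a • Y‖ ≤ 400 / V ∧ 1 / (4 * Q * V) * D ≤ ⟪e, a • Y⟫ ∧
      ‖a • Y - ⟪e, a • Y⟫ • e‖ ^ 2 ≤ 40000 * Q / V * ⟪e, a • Y⟫ := by
  have hi : 0 < V⁻¹ := inv_pos.2 hV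
  have hY0 : 0 ≤ ⟪e, Y⟫ := le_trans (by linarith) hlo
  refine ⟨?_, ?_, ?_⟩
  · rw [norm_smul, Real.norm_eq_abs, abs_of_pos a0, div_eq_mul_inv, mul_comm (400 : ℝ)]
    exact mul_le_mul a1 (hn.trans (by norm_num)) (norm_nonneg _) hi.le
  · rw [inner_smul_right, show 1 / (4 * Q * V) * D = 1 / (Q * V) * (D / 4) by ring]
    exact mul_le_mul a2 (by linarith) (by linarith) a0.le
  · rw [perp_smul, inner_smul_right, show 40000 * Q / V * (a * ⟪e, Y⟫) =
      a * (V⁻¹ * (40000 * Q * ⟪e, Y⟫)) by ring, sq, mul_assoc]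
    refine mul_le_mul_of_nonneg_left (mul_le_mul a1 (hperp.trans ?_) (sq_nonneg _) hi.le) a0.le
    exact mul_le_mul_of_nonneg_right (by linarith) hY0

/-- the field of the family joining the optimal ball to the ball of radius 16 -/
lemma tilt_field {e P w : E d} {r : ℝ} (he : ‖e‖ = 1) (hr : r ∈ Icc (1 : ℝ) 2) (hP : ‖P‖ ≤ r)
    (hw : ‖w‖ ≤ 1) :
    ‖((16 : ℝ) • e - P) + (16 - r) • w‖ ≤ 36 ∧
      14 * (1 - ‖w‖) ≤ ⟪e, ((16 : ℝ) • e - P) + (16 - r) • w⟫ ∧
      ‖((16 : ℝ) • e - P) + (16 - r) • w - ⟪e, ((16 : ℝ) • e - P) + (16 - r) • w⟫ • e‖ ^ 2 ≤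
        64 * ⟪e, ((16 : ℝ) • e - P) + (16 - r) • w⟫ := by
  obtain ⟨hr1, hr2⟩ := hr
  have hPe : |⟪e, P⟫| ≤ r := (abs_real_inner_le_norm e P).trans (by rw [he, one_mul]; exact hP)
  have hwe : |⟪e, w⟫| ≤ ‖w‖ := (abs_real_inner_le_norm e w).trans (by rw [he, one_mul])
  have hYe : ⟪e, ((16 : ℝ) • e - P) + (16 - r) • w⟫ = (r - ⟪e, P⟫) + (16 - r) * (1 + ⟪e, w⟫) := by
    rw [inner_add_right, inner_sub_right, inner_smul_right, inner_smul_right,
      real_inner_self_eq_norm_sq, he]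
    ring
  obtain ⟨p1, p2⟩ := abs_le.1 hPe
  obtain ⟨w1, w2⟩ := abs_le.1 hwe
  refine ⟨?_, ?_, ?_⟩
  · refine (norm_add_le _ _).trans ?_
    have h1 := norm_sub_le ((16 : ℝ) • e) P
    rw [norm_smul, he, mul_one, Real.norm_eq_abs, abs_of_pos (by norm_num : (0:ℝ) < 16)] at h1
    rw [norm_smul, Real.norm_eq_abs, abs_of_nonneg (by linarith : (0:ℝ) ≤ 16 - r)]
    have h2 : (16 - r) * ‖w‖ ≤ 15 * 1 := mul_le_mul (by linarith) hw (norm_nonneg w) (by norm_num)
    linarith
  · rw [hYe]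
    have h1 : 14 * (1 - ‖w‖) ≤ (16 - r) * (1 + ⟪e, w⟫) :=
      mul_le_mul (by linarith) (by linarith) (by linarith) (by linarith)
    linarith
  · refine (perp_add _ _).trans ?_
    rw [hYe, perp_smul]
    have h1 : ‖(16 : ℝ) • e - P - ⟪e, (16 : ℝ) • e - P⟫ • e‖ ^ 2 = ‖P‖ ^ 2 - ⟪e, P⟫ ^ 2 := by
      rw [show (16 : ℝ) • e - P - ⟪e, (16 : ℝ) • e - P⟫ • e = -(P - ⟪e, P⟫ • e) by
        rw [inner_sub_right, inner_smul_right, real_inner_self_eq_norm_sq, he]; module,
        norm_neg, perp_sq he]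
    rw [h1, perp_sq he]
    have h4 : ‖P‖ ^ 2 - ⟪e, P⟫ ^ 2 ≤ (r - ⟪e, P⟫) * 4 := by
      have h := pow_le_pow_left₀ (norm_nonneg P) hP 2
      calc ‖P‖ ^ 2 - ⟪e, P⟫ ^ 2 ≤ r ^ 2 - ⟪e, P⟫ ^ 2 := by linarith
        _ = (r - ⟪e, P⟫) * (r + ⟪e, P⟫) := by ring
        _ ≤ _ := mul_le_mul_of_nonneg_left (by linarith) (by linarith)
    have h5 : ‖w‖ ^ 2 - ⟪e, w⟫ ^ 2 ≤ 2 * (1 + ⟪e, w⟫) := by
      linarith [pow_le_one₀ (n := 2) (norm_nonneg w) hw, sq_nonneg (1 + ⟪e, w⟫),
        show (1 + ⟪e, w⟫) ^ 2 = 1 + 2 * ⟪e, w⟫ + ⟪e, w⟫ ^ 2 by ring]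
    have h6 : (16 - r) ^ 2 * (‖w‖ ^ 2 - ⟪e, w⟫ ^ 2) ≤ 15 * ((16 - r) * (2 * (1 + ⟪e, w⟫))) := by
      refine (mul_le_mul_of_nonneg_left h5 (sq_nonneg _)).trans ?_
      rw [sq, mul_assoc]
      exact mul_le_mul_of_nonneg_right (by linarith)
        (mul_nonneg (by linarith) (mul_nonneg zero_le_two (by linarith)))
    linarith [mul_nonneg (show 0 ≤ 16 - r by linarith) (show 0 ≤ 1 + ⟪e, w⟫ by linarith)]

/-- the field of the dilations at the contact point with a concentric part -/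
lemma mixed_field {e z' S : E d} {a q θ V Q φ D : ℝ} (he : ‖e‖ = 1) (hV : 0 < V) (hQ : 1 ≤ Q)
    (hθ : θ = 1 / (64 * Q)) (a0 : 0 < a) (a1 : a ≤ V⁻¹) (a2 : 1 / (Q * V) ≤ a) (q0 : 1 / 2 ≤ q)
    (q1 : q ≤ 1) (hD : 0 ≤ D) (hDz : D ≤ ⟪e, z'⟫) (hn : ‖z'‖ ≤ 64) (hsq : ‖z'‖ ^ 2 ≤ 64 * ⟪e, z'⟫)
    (hS : ‖S‖ ≤ 16 / V * φ) (hφ0 : 0 ≤ φ) (hφ : φ ≤ 16) (hφz : φ ≤ ⟪e, z'⟫) :
    ‖a • q • z' + θ • S‖ ≤ 400 / V ∧ 1 / (4 * Q * V) * D ≤ ⟪e, a • q • z' + θ • S⟫ ∧
      ‖a • q • z' + θ • S - ⟪e, a • q • z' + θ • S⟫ • e‖ ^ 2 ≤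
        40000 * Q / V * ⟪e, a • q • z' + θ • S⟫ := by
  have hi : 0 < V⁻¹ := inv_pos.2 hV
  have hz0 : 0 ≤ ⟪e, z'⟫ := hD.trans hDz
  have hθ0 : 0 < θ := by rw [hθ]; positivity
  have hθ1 : θ ≤ 1 := by rw [hθ, div_le_one (by linarith)]; linarith
  have h16 : 0 ≤ 16 / V := div_nonneg (by norm_num) hV.le
  have hlo : 1 / (4 * Q * V) * ⟪e, z'⟫ ≤ ⟪e, a • q • z' + θ • S⟫ := by
    rw [inner_add_right, inner_smul_right, inner_smul_right, inner_smul_right]
    have h1 := abs_real_inner_le_norm e S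
    rw [he, one_mul] at h1
    have h2 : θ * (-(16 / V * ⟪e, z'⟫)) ≤ θ * ⟪e, S⟫ :=
      mul_le_mul_of_nonneg_left (by linarith [(abs_le.1 h1).1, mul_le_mul_of_nonneg_left hφz h16]) hθ0.le
    have h3 : 1 / (Q * V) * (1 / 2 * ⟪e, z'⟫) ≤ a * (q * ⟪e, z'⟫) :=
      mul_le_mul a2 (mul_le_mul_of_nonneg_right q0 hz0) (mul_nonneg (by norm_num) hz0) a0.le
    have h4 : θ * (-(16 / V * ⟪e, z'⟫)) = -(1 / (Q * V) * (1 / 4 * ⟪e, z'⟫)) := by
      rw [hθ]; ring
    have h5 : 1 / (4 * Q * V) * ⟪e, z'⟫ = 1 / (Q * V) * (1 / 4 * ⟪e, z'⟫) := by ring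
    linarith
  refine ⟨?_, le_trans (mul_le_mul_of_nonneg_left hDz (by positivity)) hlo, ?_⟩
  · refine (norm_add_le _ _).trans ?_
    rw [norm_smul, norm_smul, norm_smul, Real.norm_eq_abs, Real.norm_eq_abs, Real.norm_eq_abs,
      abs_of_pos a0, abs_of_pos hθ0, abs_of_nonneg (by linarith : 0 ≤ q)]
    calc a * (q * ‖z'‖) + θ * ‖S‖ ≤ V⁻¹ * (1 * 64) + 1 * (16 / V * 16) := by
          refine add_le_add (mul_le_mul a1 (mul_le_mul q1 hn (norm_nonneg _) zero_le_one)
            (mul_nonneg (by linarith) (norm_nonneg _)) hi.le) ?_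
          exact mul_le_mul hθ1 (hS.trans (mul_le_mul_of_nonneg_left hφ h16)) (norm_nonneg _) zero_le_one
      _ = 320 * V⁻¹ := by ring
      _ ≤ 400 * V⁻¹ := mul_le_mul_of_nonneg_right (by norm_num) hi.le
      _ = 400 / V := by ring
  · refine le_trans (perp_add _ _) (le_trans ?_ (mul_le_mul_of_nonneg_left hlo
      (div_nonneg (by linarith) hV.le)))
    have h1 : ‖a • q • z' - ⟪e, a • q • z'⟫ • e‖ ^ 2 ≤ V⁻¹ ^ 2 * (1 ^ 2 * (64 * ⟪e, z'⟫)) := by
      rw [perp_smul, perp_smul]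
      exact mul_le_mul (pow_le_pow_left₀ a0.le a1 2) (mul_le_mul (pow_le_pow_left₀ (by linarith) q1 2)
        ((perp_le he z').trans hsq) (sq_nonneg _) (by norm_num)) (by positivity) (sq_nonneg _)
    have h2 : ‖θ • S - ⟪e, θ • S⟫ • e‖ ^ 2 ≤ V⁻¹ ^ 2 * (256 * (φ * φ)) := by
      rw [perp_smul]
      calc θ ^ 2 * ‖S - ⟪e, S⟫ • e‖ ^ 2 ≤ 1 * (16 / V * φ) ^ 2 :=
            mul_le_mul (pow_le_one₀ hθ0.le hθ1) ((perp_le he _).trans
              (pow_le_pow_left₀ (norm_nonneg _) hS 2)) (sq_nonneg _) zero_le_one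
        _ = _ := by ring
    have h3 : φ * φ ≤ 16 * ⟪e, z'⟫ := mul_le_mul hφ hφz hφ0 (by norm_num)
    have hQ0 : Q ≠ 0 := by linarith
    have hE : 40000 * Q / V * (1 / (4 * Q * V) * ⟪e, z'⟫) = V⁻¹ ^ 2 * (10000 * ⟪e, z'⟫) := by
      field_simp; ring
    rw [hE]
    have h4 := mul_le_mul_of_nonneg_left h3 (sq_nonneg V⁻¹)
    have h5 := mul_nonneg (sq_nonneg V⁻¹) hz0
    linarith

/-- translation of the small ball -/
lemma translate_step {K1 A1 KT A : ℝ} (hKT : 0 ≤ KT)
    (hbT : ∀ (z c v : E d) (r : ℝ) (i : ℕ), 1 ≤ ‖v‖ → ‖v‖ ≤ 32 → 0 ≤ r → r ≤ 32 →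
      volume {τ ∈ Icc (0 : ℝ) 1 | |dist z (c + τ • v) - r| ≤ A1 * ((2 : ℝ) ^ i)⁻¹} ≤
        ENNReal.ofReal (KT * dec i))
    {f : E d → ℝ} {g : E d → E d} (hf : IsC1c f g) {ξ x e : E d} (he : ‖e‖ = 1) (hK1 : 0 ≤ K1)
    (hlow' : LowerBound g ξ x e K1 A1)
    {cB : E d} {rB : ℝ} (hcB : dist cB x ≤ 4) (hrB : rB ∈ Icc (1 : ℝ) 2) :
    ENNReal.ofReal (avgB f cB rB - avgB f (x + (16 : ℝ) • e) rB) ≤
      ENNReal.ofReal (K1 * (1 + KT)) * ∑' i, levelSum (fun z => wgt A i (z - x)) g ξ i := by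
  set V := vol1 d
  have hV : 0 < V := vol1_pos
  set Q : ℝ := 32 ^ d
  have hQ : 1 ≤ Q := one_le_pow₀ (by norm_num)
  set c0 := x + (16 : ℝ) • e with hc0
  have hex : dist c0 x = 16 := by simp [hc0, dist_eq_norm, norm_smul, he]
  set v := c0 - cB with hv
  have hve : 12 ≤ ⟪e, v⟫ := by
    have h1 : ⟪e, v⟫ = 16 + ⟪e, x - cB⟫ := by
      rw [hv, hc0, add_sub_right_comm, inner_add_right, inner_smul_right,
        real_inner_self_eq_norm_sq, he]
      ring
    have h2 := abs_real_inner_le_norm e (x - cB)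
    rw [he, one_mul, ← dist_eq_norm, dist_comm] at h2
    linarith [abs_le.1 h2]
  have hvn : ‖v‖ ≤ 20 := by
    rw [hv, ← dist_eq_norm]
    linarith [dist_triangle c0 x cB, dist_comm x cB]
  have hpos : ∀ t ∈ Icc (0 : ℝ) 1, 0 < rB + t * 0 := fun t _ => by linarith [hrB.1]
  have hd1 := avgB_sub hf cB v hpos
  rw [hv, add_sub_cancel, add_zero, ← hv] at hd1
  rw [← neg_sub, hd1]
  refine (time_bound (A := A1) hK1 hKT g ξ x (fun t => cB + t • v) (fun _ => rB) (by fun_prop)
    continuous_const _ (fun t ht => ?_) (fun z i => ?_))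
  · simp only [flux, zero_div, zero_smul, add_zero, mul_zero]
    rw [avgB_inner g (fun _ => v)]
    obtain ⟨a0, a1, a2⟩ := vol_bounds (d := d) hrB.1 (by linarith [hrB.2])
    rw [vol_closedBall _ (by linarith [hrB.1])]
    refine hlow' _ _ (fun _ => (rB ^ d * V)⁻¹ • v) (by linarith [hrB.1]) ?_ (fun z y => by
      rw [sub_self, norm_zero]; positivity) fun z hz => scaled_field hV hQ a0 a1 a2
        (hvn.trans (by norm_num)) (sub_nonneg.2 hz) ?_ ?_
    · have : dist (cB + t • v) x ≤ dist cB x + 20 := by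
        rw [dist_eq_norm, dist_eq_norm, show cB + t • v - x = (cB - x) + t • v by module]
        refine (norm_add_le _ _).trans (add_le_add le_rfl ?_)
        rw [norm_smul, Real.norm_eq_abs, abs_of_nonneg ht.1.le]
        nlinarith [ht.2, norm_nonneg v]
      linarith [hrB.2]
    · linarith [hrB.2, dist_nonneg (x := z) (y := cB + t • v)]
    · refine ((perp_le he v).trans (pow_le_pow_left₀ (norm_nonneg v) hvn 2)).trans ?_
      linarith
  · have h := hbT z cB v rB i (by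
      calc (1 : ℝ) ≤ ⟪e, v⟫ := by linarith
        _ ≤ |⟪e, v⟫| := le_abs_self _
        _ ≤ ‖v‖ := by simpa [he] using abs_real_inner_le_norm e v) (by linarith) (by linarith [hrB.1])
      (by linarith [hrB.2])
    rw [ENNReal.ofReal_mul hKT] at h
    exact h.trans (mul_le_mul' le_rfl (dec_le_wgt A i _))

/-- from the optimal ball to the ball of radius 16 -/
lemma optimal_step {K1 A1 KU AU : ℝ} (hKU : 0 ≤ KU)
    (hbU : ∀ (p P e : E d) (r : ℝ) (i : ℕ), ‖e‖ = 1 → ‖P‖ ≤ r → r ∈ Icc (1 : ℝ) 2 →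
      volume {τ ∈ Icc (0 : ℝ) 1 |
          |dist p ((1 - τ) • P + (16 * τ) • e) - ((1 - τ) * r + 16 * τ)| ≤
            A1 * ((2 : ℝ) ^ i)⁻¹} ≤
        ENNReal.ofReal KU * wgt AU i p)
    {f : E d → ℝ} {g : E d → E d} (hf : IsC1c f g) {ξ x e : E d} (he : ‖e‖ = 1) (hK1 : 0 ≤ K1)
    (hlow' : LowerBound g ξ x e K1 A1)
    {c' : E d} {r' u : ℝ} (hr' : r' ∈ Icc (1 : ℝ) 2) (hxc' : dist x c' ≤ r') (havg : avgB f c' r' = u) :
    ENNReal.ofReal (u - avgB f (x + (16 : ℝ) • e) 16) ≤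
      ENNReal.ofReal (K1 * (1 + KU)) * ∑' i, levelSum (fun z => wgt AU i (z - x)) g ξ i := by
  set V := vol1 d
  have hV : 0 < V := vol1_pos
  set Q : ℝ := 32 ^ d
  have hQ : 1 ≤ Q := one_le_pow₀ (by norm_num)
  set c0 := x + (16 : ℝ) • e with hc0
  set P := c' - x with hP
  have hPn : ‖P‖ ≤ r' := by rw [hP, ← dist_eq_norm, dist_comm]; exact hxc'
  set v := c0 - c' with hv
  have hpos : ∀ t ∈ Icc (0 : ℝ) 1, 0 < r' + t * (16 - r') := fun t ht => by
    nlinarith [hr'.1, hr'.2, ht.1]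
  have hd1 := avgB_sub hf c' v hpos
  rw [hv, add_sub_cancel, add_sub_cancel, ← hv, havg] at hd1
  rw [← neg_sub, hd1]
  refine (time_bound (A := A1) (A' := AU) hK1 hKU g ξ x (fun t => c' + t • v)
    (fun t => r' + t * (16 - r')) (by fun_prop) (by fun_prop) _ (fun t ht => ?_) (fun z i => ?_))
  · simp only [flux]
    set ρ := r' + t * (16 - r') with hρdef
    have hρ1 : 1 ≤ ρ := by nlinarith [hr'.1, hr'.2, ht.1]
    have hρ16 : ρ ≤ 16 := by nlinarith [hr'.1, hr'.2, ht.2]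
    set c := c' + t • v with hcdef
    rw [avgB_inner g (fun z => v + ((16 - r') / ρ) • (z - c))]
    rw [vol_closedBall _ (by linarith)]
    obtain ⟨a0, a1, a2⟩ := vol_bounds hρ1 (by linarith)
    refine hlow' _ _ (fun z => (ρ ^ d * V)⁻¹ • (v + ((16 - r') / ρ) • (z - c))) (by linarith) ?_
      (fun z y => ?_) fun z hz => ?_
    · have : dist c x ≤ 18 := by
        rw [dist_eq_norm, show c - x = (1 - t) • P + t • ((16 : ℝ) • e) by
          simp only [hcdef, hv, hc0, hP]; module]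
        refine (norm_add_le _ _).trans ?_
        rw [norm_smul, norm_smul, norm_smul, he, mul_one, Real.norm_eq_abs, Real.norm_eq_abs,
          Real.norm_eq_abs, abs_of_nonneg (by linarith [ht.2] : (0:ℝ) ≤ 1 - t), abs_of_nonneg ht.1.le,
          abs_of_pos (by norm_num : (0:ℝ) < 16)]
        nlinarith [hr'.2, norm_nonneg P, ht.1, ht.2]
      linarith
    · rw [← smul_sub, show v + ((16 - r') / ρ) • (z - c) - (v + ((16 - r') / ρ) • (y - c)) =
        ((16 - r') / ρ) • (z - y) by module, norm_smul, norm_smul, Real.norm_eq_abs, Real.norm_eq_abs,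
        abs_of_pos a0, abs_of_nonneg (div_nonneg (by linarith [hr'.2]) (by linarith))]
      have : (16 - r') / ρ ≤ 50 := (div_le_self (by linarith [hr'.2]) hρ1).trans (by linarith [hr'.1])
      calc (ρ ^ d * V)⁻¹ * ((16 - r') / ρ * ‖z - y‖) ≤ V⁻¹ * (50 * ‖z - y‖) :=
            mul_le_mul a1 (mul_le_mul_of_nonneg_right this (norm_nonneg _)) (by
              have : 0 ≤ 16 - r' := by linarith [hr'.2]
              positivity) (by positivity)
        _ = _ := by ring
    · -- write the field as (16 e - P) + (16 - r') w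
      set w := ρ⁻¹ • (z - c) with hwdef
      have hw : ‖w‖ = dist z c / ρ := by
        rw [hwdef, norm_smul, norm_inv, Real.norm_eq_abs, abs_of_pos (by linarith : (0:ℝ) < ρ),
          dist_eq_norm, inv_mul_eq_div]
      have hw1 : ‖w‖ ≤ 1 := by rw [hw, div_le_one (by linarith)]; exact hz
      have hY : v + ((16 - r') / ρ) • (z - c) = ((16 : ℝ) • e - P) + (16 - r') • w := by
        rw [hwdef, smul_smul, ← div_eq_mul_inv]; simp only [hv, hc0, hP]; module
      obtain ⟨f1, f2, f3⟩ := tilt_field he hr' hPn hw1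
      rw [hY]
      refine scaled_field hV hQ a0 a1 a2 f1 (sub_nonneg.2 hz) (le_trans ?_ f2) (f3.trans ?_)
      · have h1 : (ρ - dist z c) = ρ * (1 - ‖w‖) := by
          rw [hw, mul_sub, mul_one, mul_div_cancel₀ _ (by linarith : ρ ≠ 0)]
        have h2 : ρ * (1 - ‖w‖) ≤ 16 * (1 - ‖w‖) :=
          mul_le_mul_of_nonneg_right hρ16 (sub_nonneg.2 hw1)
        linarith
      · linarith [le_trans (mul_nonneg (by norm_num : (0:ℝ) ≤ 14) (sub_nonneg.2 hw1)) f2]
  · have h := hbU (z - x) P e r' i he hPn hr'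
    refine le_trans (measure_mono ?_) h
    intro t ht
    refine ⟨ht.1, ?_⟩
    have h1 := ht.2
    rw [dist_eq_norm] at h1 ⊢
    convert h1 using 3
    · congr 1; simp only [hv, hc0, hP]; module
    · ring

/-- dilation at the contact point, with a concentric part -/
lemma dilate_step {K1 A1 KD AD : ℝ} (hKD : 0 ≤ KD)
    (hbD : ∀ (p e : E d) (i : ℕ), ‖e‖ = 1 →
      volume {τ ∈ Icc (0 : ℝ) 1 |
          |dist p ((16 * (1 + τ)) • e) - 16 * (1 + τ)| ≤ A1 * ((2 : ℝ) ^ i)⁻¹} ≤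
        ENNReal.ofReal KD * wgt AD i p)
    {f : E d → ℝ} {g : E d → E d} (hf : IsC1c f g) {ξ x e : E d} (he : ‖e‖ = 1) (hK1 : 0 ≤ K1)
    (hlow' : LowerBound g ξ x e K1 A1)
    {rB : ℝ} (hrB : rB ∈ Icc (1 : ℝ) 2) :
    ENNReal.ofReal (-((avgB f (x + (32 : ℝ) • e) 32 - avgB f (x + (16 : ℝ) • e) 16) +
      1 / (64 * (32 : ℝ) ^ d) * (avgB f (x + (16 : ℝ) • e) 16 - avgB f (x + (16 : ℝ) • e) rB))) ≤
      ENNReal.ofReal (K1 * (1 + KD)) * ∑' i, levelSum (fun z => wgt AD i (z - x)) g ξ i := by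
  set V := vol1 d
  have hV : 0 < V := vol1_pos
  set Q : ℝ := 32 ^ d
  have hQ : 1 ≤ Q := one_le_pow₀ (by norm_num)
  set c0 := x + (16 : ℝ) • e with hc0
  have hg : Continuous g := hf.cont
  set θ : ℝ := 1 / (64 * Q) with hθdef
  have hθ : 0 < θ := by positivity
  have hθ1 : θ ≤ 1 := by
    rw [hθdef, div_le_one (by positivity)]; linarith
  set A2 := avgB f (x + (32 : ℝ) • e) 32
  set A16 := avgB f c0 16
  set K0 := avgB f c0 rB
  have hpos : ∀ t ∈ Icc (0 : ℝ) 1, (0:ℝ) < 16 + t * 16 := fun t ht => by linarith [ht.1]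
  set v := (16 : ℝ) • e
  have hd1 := avgB_sub hf c0 v hpos
  rw [show c0 + v = x + (32 : ℝ) • e by simp only [hc0, v]; module,
    show (16 : ℝ) + 16 = 32 by norm_num] at hd1
  have hsh : A16 - K0 = ∫ z in closedBall c0 16, ⟪g z, shell c0 rB z⟫ := shell_eq hf c0 hrB
  set S := ∫ z in closedBall c0 16, ⟪g z, shell c0 rB z⟫
  have hi : IntervalIntegrable (flux g c0 v 16 16) volume 0 1 :=
    ((continuous_flux hg c0 v hpos).mono (by rw [uIcc_of_le zero_le_one])).intervalIntegrable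
  have hint : A2 - A16 + θ * (A16 - K0) = ∫ t in (0 : ℝ)..1, (flux g c0 v 16 16 t + θ * S) := by
    rw [intervalIntegral.integral_add hi intervalIntegrable_const, ← hd1, hsh]
    simp [A2, A16]
  rw [hint]
  refine (time_bound (A := A1) (A' := AD) hK1 hKD g ξ x (fun t => c0 + t • v)
    (fun t => 16 + t * 16) (by fun_prop) (by fun_prop) _ (fun t ht => ?_) (fun z i => ?_))
  · simp only [flux]
    set ρ := (16 : ℝ) + t * 16 with hρdef
    have hρ1 : 16 ≤ ρ := by linarith [ht.1]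
    have hρ32 : ρ ≤ 32 := by linarith [ht.2]
    set c := c0 + t • v with hcdef
    have hcρ : c = x + ρ • e := by simp only [hcdef, hc0, v, hρdef]; module
    have hBB : closedBall c0 16 ⊆ closedBall c ρ := by
      refine closedBall_subset_closedBall' ?_
      rw [hcρ, hc0, dist_add_left, dist_eq_norm, ← sub_smul, norm_smul, he, Real.norm_eq_abs,
        abs_of_nonpos (by linarith)]
      linarith
    have hSc : Continuous fun z => shell c0 rB z := by
      refine (LipschitzWith.of_dist_le_mul (K := ⟨32 / V, by positivity⟩) fun z y => ?_).continuous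
      rw [dist_eq_norm, dist_eq_norm]; exact lipschitz_shell hrB c0 z y
    have hS : S = ∫ z in closedBall c ρ, ⟪g z, shell c0 rB z⟫ := by
      refine (setIntegral_eq_of_subset_of_forall_sdiff_eq_zero measurableSet_closedBall hBB
        fun z hz => ?_).symm
      have : 16 ≤ dist z c0 := le_of_lt (not_le.1 hz.2)
      simp [shell, phi_eq_zero hrB this]
    rw [avgB_inner g (fun z => v + (16 / ρ) • (z - c)), vol_closedBall _ (by linarith), hS,
      ← integral_const_mul]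
    simp only [← inner_smul_right]
    rw [← integral_add ((Continuous.inner hg (by fun_prop)).continuousOn.integrableOn_compact
      (isCompact_closedBall c ρ)) ((Continuous.inner hg (hSc.const_smul θ)).continuousOn.integrableOn_compact
      (isCompact_closedBall c ρ))]
    simp only [← inner_add_right]
    obtain ⟨a0, a1, a2⟩ := vol_bounds (by linarith : (1:ℝ) ≤ ρ) hρ32
    set a := (ρ ^ d * V)⁻¹
    refine hlow' _ _ (fun z => a • (v + (16 / ρ) • (z - c)) + θ • shell c0 rB z) (by linarith) ?_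
      (fun z y => ?_) fun z hz => ?_
    · rw [hcρ, dist_eq_norm, add_sub_cancel_left, norm_smul, he, Real.norm_eq_abs,
        abs_of_nonneg (by linarith)]
      linarith
    · rw [show a • (v + (16 / ρ) • (z - c)) + θ • shell c0 rB z -
          (a • (v + (16 / ρ) • (y - c)) + θ • shell c0 rB y) =
          (a * (16 / ρ)) • (z - y) + θ • (shell c0 rB z - shell c0 rB y) by module]
      refine (norm_add_le _ _).trans ?_
      rw [norm_smul, norm_smul, Real.norm_eq_abs, Real.norm_eq_abs, abs_of_pos hθ,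
        abs_of_nonneg (mul_nonneg a0.le (by positivity))]
      calc a * (16 / ρ) * ‖z - y‖ + θ * ‖shell c0 rB z - shell c0 rB y‖ ≤
          V⁻¹ * 1 * ‖z - y‖ + 1 * (32 / V * ‖z - y‖) := by
            refine add_le_add (mul_le_mul_of_nonneg_right (mul_le_mul a1
              ((div_le_one (by linarith)).2 hρ1) (by positivity) (by positivity)) (norm_nonneg _)) ?_
            exact mul_le_mul hθ1 (lipschitz_shell hrB c0 z y) (norm_nonneg _) zero_le_one
        _ ≤ _ := by
            rw [div_eq_inv_mul, div_eq_inv_mul]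
            nlinarith [mul_nonneg (inv_nonneg.2 hV.le) (norm_nonneg (z - y))]
    · -- the point relative to the contact point
      set z' := z - x
      set ze := ⟪e, z'⟫
      have hY : v + (16 / ρ) • (z - c) = (16 / ρ) • z' := by
        have hne : ρ ≠ 0 := by linarith
        rw [hcρ, show (16 / ρ) • (z - (x + ρ • e)) = (16 / ρ) • z' - (16 / ρ * ρ) • e by
          simp only [z']; module, div_mul_cancel₀ _ hne]
        simp only [v]; module
      have hze : ρ - dist z c ≤ ze := by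
        have h1 := abs_real_inner_le_norm e (z - c)
        rw [he, one_mul, ← dist_eq_norm] at h1
        have h2 : ze = ρ + ⟪e, z - c⟫ := by
          rw [show z - c = z' - ρ • e by rw [hcρ]; simp only [z']; module, inner_sub_right,
            inner_smul_right, real_inner_self_eq_norm_sq, he]
          simp only [ze]; ring
        linarith [abs_le.1 h1]
      have hzc : ‖z - c‖ ≤ ρ := by rw [← dist_eq_norm]; exact hz
      have hze0 : 0 ≤ ze := le_trans (sub_nonneg.2 hz) hze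
      have hsq : ‖z'‖ ^ 2 ≤ 2 * ρ * ze := by
        have h1 : ‖z - c‖ ^ 2 = ‖z'‖ ^ 2 - 2 * ρ * ze + ρ ^ 2 := by
          rw [show z - c = z' - ρ • e by rw [hcρ]; simp only [z']; module, norm_sub_sq_real,
            inner_smul_right, norm_smul, he, mul_one, Real.norm_eq_abs, sq_abs, real_inner_comm e z']
          simp only [ze]; ring
        linarith [pow_le_pow_left₀ (norm_nonneg (z - c)) hzc 2]
      have hz'n : ‖z'‖ ≤ 2 * ρ := by
        have : z' = (z - c) + ρ • e := by rw [hcρ]; simp only [z']; module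
        rw [this]
        refine (norm_add_le _ _).trans ?_
        rw [norm_smul, he, mul_one, Real.norm_eq_abs, abs_of_nonneg (by linarith)]
        linarith
      set φ := phi d rB (dist z c0)
      have hφ0 : 0 ≤ φ := phi_nonneg hrB _
      have hφ16 : φ ≤ 16 := (phi_le hrB _).2
      have hφz : φ ≤ ze := by
        refine ((phi_le hrB _).1).trans (max_le hze0 ?_)
        have h1 := abs_real_inner_le_norm e (z - c0)
        rw [he, one_mul, ← dist_eq_norm] at h1
        have h2 : ⟪e, z - c0⟫ = ze - 16 := by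
          rw [show z - c0 = z' - (16 : ℝ) • e by simp only [z', hc0]; module, inner_sub_right,
            inner_smul_right, real_inner_self_eq_norm_sq, he]
          simp only [ze]; ring
        linarith [(abs_le.1 h1).1]
      have hsn : ‖shell c0 rB z‖ ≤ 16 / V * φ := by
        rcases le_total (dist z c0) 16 with h1 | h1
        · rw [shell, norm_smul, Real.norm_eq_abs, abs_of_nonneg (div_nonneg hφ0 hV.le), ← dist_eq_norm]
          calc φ / V * dist z c0 ≤ φ / V * 16 := mul_le_mul_of_nonneg_left h1 (div_nonneg hφ0 hV.le)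
            _ = _ := by ring
        · have : φ = 0 := phi_eq_zero hrB h1
          simp [shell, φ, this]
      rw [hY]
      refine mixed_field he hV hQ hθdef a0 a1 a2 ?_ ((div_le_one (by linarith)).2 hρ1) (sub_nonneg.2 hz)
        hze (hz'n.trans (by linarith)) (hsq.trans (mul_le_mul_of_nonneg_right (by linarith) hze0))
        hsn hφ0 hφ16 hφz
      rw [div_le_div_iff₀ two_pos (by linarith)]
      linarith
  · have h := hbD (z - x) e i he
    refine le_trans (measure_mono ?_) h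
    intro t ht
    refine ⟨ht.1, ?_⟩
    have h1 := ht.2
    rw [dist_eq_norm] at h1 ⊢
    convert h1 using 3
    · congr 1; simp only [v, hc0]; module
    · ring

end Families

open Families in
theorem exists_pair_bound (hd : 0 < d) : ∃ K A : ℝ, 0 ≤ K ∧ 0 ≤ A ∧
    ∀ (f : E d → ℝ) (g : E d → E d), IsC1c f g →
      ∀ (x ξ cB c' : E d) (rB r' u : ℝ), dist cB x ≤ 4 → rB ∈ Icc (1 : ℝ) 2 →
      r' ∈ Icc (1 : ℝ) 2 → dist x c' ≤ r' → avgB f c' r' = u →
      (∀ c r, 0 < r → dist x c ≤ r → avgB f c r ≤ u) →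
      closedBall x 64 ⊆ box ξ S0 →
      ENNReal.ofReal (avgB f cB rB - u) ≤
        ENNReal.ofReal K * ∑' i, levelSum (fun z => wgt A i (z - x)) g ξ i := by
  set V := vol1 d
  have hV : 0 < V := vol1_pos
  set Q : ℝ := 32 ^ d
  have hQ : 1 ≤ Q := one_le_pow₀ (by norm_num)
  set θ : ℝ := 1 / (64 * Q) with hθdef
  have hθ : 0 < θ := by positivity
  have hθ1 : θ ≤ 1 := by
    rw [hθdef, div_le_one (by positivity)]; linarith
  set L : ℝ≥0 := ⟨50 / V, by positivity⟩
  obtain ⟨K1, A1, hK1, -, hlow⟩ := exists_ball_lower hd L (400 / V) (1 / (4 * Q * V))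
    (40000 * Q / V) (by positivity)
  obtain ⟨KT, hKT, hbT⟩ := exists_band_translate (d := d) 32 A1
  obtain ⟨KU, AU, hKU, hAU, hbU⟩ := exists_band_tilt (d := d) A1
  obtain ⟨KD, AD, hKD, -, hbD⟩ := exists_band_dilate (d := d) A1
  set A := max AU AD
  refine ⟨K1 * (1 + KT) + θ⁻¹ * (K1 * (1 + KU) + K1 * (1 + KD)), A, by positivity,
    hAU.trans (le_max_left _ _), ?_⟩
  intro f g hf x ξ cB c' rB r' u hcB hrB hr' hxc' havg hmax hroot
  have hg : Continuous g := hf.cont
  obtain ⟨e, he, hGe⟩ : ∃ e : E d, ‖e‖ = 1 ∧ boxI g ξ S0 = ‖boxI g ξ S0‖ • e := by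
    by_cases h0 : boxI g ξ S0 = 0
    · exact ⟨EuclideanSpace.single (⟨0, hd⟩ : Fin d) 1, by simp, by simp [h0]⟩
    · exact ⟨‖boxI g ξ S0‖⁻¹ • boxI g ξ S0, by simp [norm_smul, h0],
        by rw [smul_smul, mul_inv_cancel₀ (norm_ne_zero_iff.2 h0), one_smul]⟩
  have hlow' : LowerBound g ξ x e K1 A1 := fun c ρ F hρ hin hL hF =>
    hlow g hg (integrable_of_isC1c hf) ξ c e ρ F he hGe hρ
      ((closedBall_subset_closedBall' hin).trans hroot)
      (LipschitzWith.of_dist_le_mul fun z y => by rw [dist_eq_norm, dist_eq_norm]; exact hL z y)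
      (fun z hz => (hF z hz).1) (fun z hz => (hF z hz).2.1) (fun z hz => (hF z hz).2.2)
  set W := ∑' i, levelSum (fun z => wgt A i (z - x)) g ξ i
  have hW : ∀ A0 ≤ A, ∑' i, levelSum (fun z => wgt A0 i (z - x)) g ξ i ≤ W := fun A0 h =>
    ENNReal.tsum_le_tsum fun i => levelSum_mono h g ξ x i
  set c0 := x + (16 : ℝ) • e with hc0
  have hex : dist c0 x = 16 := by simp [hc0, dist_eq_norm, norm_smul, he]
  set A2 := avgB f (x + (32 : ℝ) • e) 32
  set A16 := avgB f c0 16
  set K0 := avgB f c0 rB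
  have hT : ENNReal.ofReal (avgB f cB rB - K0) ≤ ENNReal.ofReal (K1 * (1 + KT)) * W :=
    translate_step (A := A) hKT hbT hf he hK1 hlow' hcB hrB
  have hU : ENNReal.ofReal (u - A16) ≤ ENNReal.ofReal (K1 * (1 + KU)) * W :=
    (optimal_step hKU hbU hf he hK1 hlow' hr' hxc' havg).trans
      (mul_le_mul' le_rfl (hW AU (le_max_left _ _)))
  have hD : ENNReal.ofReal (-((A2 - A16) + θ * (A16 - K0))) ≤ ENNReal.ofReal (K1 * (1 + KD)) * W :=
    (dilate_step hKD hbD hf he hK1 hlow' hrB).trans (mul_le_mul' le_rfl (hW AD (le_max_right _ _)))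
  /- combine -/
  have hA16 : A16 ≤ u := hmax c0 16 (by norm_num) (by rw [dist_comm, hex])
  have hA2 : A2 ≤ u := hmax _ 32 (by norm_num) (by simp [dist_eq_norm, norm_smul, he])
  have hcomb : avgB f cB rB - u ≤
      (avgB f cB rB - K0) + θ⁻¹ * ((u - A16) + -((A2 - A16) + θ * (A16 - K0))) := by
    have h1 : θ * (K0 - u) ≤ (u - A16) + -((A2 - A16) + θ * (A16 - K0)) := by
      nlinarith
    have h2 := mul_le_mul_of_nonneg_left h1 (inv_nonneg.2 hθ.le)
    rw [← mul_assoc, inv_mul_cancel₀ hθ.ne', one_mul] at h2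
    linarith
  have hθi : 0 ≤ θ⁻¹ := inv_nonneg.2 hθ.le
  have k1 : 0 ≤ K1 * (1 + KT) := mul_nonneg hK1 (by linarith)
  have k2 : 0 ≤ K1 * (1 + KU) := mul_nonneg hK1 (by linarith)
  have k3 : 0 ≤ K1 * (1 + KD) := mul_nonneg hK1 (by linarith)
  refine (ENNReal.ofReal_le_ofReal hcomb).trans ?_
  rw [ENNReal.ofReal_add k1 (mul_nonneg hθi (add_nonneg k2 k3)), add_mul,
    ENNReal.ofReal_mul hθi, ENNReal.ofReal_add k2 k3]
  refine ENNReal.ofReal_add_le.trans (add_le_add hT ?_)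
  rw [ENNReal.ofReal_mul hθi, mul_assoc, add_mul]
  exact mul_le_mul' le_rfl (ENNReal.ofReal_add_le.trans (add_le_add hU hD))

end

end Vale.Agent.P137
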