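import Vale.Agent.P137.Defs

/-!
Weak gradients of limits with uniformly integrable gradients.

The limit gradient is built from the setwise ultrafilter limits of the positive and negative parts
of the coordinates of the gradients, weighted by `(1 + ‖x‖)⁻¹` so that no mass escapes to infinity.
-/

namespace Vale.Agent.P137

open MeasureTheory Metric Set Filter Topology
open scoped ENNReal NNReal ContDiff RealInnerProductSpace

noncomputable section

variable {d : ℕ}

namespace GradLimit

/-- A positive weight vanishing at infinity. -/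
def decW (x : E d) : ℝ := (1 + ‖x‖)⁻¹

lemma decW_pos (x : E d) : 0 < decW x := inv_pos.2 (by positivity)

lemma decW_le_one (x : E d) : decW x ≤ 1 := inv_le_one_of_one_le₀ (by simp)

lemma measurable_decW : Measurable (decW : E d → ℝ) := (measurable_norm.const_add 1).inv

lemma inv_decW (x : E d) : (decW x)⁻¹ = 1 + ‖x‖ := inv_inv _

/-- Setwise convergence of finite measures gives convergence of integrals of bounded functions. -/
lemma tendsto_integral_of_setwise {α ι : Type*} [MeasurableSpace α] {F : Filter ι}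
    {μ : ι → Measure α} {m : Measure α} [IsFiniteMeasure m]
    (hμ : ∀ s, MeasurableSet s → Tendsto (fun i => μ i s) F (𝓝 (m s))) {ψ : α → ℝ}
    (hψ : Measurable ψ) {B : ℝ} (hB : ∀ x, |ψ x| ≤ B) :
    Tendsto (fun i => ∫ x, ψ x ∂μ i) F (𝓝 (∫ x, ψ x ∂m)) := by
  rw [Metric.tendsto_nhds]
  intro ε hε
  set M := m.real univ + 1
  have hm0 : 0 ≤ m.real univ := measureReal_nonneg
  have hM : 0 < M := by positivity
  set δ := ε / (4 * M) with hδdef
  have hδ : 0 < δ := by positivity
  have hsm : Measurable fun x => δ * (⌊ψ x / δ⌋ : ℝ) :=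
    ((measurable_of_countable (fun k : ℤ => (k : ℝ))).comp (hψ.div_const δ).floor).const_mul δ
  let s : SimpleFunc α ℝ :=
    { toFun := fun x => δ * (⌊ψ x / δ⌋ : ℝ)
      measurableSet_fiber' := fun y => hsm (measurableSet_singleton y)
      finite_range' := by
        refine ((Set.finite_Icc ⌊-B / δ⌋ ⌊B / δ⌋).image fun k : ℤ => δ * (k : ℝ)).subset ?_
        rintro _ ⟨x, rfl⟩
        have hx := abs_le.1 (hB x)
        exact ⟨_, ⟨Int.floor_mono (div_le_div_of_nonneg_right hx.1 hδ.le),
          Int.floor_mono (div_le_div_of_nonneg_right hx.2 hδ.le)⟩, rfl⟩ }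
  have hclose : ∀ x, ‖ψ x - s x‖ ≤ δ := by
    intro x
    have h1 := mul_le_mul_of_nonneg_left (Int.floor_le (ψ x / δ)) hδ.le
    have h2 := mul_le_mul_of_nonneg_left (Int.lt_floor_add_one (ψ x / δ)).le hδ.le
    rw [mul_div_cancel₀ _ hδ.ne'] at h1 h2
    change |ψ x - δ * (⌊ψ x / δ⌋ : ℝ)| ≤ δ
    rw [abs_le]
    constructor <;> nlinarith
  have key : ∀ ν : Measure α, IsFiniteMeasure ν → |∫ x, ψ x ∂ν - ∫ x, s x ∂ν| ≤ δ * ν.real univ := by
    intro ν hν
    have i1 : Integrable ψ ν :=
      Integrable.of_bound hψ.aestronglyMeasurable B (ae_of_all _ hB)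
    have i2 : Integrable s ν := SimpleFunc.integrable_of_isFiniteMeasure _
    rw [← integral_sub i1 i2, ← Real.norm_eq_abs]
    exact norm_integral_le_of_norm_le_const (ae_of_all _ hclose)
  have htoReal : ∀ t, MeasurableSet t → Tendsto (fun i => (μ i).real t) F (𝓝 (m.real t)) :=
    fun t ht => (ENNReal.tendsto_toReal (measure_ne_top m t)).comp (hμ t ht)
  have hfin : ∀ᶠ i in F, IsFiniteMeasure (μ i) :=
    ((hμ univ MeasurableSet.univ).eventually_lt_const (measure_lt_top m univ)).mono fun i hi => ⟨hi⟩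
  have hle : ∀ᶠ i in F, (μ i).real univ ≤ M :=
    ((htoReal univ MeasurableSet.univ).eventually_lt_const (by simp [M])).mono fun i hi => hi.le
  have hs : Tendsto (fun i => ∫ x, s x ∂μ i) F (𝓝 (∫ x, s x ∂m)) := by
    have h := tendsto_finsetSum s.range fun y _ =>
      (htoReal (s ⁻¹' {y}) (s.measurableSet_fiber y)).smul_const y
    rw [← SimpleFunc.integral_eq_sum s (SimpleFunc.integrable_of_isFiniteMeasure _)] at h
    refine h.congr' (hfin.mono fun i hi => ?_)
    have := hi
    exact (SimpleFunc.integral_eq_sum s (SimpleFunc.integrable_of_isFiniteMeasure _)).symm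
  filter_upwards [hfin, hle, (Metric.tendsto_nhds.1 hs) (ε / 4) (by positivity)] with i hi hiM his
  have a := key (μ i) hi
  have b := key m inferInstance
  have c : δ * (μ i).real univ ≤ ε / 4 := by
    calc δ * (μ i).real univ ≤ δ * M := mul_le_mul_of_nonneg_left hiM hδ.le
      _ = ε / 4 := by rw [hδdef]; field_simp
  have c' : δ * m.real univ ≤ ε / 4 := by
    calc δ * m.real univ ≤ δ * M := mul_le_mul_of_nonneg_left (by simp [M]) hδ.le
      _ = ε / 4 := by rw [hδdef]; field_simp
  rw [Real.dist_eq] at his ⊢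
  rw [abs_lt] at his ⊢
  rw [abs_le] at a b
  constructor <;> linarith

/-- Setwise ultrafilter limit of uniformly integrable densities, weighted by `decW`. -/
lemma exists_limit_measure {F : Ultrafilter ℕ} (hF : (F : Filter ℕ) ≤ atTop) {C : ℝ}
    {H : ℕ → E d → ℝ≥0∞} (hbd : ∀ᶠ n in atTop, ∫⁻ x, H n x ≤ ENNReal.ofReal C)
    (hui : ∀ ε : ℝ, 0 < ε → ∀ R : ℝ, ∃ δ : ℝ, 0 < δ ∧ ∀ᶠ n in atTop, ∀ s : Set (E d),
      MeasurableSet s → s ⊆ closedBall 0 R → volume s ≤ ENNReal.ofReal δ →
      ∫⁻ x in s, H n x ≤ ENNReal.ofReal ε) :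
    ∃ m : Measure (E d), IsFiniteMeasure m ∧ m ≪ volume ∧ ∀ s, MeasurableSet s →
      Tendsto (fun n => ∫⁻ x in s, ENNReal.ofReal (decW x) * H n x) F (𝓝 (m s)) := by
  set L : ℕ → Set (E d) → ℝ≥0∞ := fun n s => ∫⁻ x in s, ENNReal.ofReal (decW x) * H n x with hL
  set m : Set (E d) → ℝ≥0∞ := fun s => (F.map fun n => L n s).lim with hm
  have hlim : ∀ s, Tendsto (fun n => L n s) F (𝓝 (m s)) := fun s => Ultrafilter.le_nhds_lim _
  have hadd : ∀ s t, MeasurableSet t → Disjoint s t → m (s ∪ t) = m s + m t := fun s t ht hd =>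
    tendsto_nhds_unique (hlim (s ∪ t))
      (((hlim s).add (hlim t)).congr fun n => (lintegral_union ht hd).symm)
  have h0 : m ∅ = 0 := tendsto_nhds_unique (hlim ∅) (by simp [hL])
  have hU : ∀ ⦃f : ℕ → Set (E d)⦄, (∀ i, MeasurableSet (f i)) →
      Pairwise (Function.onFun Disjoint f) → m (⋃ i, f i) = ∑' i, m (f i) := by
    intro f hf hdisj
    set T : ℕ → Set (E d) := fun k => ⋃ i, ⋃ (_ : k ≤ i), f i with hT
    have hTm : ∀ k, MeasurableSet (T k) := fun k =>
      MeasurableSet.iUnion fun i => MeasurableSet.iUnion fun _ => hf i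
    have hstep : ∀ k, m (T k) = m (f k) + m (T (k + 1)) := by
      intro k
      have e : T k = f k ∪ T (k + 1) := by
        ext x
        simp only [hT, mem_iUnion, mem_union, exists_prop]
        constructor
        · rintro ⟨i, hi, hx⟩
          rcases hi.eq_or_lt with rfl | h
          · exact Or.inl hx
          · exact Or.inr ⟨i, h, hx⟩
        · rintro (hx | ⟨i, hi, hx⟩)
          · exact ⟨k, le_rfl, hx⟩
          · exact ⟨i, by omega, hx⟩
      rw [e]
      refine hadd _ _ (hTm (k + 1)) ?_
      simp only [hT, disjoint_iUnion_right]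
      exact fun i hi => hdisj (by omega)
    have hsplit : ∀ k, m (⋃ i, f i) = ∑ i ∈ Finset.range k, m (f i) + m (T k) := by
      intro k
      induction k with
      | zero => simp [hT]
      | succ k ih => rw [ih, hstep k, Finset.sum_range_succ, add_assoc]
    have hT0 : Tendsto (fun k => m (T k)) atTop (𝓝 0) := by
      rw [ENNReal.tendsto_nhds_zero]
      intro ε hε
      obtain ⟨η, -, hη, hηε⟩ := ENNReal.lt_iff_exists_real_btwn.1 hε
      rw [ENNReal.ofReal_pos] at hη
      set R := |C| / (η / 2) with hR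
      obtain ⟨δ, hδ, hδev⟩ := hui (η / 2) (half_pos hη) R
      have hcap : Tendsto (fun k => volume (T k ∩ closedBall 0 R)) atTop (𝓝 0) := by
        have h := tendsto_measure_iInter_atTop (μ := (volume : Measure (E d)))
          (s := fun k => T k ∩ closedBall 0 R)
          (fun k => ((hTm k).inter measurableSet_closedBall).nullMeasurableSet)
          (fun a b hab => inter_subset_inter_left _ <| by
            intro x hx
            simp only [hT, mem_iUnion] at hx ⊢
            obtain ⟨i, hi, hx⟩ := hx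
            exact ⟨i, hab.trans hi, hx⟩)
          ⟨0, measure_ne_top_of_subset inter_subset_right measure_closedBall_lt_top.ne⟩
        have he : (⋂ k, T k ∩ closedBall (0 : E d) R) = ∅ := by
          refine Set.eq_empty_of_forall_notMem fun x hx => ?_
          simp only [hT, mem_iInter, mem_inter_iff, mem_iUnion] at hx
          obtain ⟨i, -, hi⟩ := (hx 0).1
          obtain ⟨i', hi', hx'⟩ := (hx (i + 1)).1
          exact Set.disjoint_left.1 (hdisj (show i ≠ i' by omega)) hi hx'
        rwa [he, measure_empty] at h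
      filter_upwards [hcap.eventually_le_const (ENNReal.ofReal_pos.2 hδ)] with k hk
      refine le_of_tendsto (hlim (T k)) (hF ?_)
      filter_upwards [hbd, hδev] with n hn hn'
      have hR0 : 0 ≤ R := by positivity
      calc L n (T k)
          = L n (T k ∩ closedBall 0 R) + L n (T k \ closedBall 0 R) :=
            (lintegral_inter_add_sdiff _ _ measurableSet_closedBall).symm
        _ ≤ ENNReal.ofReal (η / 2) + ENNReal.ofReal (η / 2) := by
            refine add_le_add ?_ ?_
            · refine le_trans (lintegral_mono fun x => ?_)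
                (hn' _ ((hTm k).inter measurableSet_closedBall) inter_subset_right hk)
              exact mul_le_of_le_one_left' (by simpa using decW_le_one x)
            · calc L n (T k \ closedBall 0 R)
                  ≤ ∫⁻ x in T k \ closedBall 0 R, ENNReal.ofReal (1 + R)⁻¹ * H n x := by
                    refine setLIntegral_mono' ((hTm k).diff measurableSet_closedBall) fun x hx => ?_
                    have : R < ‖x‖ := by simpa using hx.2
                    gcongr
                    exact inv_anti₀ (by positivity) (by linarith)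
                _ ≤ ENNReal.ofReal (1 + R)⁻¹ * ENNReal.ofReal C := by
                    rw [lintegral_const_mul' _ _ ENNReal.ofReal_ne_top]
                    gcongr
                    exact (setLIntegral_le_lintegral _ _).trans hn
                _ ≤ ENNReal.ofReal (η / 2) := by
                    rw [← ENNReal.ofReal_mul (by positivity)]
                    refine ENNReal.ofReal_le_ofReal ?_
                    rw [inv_mul_le_iff₀ (by positivity)]
                    have : |C| = R * (η / 2) := (div_mul_cancel₀ _ (half_pos hη).ne').symm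
                    nlinarith [le_abs_self C]
        _ ≤ ε := by
            rw [← ENNReal.ofReal_add (half_pos hη).le (half_pos hη).le, add_halves]
            exact hηε.le
    have h1 := (ENNReal.tendsto_nat_tsum fun i => m (f i)).add hT0
    rw [add_zero] at h1
    exact tendsto_nhds_unique (tendsto_const_nhds.congr hsplit) h1
  refine ⟨Measure.ofMeasurable (fun s _ => m s) h0 fun f hf hd => hU hf hd, ⟨?_⟩, ?_, ?_⟩
  · rw [Measure.ofMeasurable_apply _ MeasurableSet.univ]
    refine lt_of_le_of_lt (le_of_tendsto (hlim univ) (hF ?_)) (ENNReal.ofReal_lt_top (r := C))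
    filter_upwards [hbd] with n hn
    refine le_trans (le_trans (lintegral_mono fun x => ?_) (setLIntegral_le_lintegral _ _)) hn
    exact mul_le_of_le_one_left' (by simpa using decW_le_one x)
  · refine Measure.AbsolutelyContinuous.mk fun s hs hs0 => ?_
    rw [Measure.ofMeasurable_apply _ hs]
    refine tendsto_nhds_unique (hlim s) (tendsto_const_nhds.congr fun n => ?_)
    exact (setLIntegral_measure_zero _ _ hs0).symm
  · intro s hs
    rw [Measure.ofMeasurable_apply _ hs]
    exact hlim s

/-- A weak limit of one coordinate of a uniformly integrable sequence. -/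
lemma exists_coord_limit {F : Ultrafilter ℕ} (hF : (F : Filter ℕ) ≤ atTop) {C : ℝ}
    {g : ℕ → E d → ℝ} (hg : ∀ n, Measurable (g n))
    (hbd : ∀ᶠ n in atTop, ∫⁻ x, ‖g n x‖ₑ ≤ ENNReal.ofReal C)
    (hui : ∀ ε : ℝ, 0 < ε → ∀ R : ℝ, ∃ δ : ℝ, 0 < δ ∧ ∀ᶠ n in atTop, ∀ s : Set (E d),
      MeasurableSet s → s ⊆ closedBall 0 R → volume s ≤ ENNReal.ofReal δ →
      ∫⁻ x in s, ‖g n x‖ₑ ≤ ENNReal.ofReal ε) :
    ∃ k : E d → ℝ, Measurable k ∧ ∀ (ψ : E d → ℝ) (B R : ℝ), Measurable ψ → (∀ x, |ψ x| ≤ B) →
      (∀ x, R < ‖x‖ → ψ x = 0) →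
      Integrable (fun x => k x * ψ x) ∧
        Tendsto (fun n => ∫ x, g n x * ψ x) F (𝓝 (∫ x, k x * ψ x)) := by
  have hle : ∀ n x, ENNReal.ofReal (g n x) ≤ ‖g n x‖ₑ := fun n x => by
    rw [Real.enorm_eq_ofReal_abs]; exact ENNReal.ofReal_le_ofReal (le_abs_self _)
  have hle' : ∀ n x, ENNReal.ofReal (-g n x) ≤ ‖g n x‖ₑ := fun n x => by
    rw [Real.enorm_eq_ofReal_abs]; exact ENNReal.ofReal_le_ofReal (neg_le_abs _)
  have part : ∀ H : ℕ → E d → ℝ≥0∞, (∀ n x, H n x ≤ ‖g n x‖ₑ) →
      ∃ m : Measure (E d), IsFiniteMeasure m ∧ m ≪ volume ∧ ∀ s, MeasurableSet s →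
        Tendsto (fun n => ∫⁻ x in s, ENNReal.ofReal (decW x) * H n x) F (𝓝 (m s)) := by
    intro H hH
    refine exists_limit_measure hF (C := C)
      (hbd.mono fun n hn => (lintegral_mono (hH n)).trans hn) fun ε hε R => ?_
    obtain ⟨δ, hδ, h⟩ := hui ε hε R
    exact ⟨δ, hδ, h.mono fun n hn s h1 h2 h3 => (lintegral_mono (hH n)).trans (hn s h1 h2 h3)⟩
  obtain ⟨mp, hmpf, hmpc, hmp⟩ := part (fun n x => ENNReal.ofReal (g n x)) hle
  obtain ⟨mn, hmnf, hmnc, hmn⟩ := part (fun n x => ENNReal.ofReal (-g n x)) hle'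
  have := hmpf
  have := hmnf
  set a := fun x => (mp.rnDeriv volume x).toReal with ha
  set b := fun x => (mn.rnDeriv volume x).toReal with hb
  refine ⟨fun x => (a x - b x) * (decW x)⁻¹,
    (((Measure.measurable_rnDeriv mp volume).ennreal_toReal).sub
      (Measure.measurable_rnDeriv mn volume).ennreal_toReal).mul measurable_decW.inv,
    fun ψ B R hψ hB hR => ?_⟩
  set φ := fun x => (decW x)⁻¹ * ψ x with hφdef
  have hφ : Measurable φ := measurable_decW.inv.mul hψ
  have hφB : ∀ x, |φ x| ≤ B * (1 + |R|) := by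
    intro x
    have hB0 : 0 ≤ B := (abs_nonneg _).trans (hB x)
    simp only [hφdef, abs_mul, inv_decW]
    rcases le_or_gt ‖x‖ R with h | h
    · rw [abs_of_nonneg (by positivity : (0 : ℝ) ≤ 1 + ‖x‖), mul_comm]
      exact mul_le_mul (hB x) (by linarith [le_abs_self R]) (by positivity) hB0
    · rw [hR x h, abs_zero, mul_zero]; positivity
  have hint : ∀ m : Measure (E d), IsFiniteMeasure m →
      Integrable (fun x => (m.rnDeriv volume x).toReal * φ x) := fun m hm => by
    refine (Measure.integrable_toReal_rnDeriv (μ := m) (ν := volume)).mul_bdd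
      (c := B * (1 + |R|)) hφ.aestronglyMeasurable (ae_of_all _ fun x => ?_)
    exact (Real.norm_eq_abs _).trans_le (hφB x)
  have ek : (fun x => (a x - b x) * (decW x)⁻¹ * ψ x) = fun x => a x * φ x - b x * φ x :=
    funext fun x => by simp only [hφdef]; ring
  refine ⟨ek ▸ (hint mp hmpf).sub (hint mn hmnf), ?_⟩
  rw [ek, integral_sub (hint mp hmpf) (hint mn hmnf)]
  have lim : ∀ (H : ℕ → E d → ℝ) (m : Measure (E d)), IsFiniteMeasure m → (∀ n, Measurable (H n)) →
      m ≪ volume →
      (∀ s, MeasurableSet s →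
        Tendsto (fun n => ∫⁻ x in s, ENNReal.ofReal (decW x) * ENNReal.ofReal (H n x)) F
          (𝓝 (m s))) →
      Tendsto (fun n => ∫ x, max (decW x * H n x) 0 * φ x) F
        (𝓝 (∫ x, (m.rnDeriv volume x).toReal * φ x)) := by
    intro H m hm hH hac hs
    have := hm
    have e1 : ∫ x, φ x ∂m = ∫ x, (m.rnDeriv volume x).toReal * φ x := by
      conv_lhs => rw [← Measure.withDensity_rnDeriv_eq m volume hac]
      rw [integral_withDensity_eq_integral_toReal_smul (Measure.measurable_rnDeriv _ _)
        (Measure.rnDeriv_lt_top m volume)]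
      rfl
    rw [← e1]
    refine (tendsto_integral_of_setwise
      (μ := fun n => volume.withDensity fun x => ENNReal.ofReal (decW x * H n x))
      (fun s hs' => (hs s hs').congr fun n => ?_) hφ hφB).congr fun n => ?_
    · rw [withDensity_apply _ hs']
      exact lintegral_congr fun x => (ENNReal.ofReal_mul (decW_pos x).le).symm
    · have hm' : Measurable fun x => ENNReal.ofReal (decW x * H n x) :=
        (measurable_decW.mul (hH n)).ennreal_ofReal
      rw [integral_withDensity_eq_integral_toReal_smul hm'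
        (ae_of_all _ fun x => ENNReal.ofReal_lt_top)]
      simp [ENNReal.toReal_ofReal']
  refine ((lim g mp hmpf hg hmpc hmp).sub
    (lim (fun n x => -g n x) mn hmnf (fun n => (hg n).neg) hmnc hmn)).congr' (hF ?_)
  filter_upwards [hbd] with n hn
  have hgi : Integrable (g n) := ⟨(hg n).aestronglyMeasurable, hn.trans_lt ENNReal.ofReal_lt_top⟩
  have hwi : Integrable fun x => decW x * g n x :=
    hgi.bdd_mul measurable_decW.aestronglyMeasurable
      (ae_of_all _ fun x => (Real.norm_of_nonneg (decW_pos x).le).trans_le (decW_le_one x))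
  have hwn : Integrable fun x => decW x * -g n x := by simpa only [mul_neg] using hwi.fun_neg
  have hi : ∀ f : E d → ℝ, Integrable f → Integrable fun x => max (f x) 0 * φ x := fun f hf =>
    hf.pos_part.mul_bdd hφ.aestronglyMeasurable
      (ae_of_all _ fun x => (Real.norm_eq_abs _).trans_le (hφB x))
  rw [← integral_sub (hi _ hwi) (hi _ hwn)]
  refine integral_congr_ae (ae_of_all _ fun x => ?_)
  change max (decW x * g n x) 0 * φ x - max (decW x * -g n x) 0 * φ x = g n x * ψ x
  have e : max (decW x * g n x) 0 - max (decW x * -g n x) 0 = decW x * g n x := by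
    rw [mul_neg]
    rcases le_total 0 (decW x * g n x) with h | h
    · rw [max_eq_left h, max_eq_right (by linarith)]; ring
    · rw [max_eq_right h, max_eq_left (by linarith)]; ring
  rw [← sub_mul, e, hφdef]
  have := (decW_pos x).ne'
  field_simp

end GradLimit

open GradLimit in
/-- Weak gradient of an `L¹_loc` limit, with the gradient bound only up to every `η > 0`. -/
theorem exists_weakGrad_limit {u : E d → ℝ} (hu : LocallyIntegrable u) {v : ℕ → E d → ℝ}
    (hv : ∀ n, ∃ L : ℝ≥0, LipschitzWith L (v n))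
    (hlim : ∀ R : ℝ, Tendsto (fun n => ∫⁻ x in closedBall (0 : E d) R, ‖v n x - u x‖ₑ)
      atTop (𝓝 0))
    {C : ℝ} (hC : 0 ≤ C)
    (hbd : ∀ η : ℝ, 0 < η →
      ∀ᶠ n in atTop, ∫⁻ x, ‖gradient (v n) x‖ₑ ≤ ENNReal.ofReal (C + η))
    (hui : ∀ ε : ℝ, 0 < ε → ∀ R : ℝ, ∃ δ : ℝ, 0 < δ ∧ ∀ᶠ n in atTop, ∀ s : Set (E d),
      MeasurableSet s → s ⊆ closedBall 0 R → volume s ≤ ENNReal.ofReal δ →
      ∫⁻ x in s, ‖gradient (v n) x‖ₑ ≤ ENNReal.ofReal ε) :
    ∃ h : E d → E d, Integrable h ∧ IsWeakGrad u h ∧ (∫ x, ‖h x‖) ≤ C := by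
  set G : ℕ → E d → E d := fun n => gradient (v n) with hG
  have hGm : ∀ n, Measurable (G n) := fun n =>
    (InnerProductSpace.toDual ℝ (E d)).symm.continuous.measurable.comp (measurable_fderiv ℝ (v n))
  obtain ⟨F, hF⟩ : ∃ F : Ultrafilter ℕ, (F : Filter ℕ) ≤ atTop :=
    ⟨Ultrafilter.of atTop, Ultrafilter.of_le atTop⟩
  have hcm : ∀ j, Measurable fun x : E d => x j := fun j =>
    (EuclideanSpace.proj (𝕜 := ℝ) j).continuous.measurable
  have hcoord : ∀ (j : Fin d) (x : E d), ‖x j‖ₑ ≤ ‖x‖ₑ := fun j x => by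
    rw [← ofReal_norm, ← ofReal_norm]; exact ENNReal.ofReal_le_ofReal (PiLp.norm_apply_le x j)
  have hbd1 := hbd 1 one_pos
  have hk : ∀ j : Fin d, ∃ k : E d → ℝ, Measurable k ∧ ∀ (ψ : E d → ℝ) (B R : ℝ), Measurable ψ →
      (∀ x, |ψ x| ≤ B) → (∀ x, R < ‖x‖ → ψ x = 0) →
      Integrable (fun x => k x * ψ x) ∧
        Tendsto (fun n => ∫ x, G n x j * ψ x) F (𝓝 (∫ x, k x * ψ x)) := fun j =>
    exists_coord_limit hF (fun n => (hcm j).comp (hGm n))
      (hbd1.mono fun n hn => (lintegral_mono fun x => hcoord j (G n x)).trans hn) fun ε hε R => by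
        obtain ⟨δ, hδ, h⟩ := hui ε hε R
        exact ⟨δ, hδ, h.mono fun n hn s h1 h2 h3 =>
          (lintegral_mono fun x => hcoord j (G n x)).trans (hn s h1 h2 h3)⟩
  choose k hkm hk using hk
  set h : E d → E d := fun x => WithLp.toLp 2 fun j => k j x with hh
  have hhm : Measurable h := by fun_prop
  have vec : ∀ (Ψ : E d → E d) (B R : ℝ), Measurable Ψ → (∀ x, ‖Ψ x‖ ≤ B) →
      (∀ x, R < ‖x‖ → Ψ x = 0) → Integrable (fun x => ⟪h x, Ψ x⟫) ∧
        Tendsto (fun n => ∫ x, ⟪G n x, Ψ x⟫) F (𝓝 (∫ x, ⟪h x, Ψ x⟫)) := by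
    intro Ψ B R hΨ hB hR
    have hj : ∀ j, Integrable (fun x => k j x * Ψ x j) ∧
        Tendsto (fun n => ∫ x, G n x j * Ψ x j) F (𝓝 (∫ x, k j x * Ψ x j)) := fun j =>
      hk j (fun x => Ψ x j) B R ((hcm j).comp hΨ)
        (fun x => (PiLp.norm_apply_le (Ψ x) j).trans (hB x)) fun x hx => by simp [hR x hx]
    have einner : ∀ a b : E d, ⟪a, b⟫ = ∑ j, a j * b j := fun a b => by
      simp [PiLp.inner_apply, mul_comm]
    simp only [einner]
    refine ⟨integrable_finsetSum _ fun j _ => (hj j).1, ?_⟩
    rw [integral_finsetSum _ fun j _ => (hj j).1]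
    refine (tendsto_finsetSum _ fun j _ => (hj j).2).congr' (hF ?_)
    filter_upwards [hbd1] with n hn
    have hGi : Integrable (G n) :=
      ⟨(hGm n).aestronglyMeasurable, hn.trans_lt ENNReal.ofReal_lt_top⟩
    refine (integral_finsetSum _ fun j _ => ?_).symm
    refine (((EuclideanSpace.proj (𝕜 := ℝ) j).integrable_comp hGi).mul_bdd (c := B)
      ((hcm j).comp hΨ).aestronglyMeasurable (ae_of_all _ fun x => ?_) :)
    exact (PiLp.norm_apply_le (Ψ x) j).trans (hB x)
  have hball : ∀ R : ℝ, ∫⁻ x in closedBall 0 R, ‖h x‖ₑ ≤ ENNReal.ofReal C := by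
    intro R
    set Ψ : E d → E d := (closedBall 0 R).indicator fun x => ‖h x‖⁻¹ • h x with hΨ
    have hΨ1 : ∀ x, ‖Ψ x‖ ≤ 1 := fun x => by
      by_cases hx : x ∈ closedBall (0 : E d) R
      · rw [hΨ, indicator_of_mem hx, norm_smul, norm_inv, norm_norm]
        exact inv_mul_le_one
      · simp [hΨ, hx]
    have hΨm : Measurable Ψ := (hhm.norm.inv.smul hhm).indicator measurableSet_closedBall
    obtain ⟨hi, ht⟩ := vec Ψ 1 R hΨm hΨ1 fun x hx => indicator_of_notMem (by simpa using hx) _
    have e : (fun x => ⟪h x, Ψ x⟫) = (closedBall 0 R).indicator fun x => ‖h x‖ := by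
      funext x
      by_cases hx : x ∈ closedBall (0 : E d) R
      · rw [hΨ, indicator_of_mem hx, indicator_of_mem hx, real_inner_smul_right,
          real_inner_self_eq_norm_sq, sq, ← mul_assoc]
        rcases eq_or_ne ‖h x‖ 0 with h0 | h0 <;> simp [h0]
      · simp [hΨ, hx]
    rw [e] at hi ht
    rw [integrable_indicator_iff measurableSet_closedBall] at hi
    rw [integral_indicator measurableSet_closedBall] at ht
    have hle : ∫ x in closedBall 0 R, ‖h x‖ ≤ C := by
      refine le_of_forall_pos_le_add fun η hη => le_of_tendsto ht (hF ?_)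
      filter_upwards [hbd η hη] with n hn
      have hGi : Integrable (G n) :=
        ⟨(hGm n).aestronglyMeasurable, hn.trans_lt ENNReal.ofReal_lt_top⟩
      calc ∫ x, ⟪G n x, Ψ x⟫ ≤ ‖∫ x, ⟪G n x, Ψ x⟫‖ := Real.le_norm_self _
        _ ≤ ∫ x, ‖G n x‖ := norm_integral_le_of_norm_le hGi.norm (ae_of_all _ fun x =>
            (norm_inner_le_norm _ _).trans (mul_le_of_le_one_right (norm_nonneg _) (hΨ1 x)))
        _ ≤ C + η := by
            rw [integral_norm_eq_lintegral_enorm hGi.aestronglyMeasurable]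
            exact ENNReal.toReal_le_of_le_ofReal (by linarith) hn
    rw [show ∫⁻ x in closedBall 0 R, ‖h x‖ₑ = ∫⁻ x in closedBall 0 R, ENNReal.ofReal ‖h x‖ from
        lintegral_congr fun x => (ofReal_norm _).symm,
      ← ofReal_integral_eq_lintegral_ofReal hi (ae_of_all _ fun x => norm_nonneg _)]
    exact ENNReal.ofReal_le_ofReal hle
  have hall : ∫⁻ x, ‖h x‖ₑ ≤ ENNReal.ofReal C := by
    rw [← setLIntegral_univ, ← iUnion_closedBall_nat (0 : E d),
      setLIntegral_iUnion_of_directed _ (Monotone.directed_le fun a b hab =>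
        closedBall_subset_closedBall (Nat.cast_le.2 hab))]
    exact iSup_le fun n => hball n
  have hint : Integrable h := ⟨hhm.aestronglyMeasurable, hall.trans_lt ENNReal.ofReal_lt_top⟩
  refine ⟨h, hint, fun φ hφ hφc w => ?_, ?_⟩
  · obtain ⟨B, hB⟩ := hφc.exists_bound_of_continuous hφ.continuous
    obtain ⟨R, hR⟩ := hφc.isCompact.isBounded.subset_closedBall (0 : E d)
    have hzero : ∀ x : E d, R < ‖x‖ → φ x = 0 := fun x hx => by
      by_contra hne
      have := hR (subset_tsupport φ hne)
      simp only [mem_closedBall, dist_zero_right] at this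
      linarith
    obtain ⟨-, ht⟩ := vec (fun x => φ x • w) (B * ‖w‖) R (hφ.continuous.measurable.smul_const w)
      (fun x => by rw [norm_smul]; exact mul_le_mul_of_nonneg_right (hB x) (norm_nonneg _))
      fun x hx => by simp [hzero x hx]
    set ψ : E d → ℝ := fun x => fderiv ℝ φ x w with hψ
    have hψc : Continuous ψ := (hφ.continuous_fderiv (by simp)).clm_apply continuous_const
    have hψs : HasCompactSupport ψ := hφc.fderiv_apply ℝ w
    obtain ⟨D, hD⟩ := hψs.exists_bound_of_continuous hψc
    obtain ⟨R', hR'⟩ := hψs.isCompact.isBounded.subset_closedBall (0 : E d)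
    obtain ⟨Lφ, hLφ⟩ := ContDiff.lipschitzWith_of_hasCompactSupport hφc hφ (by simp)
    have hibp : ∀ n, ∫ x, ⟪G n x, φ x • w⟫ = -∫ x, v n x * ψ x := by
      intro n
      obtain ⟨L, hL⟩ := hv n
      have e := hL.integral_lineDeriv_mul_eq (μ := volume) hLφ hφc w
      have e1 : (fun x => ⟪G n x, φ x • w⟫) =ᵐ[volume] fun x => lineDeriv ℝ (v n) x w * φ x := by
        filter_upwards [hL.ae_differentiableAt] with x hx
        rw [real_inner_smul_right, hx.lineDeriv_eq_fderiv, mul_comm]
        simp [hG, gradient, InnerProductSpace.toDual_symm_apply]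
      rw [integral_congr_ae e1, e, ← integral_neg]
      refine integral_congr_ae (ae_of_all _ fun x => ?_)
      change lineDeriv ℝ φ x (-w) * v n x = -(v n x * ψ x)
      rw [((hφ.differentiable (by simp)) x).lineDeriv_eq_fderiv, map_neg, hψ]
      ring
    have hconv : Tendsto (fun n => ∫ x, v n x * ψ x) atTop (𝓝 (∫ x, u x * ψ x)) := by
      have huψ : Integrable fun x => u x * ψ x := by
        simpa [smul_eq_mul] using hu.integrable_smul_right_of_hasCompactSupport hψc hψs
      have hvψ : ∀ n, Integrable fun x => v n x * ψ x := fun n => by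
        obtain ⟨L, hL⟩ := hv n
        exact (hL.continuous.mul hψc).integrable_of_hasCompactSupport hψs.mul_left
      refine tendsto_integral_of_L1 _ huψ.aestronglyMeasurable (Eventually.of_forall hvψ) ?_
      have hup : Tendsto (fun n => ENNReal.ofReal D *
          ∫⁻ x in closedBall (0 : E d) R', ‖v n x - u x‖ₑ) atTop (𝓝 0) := by
        simpa using ENNReal.Tendsto.const_mul (hlim R') (Or.inr ENNReal.ofReal_ne_top)
      refine tendsto_of_tendsto_of_tendsto_of_le_of_le tendsto_const_nhds hup
        (fun n => zero_le) fun n => ?_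
      change ∫⁻ x, ‖v n x * ψ x - u x * ψ x‖ₑ ≤ _
      rw [← lintegral_const_mul' _ _ ENNReal.ofReal_ne_top,
        ← lintegral_indicator measurableSet_closedBall]
      refine lintegral_mono fun x => ?_
      by_cases hx : x ∈ closedBall (0 : E d) R'
      · rw [indicator_of_mem hx, ← sub_mul, enorm_mul, mul_comm, ← ofReal_norm (ψ x)]
        exact mul_le_mul_left (ENNReal.ofReal_le_ofReal (hD x)) _
      · have : ψ x = 0 := image_eq_zero_of_notMem_tsupport fun hm => hx (hR' hm)
        simp [this]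
    have hfin := tendsto_nhds_unique ht
      (((hconv.mono_left hF).neg).congr fun n => (hibp n).symm)
    simp only [real_inner_smul_right] at hfin
    rw [show (fun x => ⟪h x, w⟫ * φ x) = fun x => φ x * ⟪h x, w⟫ from funext fun x => mul_comm _ _,
      hfin, neg_neg]
  · rw [integral_norm_eq_lintegral_enorm hhm.aestronglyMeasurable]
    exact ENNReal.toReal_le_of_le_ofReal hC hall

end

end Vale.Agent.P137
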