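import Vale.Agent.P137.Assembly
import Vale.Agent.P137.Approx
import Vale.Agent.P137.MaxL1
import Vale.Agent.P137.GradLimit

/-!
The endpoint bound for the uncentred maximal function.
-/

namespace Vale.Agent.P137

open MeasureTheory Metric Set Filter Topology
open scoped ENNReal NNReal ContDiff RealInnerProductSpace

noncomputable section

variable {d : ℕ}

theorem uncentred_endpoint (hd : 2 ≤ d) : ∃ C : ℝ, 0 ≤ C ∧
    ∀ (f : E d → ℝ) (g : E d → E d), Integrable f → Integrable g → IsWeakGrad f g →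
      (∀ᵐ x, Mtilde f x < ⊤) ∧
        LocallyIntegrable (fun x => (Mtilde f x).toReal) ∧
        ∃ h : E d → E d, Integrable h ∧ IsWeakGrad (fun x => (Mtilde f x).toReal) h ∧
          (∫ x, ‖h x‖) ≤ C * ∫ x, ‖g x‖ := by
  have hd0 : 0 < d := by omega
  obtain ⟨K, hK, hmain⟩ := exists_main_estimate hd
  refine ⟨K, hK, fun f g hf hg hfg => ?_⟩
  obtain ⟨ψ, G, h, hψ, hψ0, hh, hhg, h1, h2⟩ := exists_approx hd0 hf hg hfg
  obtain ⟨hfin, hloc, hlim⟩ := exists_tendsto_local hd hf hψ hψ0 hh h1 h2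
  refine ⟨hfin, hloc, ?_⟩
  have hv : ∀ n, (fun x => (Mtilde (ψ n) x).toReal) = umax (ψ n) := fun n => funext fun x => by
    rw [Mtilde_eq_umax hd0 (hψ n) (hψ0 n),
      ENNReal.toReal_ofReal ((hψ0 n x).trans (le_umax (hψ n) x))]
  have hG : ∀ n, Integrable (G n) := fun n =>
    (hψ n).cont.integrable_of_hasCompactSupport (hψ n).suppGrad
  have hGh : ∀ n, |(∫ z, ‖G n z‖) - ∫ z, ‖h z‖| ≤ ∫ z, ‖G n z - h z‖ := fun n => by
    rw [← integral_sub (hG n).norm hh.norm]
    refine abs_integral_le_integral_abs.trans (integral_mono ((hG n).norm.sub hh.norm).abs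
      ((hG n).sub hh).norm fun z => abs_norm_sub_norm_le _ _)
  refine exists_weakGrad_limit hloc
    (v := fun n => umax (ψ n)) (fun n => exists_lipschitz_umax (hψ n))
    (fun R => by simpa only [← hv] using hlim R)
    (C := K * ∫ x, ‖g x‖) (mul_nonneg hK (integral_nonneg fun _ => norm_nonneg _))
    (fun η hη => ?_) (fun ε hε R => ?_)
  · filter_upwards [h2.eventually (eventually_le_nhds (div_pos hη (show 0 < K + 1 by linarith)))]
      with n hn
    refine (hmain _ _ (hψ n) (hψ0 n)).1.trans (ENNReal.ofReal_le_ofReal ?_)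
    have hb := (abs_le.1 (hGh n)).2
    have h3 : (∫ z, ‖G n z - h z‖) * (K + 1) ≤ η := by rwa [← le_div_iff₀ (by linarith)]
    have h4 : K * (∫ z, ‖G n z‖) ≤ K * ((∫ x, ‖g x‖) + ∫ z, ‖G n z - h z‖) :=
      mul_le_mul_of_nonneg_left (by linarith) hK
    have h5 : 0 ≤ ∫ z, ‖G n z - h z‖ := integral_nonneg fun _ => norm_nonneg _
    nlinarith
  · -- uniform integrability
    set ε₁ := ε / (4 * (K + 1)) with hε₁
    have he1 : 0 < ε₁ := by positivity
    have he1' : ε₁ * (K + 1) = ε / 4 := by rw [hε₁]; field_simp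
    obtain ⟨k, hk⟩ : ∃ k : ℤ, (∫ z, ‖h z‖) - Nc h ((2 : ℝ) ^ (k + 9)) < ε₁ := by
      have hev := (tendsto_Nc hh).eventually (Metric.ball_mem_nhds _ he1)
      obtain ⟨t, ht, ht'⟩ := (mem_nhdsGT_iff_exists_Ioo_subset (a := (0 : ℝ))).1 hev
      obtain ⟨m, hm1, hm2⟩ := exists_mem_Ico_zpow (show 0 < t from ht) one_lt_two
      refine ⟨m - 1 - 9, ?_⟩
      have hmem : (2 : ℝ) ^ (m - 1 - 9 + 9) ∈ Ioo 0 t := by
        rw [sub_add_cancel]
        exact ⟨by positivity, lt_of_lt_of_le (zpow_lt_zpow_right₀ one_lt_two (by omega)) hm1⟩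
      have h6 : |Nc h ((2 : ℝ) ^ (m - 1 - 9 + 9)) - ∫ z, ‖h z‖| < ε₁ := ht' hmem
      linarith [(abs_lt.1 h6).1]
    obtain ⟨δ₁, hδ₁, hac⟩ := exists_pos_setLIntegral_lt_of_measure_lt
      (μ := (volume : Measure (E d))) (f := fun x => ‖h x‖ₑ) hh.2.ne
      (ε := ENNReal.ofReal (ε / 4)) (by simp; linarith)
    set B := K * ((∫ z, |f z|) + 1) / ((2 : ℝ) ^ k) ^ (d + 1) with hB
    have hB0 : 0 ≤ B := by
      rw [hB]
      have : 0 ≤ ∫ z, |f z| := integral_nonneg fun _ => abs_nonneg _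
      positivity
    obtain ⟨δ₀, hδ₀, hδ₀'⟩ := ENNReal.lt_iff_exists_real_btwn.1 hδ₁
    have hδ₀pos : 0 < δ₀ := ENNReal.ofReal_pos.1 hδ₀'.1
    refine ⟨min δ₀ (ε / (4 * (B + 1))), lt_min hδ₀pos (by positivity), ?_⟩
    filter_upwards [h1.eventually (eventually_le_nhds one_pos),
      h2.eventually (eventually_le_nhds (show 0 < ε₁ / 4 by linarith))] with n hn1 hn2
    intro s hs _ hvol
    have ha : ∫⁻ x in s, ‖G n x‖ₑ ≤ ENNReal.ofReal (ε / 4) + ENNReal.ofReal (ε₁ / 4) := by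
      calc ∫⁻ x in s, ‖G n x‖ₑ ≤ ∫⁻ x in s, (‖h x‖ₑ + ‖G n x - h x‖ₑ) :=
            lintegral_mono fun x => (le_of_eq (by rw [add_sub_cancel])).trans (enorm_add_le _ _)
        _ = (∫⁻ x in s, ‖h x‖ₑ) + ∫⁻ x in s, ‖G n x - h x‖ₑ :=
            lintegral_add_left' hh.1.enorm.restrict _
        _ ≤ _ := by
          refine add_le_add (hac s ?_).le ?_
          · exact lt_of_le_of_lt (hvol.trans (ENNReal.ofReal_le_ofReal (min_le_left _ _))) hδ₀'.2
          · refine (setLIntegral_le_lintegral _ _).trans ?_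
            exact (ofReal_integral_norm_eq_lintegral_enorm ((hG n).sub hh)).symm.le.trans
              (ENNReal.ofReal_le_ofReal hn2)
    have hb : K * ((∫ z, ‖G n z‖) - Nc (G n) ((2 : ℝ) ^ (k + 9))) ≤ ε / 4 + ε / 8 := by
      have e1 := (abs_le.1 (hGh n)).2
      have e2 := (abs_le.1 (abs_Nc_sub_le (hG n) hh (show (0 : ℝ) < 2 ^ (k + 9) by positivity))).1
      have e3 : (∫ z, ‖G n z‖) - Nc (G n) ((2 : ℝ) ^ (k + 9)) ≤ ε₁ * (3 / 2) := by linarith
      have e4 := mul_le_mul_of_nonneg_left e3 hK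
      nlinarith
    have hc : volume s * ENNReal.ofReal (K * (∫ z, ψ n z) / ((2 : ℝ) ^ k) ^ (d + 1)) ≤
        ENNReal.ofReal (ε / 4) := by
      have e0 : (∫ z, ψ n z) ≤ (∫ z, |f z|) + 1 := by
        have hint : Integrable (ψ n) := (hψ n).integrable
        have : (∫ z, (ψ n z - |f z|)) ≤ ∫ z, |(ψ n z - |f z|)| :=
          integral_mono (hint.sub hf.abs) (hint.sub hf.abs).abs fun z => le_abs_self _
        rw [integral_sub hint hf.abs] at this
        linarith
      calc volume s * ENNReal.ofReal (K * (∫ z, ψ n z) / ((2 : ℝ) ^ k) ^ (d + 1))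
          ≤ ENNReal.ofReal (ε / (4 * (B + 1))) * ENNReal.ofReal B := by
            refine mul_le_mul' (hvol.trans (ENNReal.ofReal_le_ofReal (min_le_right _ _)))
              (ENNReal.ofReal_le_ofReal ?_)
            rw [hB]
            gcongr
        _ ≤ _ := by
            rw [← ENNReal.ofReal_mul (by positivity)]
            refine ENNReal.ofReal_le_ofReal ?_
            rw [div_mul_eq_mul_div, div_le_iff₀ (by positivity)]
            nlinarith
    refine ((hmain _ _ (hψ n) (hψ0 n)).2 k s hs).trans ?_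
    refine (add_le_add (add_le_add ha (ENNReal.ofReal_le_ofReal hb)) hc).trans ?_
    have he2 : ε₁ ≤ ε / 4 := by nlinarith
    rw [← ENNReal.ofReal_add (by linarith) (by linarith),
      ← ENNReal.ofReal_add (by linarith) (by linarith),
      ← ENNReal.ofReal_add (by linarith) (by linarith)]
    exact ENNReal.ofReal_le_ofReal (by linarith)

end

end Vale.Agent.P137
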