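import Vale.Agent.P137.Cubes

/-!
A lower bound for the flux of a gradient field through a ball.

The values of the field on the deep cubes of the dyadic tree below the root are compared level by
level; the loss at each cube is at most its weight times its cancellation deficit.
-/

namespace Vale.Agent.P137

open MeasureTheory Metric Set Filter Topology
open scoped ENNReal NNReal ContDiff RealInnerProductSpace

noncomputable section

variable {d : ℕ}

namespace Tree

/-- Defect of a vector against the unit direction. -/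
def qd (e w : E d) : ℝ := ‖w‖ - ⟪e, w⟫

/-- The part of a vector orthogonal to the unit direction. -/
def perp (e v : E d) : E d := v - ⟪e, v⟫ • e

lemma qd_nonneg {e : E d} (he : ‖e‖ = 1) (w : E d) : 0 ≤ qd e w := by
  have h := real_inner_le_norm e w
  rw [he, one_mul] at h
  exact sub_nonneg.2 h

lemma perp_sub (e v w : E d) : perp e (v - w) = perp e v - perp e w := by
  simp only [perp, inner_sub_right, sub_smul]
  abel

lemma inner_self_one {e : E d} (he : ‖e‖ = 1) : ⟪e, e⟫ = 1 := by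
  rw [real_inner_self_eq_norm_sq, he, one_pow]

lemma perp_smul_self {e : E d} (he : ‖e‖ = 1) (t : ℝ) : perp e (t • e) = 0 := by
  simp [perp, real_inner_smul_right, he]

lemma inner_perp {e : E d} (he : ‖e‖ = 1) (v : E d) : ⟪e, perp e v⟫ = 0 := by
  simp [perp, inner_sub_right, real_inner_smul_right, he]

lemma norm_perp_sq {e : E d} (he : ‖e‖ = 1) (v : E d) :
    ‖perp e v‖ ^ 2 = ‖v‖ ^ 2 - ⟪e, v⟫ ^ 2 := by
  rw [perp, norm_sub_sq_real, real_inner_smul_right, real_inner_comm e v, norm_smul, he, mul_one,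
    Real.norm_eq_abs, sq_abs]
  ring

lemma norm_perp_le {e : E d} (he : ‖e‖ = 1) (v : E d) : ‖perp e v‖ ≤ ‖v‖ := by
  nlinarith [norm_perp_sq he v, sq_nonneg ⟪e, v⟫, norm_nonneg (perp e v), norm_nonneg v]

lemma inner_split {e : E d} (he : ‖e‖ = 1) (w v : E d) :
    ⟪w, v⟫ = ⟪e, w⟫ * ⟪e, v⟫ + ⟪perp e w, perp e v⟫ := by
  simp only [perp, inner_sub_left, inner_sub_right, real_inner_smul_left, real_inner_smul_right,
    inner_self_one he, real_inner_comm w e]
  ring

/-- The cone inequality. -/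
lemma cone {e : E d} (he : ‖e‖ = 1) (w v : E d) {C : ℝ} (hC : 0 ≤ C) (hv : 0 ≤ ⟪e, v⟫)
    (hperp : ‖perp e v‖ ^ 2 ≤ C * ⟪e, v⟫) :
    -((C + 2 * ‖v‖) * qd e w) ≤ ⟪w, v⟫ := by
  have hq := qd_nonneg he w
  have hCq : 0 ≤ C * qd e w := mul_nonneg hC hq
  have hvq : 0 ≤ ‖v‖ * qd e w := mul_nonneg (norm_nonneg v) hq
  rcases le_or_gt ‖w‖ (2 * ⟪e, w⟫) with h | h
  · have hwe : 0 ≤ ⟪e, w⟫ := by linarith [norm_nonneg w]
    have h1 : ‖perp e w‖ ^ 2 ≤ 4 * ⟪e, w⟫ * qd e w := by
      rw [norm_perp_sq he, qd] at *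
      nlinarith [mul_nonneg (sub_nonneg.2 h) hq]
    have h2 : (‖perp e w‖ * ‖perp e v‖) ^ 2 ≤ (⟪e, w⟫ * ⟪e, v⟫ + C * qd e w) ^ 2 := by
      rw [mul_pow]
      calc ‖perp e w‖ ^ 2 * ‖perp e v‖ ^ 2
          ≤ (4 * ⟪e, w⟫ * qd e w) * (C * ⟪e, v⟫) :=
            mul_le_mul h1 hperp (sq_nonneg _) (by positivity)
        _ ≤ _ := by nlinarith [sq_nonneg (⟪e, w⟫ * ⟪e, v⟫ - C * qd e w)]
    have h3 : ‖perp e w‖ * ‖perp e v‖ ≤ ⟪e, w⟫ * ⟪e, v⟫ + C * qd e w :=
      (sq_le_sq₀ (by positivity) (by positivity)).1 h2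
    have h4 := (abs_le.1 (abs_real_inner_le_norm (perp e w) (perp e v))).1
    rw [inner_split he w v]
    linarith
  · have h1 : ‖w‖ ≤ 2 * qd e w := by unfold qd; linarith
    have h2 := (abs_le.1 (abs_real_inner_le_norm w v)).1
    have h3 : ‖w‖ * ‖v‖ ≤ 2 * qd e w * ‖v‖ := mul_le_mul_of_nonneg_right h1 (norm_nonneg v)
    linarith

/-! ### Geometry of the cubes -/

lemma side_pos (i : ℕ) : 0 < side i := by unfold side S0; positivity

lemma side_succ (i : ℕ) : side (i + 1) = side i / 2 := by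
  rw [side, side, pow_succ, div_div]

lemma side_zero : side 0 = 256 := by simp [side, S0]

lemma side_eq (i : ℕ) : side i = 256 * ((2 : ℝ) ^ i)⁻¹ := by
  simp [side, S0, div_eq_mul_inv]

lemma side_le (i : ℕ) : side i ≤ 256 := by
  rw [side_eq]
  exact mul_le_of_le_one_right (by norm_num) (inv_le_one_of_one_le₀ (one_le_pow₀ (by norm_num)))

lemma mid_apply (ξ : E d) (s : ℝ) (k : Fin d) : mid ξ s k = ξ k + s / 2 := by
  simp [mid, diag]

lemma gridPt_apply {m : ℕ} (ξ : E d) (ℓ : ℝ) (b : Fin d → Fin m) (k : Fin d) :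
    gridPt ξ ℓ b k = ξ k + ℓ * (b k : ℕ) := by
  simp [gridPt]

lemma norm_le_of_coord {v : E d} {t : ℝ} (h : ∀ k, |v k| ≤ t) (ht : 0 ≤ t) :
    ‖v‖ ≤ Real.sqrt d * t := by
  rw [EuclideanSpace.norm_eq]
  calc Real.sqrt (∑ k, ‖v k‖ ^ 2) ≤ Real.sqrt (∑ _k : Fin d, t ^ 2) := by
        refine Real.sqrt_le_sqrt (Finset.sum_le_sum fun k _ => ?_)
        rw [Real.norm_eq_abs]
        exact pow_le_pow_left₀ (abs_nonneg _) (h k) 2
    _ = Real.sqrt d * t := by
        rw [Finset.sum_const, Finset.card_univ, Fintype.card_fin, nsmul_eq_mul,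
          Real.sqrt_mul (Nat.cast_nonneg d), Real.sqrt_sq ht]

lemma dist_mid_child {ξ : E d} {s : ℝ} (hs : 0 ≤ s) (e : Fin d → Fin 2) :
    dist (mid (gridPt ξ (s / 2) e) (s / 2)) (mid ξ s) ≤ Real.sqrt d * s := by
  rw [dist_eq_norm]
  refine norm_le_of_coord (fun k => ?_) hs
  rw [PiLp.sub_apply, mid_apply, mid_apply, gridPt_apply, abs_le]
  have h1 : ((e k : ℕ) : ℝ) ≤ 1 := by exact_mod_cast Nat.lt_succ_iff.1 (e k).isLt
  have h0 : (0 : ℝ) ≤ ((e k : ℕ) : ℝ) := Nat.cast_nonneg _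
  constructor <;> nlinarith

lemma dist_mid_box {ξ z : E d} {s : ℝ} (hs : 0 ≤ s) (hz : z ∈ box ξ s) :
    dist z (mid ξ s) ≤ Real.sqrt d * s := by
  rw [dist_eq_norm]
  refine norm_le_of_coord (fun k => ?_) hs
  rw [PiLp.sub_apply, mid_apply, abs_le]
  have := hz k
  constructor <;> linarith [this.1, this.2]

lemma box_eq_iInter (ξ : E d) (s : ℝ) :
    box ξ s = ⋂ k, (fun z : E d => z k) ⁻¹' Ico (ξ k) (ξ k + s) := by
  ext z; simp [box]

lemma measurableSet_box (ξ : E d) (s : ℝ) : MeasurableSet (box ξ s) := by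
  rw [box_eq_iInter]
  exact MeasurableSet.iInter fun k => (PiLp.continuous_apply 2 _ k).measurable measurableSet_Ico

lemma box_eq_iUnion (ξ : E d) {s : ℝ} (hs : 0 < s) :
    box ξ s = ⋃ e : Fin d → Fin 2, box (gridPt ξ (s / 2) e) (s / 2) := by
  ext z
  simp only [mem_iUnion, box, mem_ofPred_eq, gridPt_apply]
  constructor
  · intro hz
    refine ⟨fun k => if z k < ξ k + s / 2 then 0 else 1, fun k => ?_⟩
    have := hz k
    by_cases h : z k < ξ k + s / 2
    · simp only [h, if_true, Fin.val_zero, Nat.cast_zero]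
      constructor <;> linarith [this.1, this.2]
    · simp only [h, if_false, Fin.val_one, Nat.cast_one]
      constructor <;> linarith [this.1, this.2]
  · rintro ⟨e, he⟩ k
    have h1 : ((e k : ℕ) : ℝ) ≤ 1 := by exact_mod_cast Nat.lt_succ_iff.1 (e k).isLt
    have h0 : (0 : ℝ) ≤ ((e k : ℕ) : ℝ) := Nat.cast_nonneg _
    constructor <;> nlinarith [(he k).1, (he k).2]

lemma box_disjoint {m : ℕ} (ξ : E d) {s : ℝ} (hs : 0 < s) {b b' : Fin d → Fin m} (h : b ≠ b') :
    Disjoint (box (gridPt ξ s b) s) (box (gridPt ξ s b') s) := by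
  rw [Set.disjoint_left]
  intro z hz hz'
  refine h (funext fun k => ?_)
  have a := hz k
  have a' := hz' k
  rw [gridPt_apply] at a a'
  have e1 : ((b k : ℕ) : ℝ) < ((b' k : ℕ) : ℝ) + 1 := by
    by_contra hc
    nlinarith [mul_le_mul_of_nonneg_left (not_lt.1 hc) hs.le, a.1, a'.2]
  have e2 : ((b' k : ℕ) : ℝ) < ((b k : ℕ) : ℝ) + 1 := by
    by_contra hc
    nlinarith [mul_le_mul_of_nonneg_left (not_lt.1 hc) hs.le, a'.1, a.2]
  have f1 : (b k : ℕ) < (b' k : ℕ) + 1 := by exact_mod_cast e1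
  have f2 : (b' k : ℕ) < (b k : ℕ) + 1 := by exact_mod_cast e2
  exact Fin.ext (by omega)

lemma setIntegral_split {F : Type*} [NormedAddCommGroup F] [NormedSpace ℝ F] {u : E d → F}
    (hu : Integrable u) (ξ : E d) {s : ℝ} (hs : 0 < s) :
    ∫ z in box ξ s, u z = ∑ e : Fin d → Fin 2, ∫ z in box (gridPt ξ (s / 2) e) (s / 2), u z := by
  rw [box_eq_iUnion ξ hs]
  refine integral_iUnion_fintype (fun e => measurableSet_box _ _) ?_ (fun e => hu.integrableOn)
  intro e e' h
  exact box_disjoint ξ (by linarith) h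

/-- A cube of level `i + 1` is a child of a cube of level `i`. -/
def refineEquiv (d i : ℕ) :
    (Fin d → Fin (2 ^ i)) × (Fin d → Fin 2) ≃ (Fin d → Fin (2 ^ (i + 1))) :=
  (Equiv.arrowProdEquivProdArrow _ _ _).symm.trans
    (Equiv.arrowCongr (Equiv.refl _) (finProdFinEquiv.trans (finCongr (pow_succ 2 i).symm)))

lemma refineEquiv_val (i : ℕ) (b : Fin d → Fin (2 ^ i)) (e : Fin d → Fin 2) (k : Fin d) :
    ((refineEquiv d i (b, e) k : Fin (2 ^ (i + 1))) : ℕ) = (e k : ℕ) + 2 * (b k : ℕ) := by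
  simp [refineEquiv, Equiv.arrowProdEquivProdArrow]

lemma gridPt_refine (ξ : E d) (i : ℕ) (b : Fin d → Fin (2 ^ i)) (e : Fin d → Fin 2) :
    gridPt ξ (side (i + 1)) (refineEquiv d i (b, e)) =
      gridPt (gridPt ξ (side i) b) (side i / 2) e := by
  ext k
  rw [gridPt_apply, gridPt_apply, gridPt_apply, refineEquiv_val, side_succ]
  push_cast
  ring

lemma sum_refine {M : Type*} [AddCommMonoid M] (ξ : E d) (i : ℕ) (h : E d → M) :
    ∑ b : Fin d → Fin (2 ^ (i + 1)), h (gridPt ξ (side (i + 1)) b) =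
      ∑ b : Fin d → Fin (2 ^ i), ∑ e : Fin d → Fin 2,
        h (gridPt (gridPt ξ (side i) b) (side i / 2) e) := by
  rw [← Fintype.sum_prod_type']
  exact (Fintype.sum_equiv (refineEquiv d i) _ _ fun p => by rw [← gridPt_refine]).symm

lemma gridPt_root (ξ : E d) (ℓ : ℝ) (b : Fin d → Fin (2 ^ 0)) : gridPt ξ ℓ b = ξ := by
  ext k
  have : (b k : ℕ) = 0 := by
    have := (b k).isLt
    simp only [pow_zero] at this
    omega
  rw [gridPt_apply, this]
  simp

lemma setIntegral_levels {F : Type*} [NormedAddCommGroup F] [NormedSpace ℝ F] {u : E d → F}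
    (hu : Integrable u) (ξ : E d) : ∀ i : ℕ, ∫ z in box ξ S0, u z =
      ∑ b : Fin d → Fin (2 ^ i), ∫ z in box (gridPt ξ (side i) b) (side i), u z := by
  intro i
  induction i with
  | zero => simp [gridPt_root, side]
  | succ i ih =>
    rw [ih, sum_refine ξ i (fun η => ∫ z in box η (side (i + 1)), u z), side_succ]
    exact Finset.sum_congr rfl fun b _ => setIntegral_split hu _ (side_pos i)

/-! ### The field on the deep cubes and the weights -/

/-- The constants and data of one application. -/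
structure Data (d : ℕ) where
  /-- centre of the ball -/
  c : E d
  /-- direction -/
  e : E d
  /-- radius -/
  ρ : ℝ
  /-- field -/
  F : E d → E d
  /-- slope of the correction -/
  a : ℝ
  /-- depth -/
  A0 : ℝ
  /-- Lipschitz bound -/
  L : ℝ
  /-- uniform bound -/
  M : ℝ
  /-- cone constant -/
  C : ℝ
  he : ‖e‖ = 1
  hL : 0 ≤ L
  hM : 0 ≤ M
  hC : 0 ≤ C
  hLip : ∀ x y, ‖F x - F y‖ ≤ L * dist x y
  hMb : ∀ z ∈ closedBall c ρ, ‖F z‖ ≤ M
  hperp : ∀ z ∈ closedBall c ρ, ‖perp e (F z)‖ ^ 2 ≤ C * ⟪e, F z⟫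
  ha : 4 * L * Real.sqrt d + 1 ≤ a
  hA0 : 2 * Real.sqrt d + 1 ≤ A0
  hdeep : ∀ z ∈ closedBall c ρ, ∀ t : ℝ, 0 ≤ t → A0 * t ≤ ρ - dist z c → 2 * a * t ≤ ⟪e, F z⟫

namespace Data

variable (D : Data d)

/-- The cube lies deep in the ball. -/
def deep (η : E d) (s : ℝ) : Prop := dist (mid η s) D.c + D.A0 * s ≤ D.ρ

open Classical in
/-- The value of the field used on a cube. -/
def V (η : E d) (s : ℝ) : E d := if D.deep η s then D.F (mid η s) - (D.a * s) • D.e else 0

/-- The width of the band. -/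
def Aw : ℝ := D.A0 + 2 * Real.sqrt d

/-- The cube lies in the band of the sphere. -/
def band (η : E d) (s : ℝ) : Prop :=
  ¬ D.deep η s ∧ |dist (mid η s) D.c - D.ρ| ≤ D.Aw * s

/-- The rate of the weight. -/
def κ : ℝ := D.a / 4 + 2 * (D.L * Real.sqrt d + D.a)

/-- The weight of a band cube. -/
def Ke : ℝ := 2 * D.C + 2 * (D.M + 256 * D.a)

open Classical in
/-- The weight of a cube. -/
def Kw (η : E d) (s : ℝ) : ℝ := 2 * D.κ * s + if D.band η s then D.Ke else 0

lemma a_pos : 0 < D.a := by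
  have := D.ha
  have h : 0 ≤ 4 * D.L * Real.sqrt d := by have := D.hL; positivity
  linarith

lemma A0_one : 1 ≤ D.A0 := by linarith [D.hA0, Real.sqrt_nonneg (d : ℝ)]

lemma κ_nonneg : 0 ≤ D.κ := by
  have := D.a_pos; have := D.hL; unfold κ; positivity

lemma Ke_nonneg : 0 ≤ D.Ke := by
  have := D.a_pos; have := D.hC; have := D.hM; unfold Ke; positivity

lemma Aw_nonneg : 0 ≤ D.Aw := by
  have := D.A0_one; have := Real.sqrt_nonneg (d : ℝ); unfold Aw; linarith

lemma Kw_nonneg (η : E d) {s : ℝ} (hs : 0 ≤ s) : 0 ≤ D.Kw η s := by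
  unfold Kw
  have := D.κ_nonneg
  have := D.Ke_nonneg
  split_ifs <;> positivity

/-- Distances of the mid points of a cube and of a child. -/
lemma dist_child (η : E d) {s : ℝ} (hs : 0 ≤ s) (b : Fin d → Fin 2) :
    |dist (mid (gridPt η (s / 2) b) (s / 2)) D.c - dist (mid η s) D.c| ≤ Real.sqrt d * s :=
  (abs_dist_sub_le _ _ _).trans (dist_mid_child hs b)

lemma deep_child (η : E d) {s : ℝ} (hs : 0 ≤ s) (b : Fin d → Fin 2) (h : D.deep η s) :
    D.deep (gridPt η (s / 2) b) (s / 2) := by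
  unfold deep at h ⊢
  have h1 := (abs_le.1 (D.dist_child η hs b)).2
  have h2 := mul_le_mul_of_nonneg_right D.hA0 hs
  linarith

lemma band_parent (η : E d) {s : ℝ} (hs : 0 ≤ s) (b : Fin d → Fin 2)
    (h : D.band (gridPt η (s / 2) b) (s / 2)) : D.band η s := by
  refine ⟨fun hp => h.1 (D.deep_child η hs b hp), ?_⟩
  have h1 := abs_le.1 (D.dist_child η hs b)
  have h2 := abs_le.1 h.2
  have h3 := mul_nonneg (zero_le_one.trans D.A0_one) hs
  unfold Aw at h2 ⊢
  rw [abs_le]
  constructor <;> linarith [h1.1, h1.2, h2.1, h2.2]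

lemma Kw_child (η : E d) {s : ℝ} (hs : 0 ≤ s) (b : Fin d → Fin 2) :
    D.Kw (gridPt η (s / 2) b) (s / 2) + D.κ * s ≤ D.Kw η s := by
  unfold Kw
  by_cases h : D.band (gridPt η (s / 2) b) (s / 2)
  · rw [if_pos h, if_pos (D.band_parent η hs b h)]
    linarith
  · rw [if_neg h]
    split_ifs <;> linarith [D.Ke_nonneg]

lemma step_deep (η : E d) {s : ℝ} (hs : 0 ≤ s) (b : Fin d → Fin 2) (w : E d) (hp : D.deep η s) :
    ⟪w, D.V η s⟫ - D.Kw η s * qd D.e w ≤
      ⟪w, D.V (gridPt η (s / 2) b) (s / 2)⟫ - D.Kw (gridPt η (s / 2) b) (s / 2) * qd D.e w := by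
  have he := D.he
  have hsd := Real.sqrt_nonneg (d : ℝ)
  have hq := qd_nonneg he w
  have hK := D.Kw_child η hs b
  unfold V
  rw [if_pos hp, if_pos (D.deep_child η hs b hp)]
  set zc := mid (gridPt η (s / 2) b) (s / 2)
  set zp := mid η s
  set a := D.a with haD
  set v := D.F zc - D.F zp with hv
  set Δ := v + (a * s / 2) • D.e with hΔdef
  have hΔ : D.F zc - (a * (s / 2)) • D.e = (D.F zp - (a * s) • D.e) + Δ := by
    rw [hΔdef, hv]
    module
  have hdiff : ‖v‖ ≤ D.L * Real.sqrt d * s := by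
    refine (D.hLip zc zp).trans ?_
    rw [mul_assoc]
    exact mul_le_mul_of_nonneg_left (dist_mid_child hs b) D.hL
  have h4 : D.L * Real.sqrt d * s ≤ a * s / 4 := by
    have := mul_le_mul_of_nonneg_right D.ha hs
    linarith
  have hie : |⟪D.e, v⟫| ≤ ‖v‖ := by
    have := abs_real_inner_le_norm D.e v
    rwa [he, one_mul] at this
  have hinner : ⟪D.e, Δ⟫ = ⟪D.e, v⟫ + a * s / 2 := by
    rw [hΔdef, inner_add_right, real_inner_smul_right, inner_self_one he, mul_one]
  have he1 : a * s / 4 ≤ ⟪D.e, Δ⟫ := by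
    rw [hinner]; linarith [(abs_le.1 hie).1]
  have ha0 := D.a_pos
  have has : 0 ≤ a * s / 4 := by positivity
  have hperp' : ‖perp D.e Δ‖ ^ 2 ≤ (a * s / 4) * ⟪D.e, Δ⟫ := by
    have h5 : perp D.e Δ = perp D.e v := by
      have h6 := perp_sub D.e Δ ((a * s / 2) • D.e)
      rw [perp_smul_self he, sub_zero] at h6
      rw [← h6, hΔdef, add_sub_cancel_right]
    rw [h5, sq]
    have h7 := (norm_perp_le he v).trans (hdiff.trans h4)
    exact mul_le_mul h7 (h7.trans he1) (norm_nonneg _) has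
  have hΔn : ‖Δ‖ ≤ D.L * Real.sqrt d * s + a * s := by
    rw [hΔdef]
    refine (norm_add_le _ _).trans (add_le_add hdiff ?_)
    rw [norm_smul, he, mul_one, Real.norm_eq_abs, abs_of_nonneg (by positivity)]
    linarith
  have hcone := cone he w Δ has (has.trans he1) hperp'
  have hcoef : a * s / 4 + 2 * ‖Δ‖ ≤ D.κ * s := by
    rw [κ, ← haD]
    linarith
  have h8 := mul_le_mul_of_nonneg_right hcoef hq
  have h9 := mul_le_mul_of_nonneg_right hK hq
  rw [hΔ, inner_add_right]
  linarith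

lemma step_edge (η : E d) {s : ℝ} (hs : 0 ≤ s) (hs' : s ≤ 256) (b : Fin d → Fin 2) (w : E d)
    (hp : ¬ D.deep η s) (hc : D.deep (gridPt η (s / 2) b) (s / 2)) :
    ⟪w, D.V η s⟫ - D.Kw η s * qd D.e w ≤
      ⟪w, D.V (gridPt η (s / 2) b) (s / 2)⟫ - D.Kw (gridPt η (s / 2) b) (s / 2) * qd D.e w := by
  have he := D.he
  have hsd := Real.sqrt_nonneg (d : ℝ)
  have hq := qd_nonneg he w
  have hnb : ¬ D.band (gridPt η (s / 2) b) (s / 2) := fun h => h.1 hc
  have hd1 := abs_le.1 (D.dist_child η hs b)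
  have hsds := mul_nonneg hsd hs
  have hAs := mul_nonneg (zero_le_one.trans D.A0_one) hs
  have hb : D.band η s := by
    refine ⟨hp, ?_⟩
    unfold deep at hp hc
    rw [not_le] at hp
    rw [abs_le, Aw]
    constructor <;> linarith [hd1.1, hd1.2]
  unfold V
  rw [if_pos hc, if_neg hp, inner_zero_right]
  unfold deep at hc
  set zc := mid (gridPt η (s / 2) b) (s / 2)
  have hzc : zc ∈ closedBall D.c D.ρ := by
    rw [mem_closedBall]; linarith
  have hFe : 2 * D.a * (s / 2) ≤ ⟪D.e, D.F zc⟫ :=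
    D.hdeep zc hzc (s / 2) (by linarith) (by linarith)
  have ha0 := D.a_pos
  have has : 0 ≤ D.a * s := by positivity
  have hinner : ⟪D.e, D.F zc - (D.a * (s / 2)) • D.e⟫ = ⟪D.e, D.F zc⟫ - D.a * (s / 2) := by
    rw [inner_sub_right, real_inner_smul_right, inner_self_one he, mul_one]
  have hperp' : ‖perp D.e (D.F zc - (D.a * (s / 2)) • D.e)‖ ^ 2 ≤
      (2 * D.C) * ⟪D.e, D.F zc - (D.a * (s / 2)) • D.e⟫ := by
    rw [perp_sub, perp_smul_self he, sub_zero, hinner]
    refine (D.hperp zc hzc).trans ?_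
    have : 0 ≤ D.C * (⟪D.e, D.F zc⟫ - D.a * s) := mul_nonneg D.hC (by linarith)
    linarith
  have hn : ‖D.F zc - (D.a * (s / 2)) • D.e‖ ≤ D.M + 256 * D.a := by
    refine (norm_sub_le _ _).trans (add_le_add (D.hMb zc hzc) ?_)
    rw [norm_smul, he, mul_one, Real.norm_eq_abs, abs_of_nonneg (by positivity)]
    have := mul_le_mul_of_nonneg_left hs' ha0.le
    linarith
  have hcone := cone he w _ (by linarith [D.hC] : 0 ≤ 2 * D.C) (by rw [hinner]; linarith) hperp'
  have hK : (2 * D.C + 2 * ‖D.F zc - (D.a * (s / 2)) • D.e‖) +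
      D.Kw (gridPt η (s / 2) b) (s / 2) ≤ D.Kw η s := by
    unfold Kw
    rw [if_pos hb, if_neg hnb, Ke]
    linarith [mul_nonneg D.κ_nonneg hs]
  have := mul_le_mul_of_nonneg_right hK hq
  linarith

/-- One step down the tree. -/
lemma step (η : E d) {s : ℝ} (hs : 0 ≤ s) (hs' : s ≤ 256) (b : Fin d → Fin 2) (w : E d) :
    ⟪w, D.V η s⟫ - D.Kw η s * qd D.e w ≤
      ⟪w, D.V (gridPt η (s / 2) b) (s / 2)⟫ - D.Kw (gridPt η (s / 2) b) (s / 2) * qd D.e w := by
  by_cases hp : D.deep η s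
  · exact D.step_deep η hs b w hp
  · by_cases hc : D.deep (gridPt η (s / 2) b) (s / 2)
    · exact D.step_edge η hs hs' b w hp hc
    · unfold V
      rw [if_neg hp, if_neg hc, inner_zero_right]
      have h1 := mul_le_mul_of_nonneg_right (D.Kw_child η hs b) (qd_nonneg D.he w)
      have h2 := mul_nonneg (mul_nonneg D.κ_nonneg hs) (qd_nonneg D.he w)
      linarith

/-- The paired values at level `i`. -/
def W (g : E d → E d) (ξ : E d) (i : ℕ) : ℝ :=
  ∑ b : Fin d → Fin (2 ^ i),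
    ⟪boxI g (gridPt ξ (side i) b) (side i), D.V (gridPt ξ (side i) b) (side i)⟫

/-- The functional at level `i`. -/
def T (g : E d → E d) (ξ : E d) (i : ℕ) : ℝ :=
  ∑ b : Fin d → Fin (2 ^ i),
    (⟪boxI g (gridPt ξ (side i) b) (side i), D.V (gridPt ξ (side i) b) (side i)⟫ -
      D.Kw (gridPt ξ (side i) b) (side i) * qd D.e (boxI g (gridPt ξ (side i) b) (side i)))

/-- The loss at level `i`. -/
def P (g : E d → E d) (ξ : E d) (i : ℕ) : ℝ :=
  ∑ b : Fin d → Fin (2 ^ i),
    D.Kw (gridPt ξ (side i) b) (side i) * deficit g (gridPt ξ (side i) b) (side i)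

lemma T_step {g : E d → E d} (hgi : Integrable g) (ξ : E d) (i : ℕ) :
    D.T g ξ i - D.P g ξ i ≤ D.T g ξ (i + 1) := by
  have hs := side_pos i
  unfold T P
  rw [sum_refine ξ i (fun η => ⟪boxI g η (side (i + 1)), D.V η (side (i + 1))⟫ -
    D.Kw η (side (i + 1)) * qd D.e (boxI g η (side (i + 1)))), ← Finset.sum_sub_distrib, side_succ]
  refine Finset.sum_le_sum fun b _ => ?_
  set η := gridPt ξ (side i) b
  have hsum : boxI g η (side i) =
      ∑ b' : Fin d → Fin 2, boxI g (gridPt η (side i / 2) b') (side i / 2) :=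
    setIntegral_split hgi η hs
  have hqsum : ∑ b' : Fin d → Fin 2, qd D.e (boxI g (gridPt η (side i / 2) b') (side i / 2)) =
      qd D.e (boxI g η (side i)) + deficit g η (side i) := by
    simp only [qd, deficit, Finset.sum_sub_distrib]
    rw [← inner_sum, ← hsum]
    ring
  calc _ = ∑ b' : Fin d → Fin 2,
          (⟪boxI g (gridPt η (side i / 2) b') (side i / 2), D.V η (side i)⟫ -
            D.Kw η (side i) * qd D.e (boxI g (gridPt η (side i / 2) b') (side i / 2))) := by
        rw [Finset.sum_sub_distrib, ← sum_inner, ← hsum, ← Finset.mul_sum, hqsum]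
        ring
    _ ≤ _ := Finset.sum_le_sum fun b' _ => D.step η hs.le (side_le i) b' _

lemma not_deep_root (hd : 0 < d) {ξ : E d} (hρ : 0 < D.ρ)
    (hB : closedBall D.c D.ρ ⊆ box ξ S0) : ¬ D.deep ξ S0 := by
  intro h
  set k : Fin d := ⟨0, hd⟩
  have h1 : D.c + EuclideanSpace.single k D.ρ ∈ box ξ S0 := hB (by
    simp [mem_closedBall, abs_of_pos hρ])
  have h2 : D.c - EuclideanSpace.single k D.ρ ∈ box ξ S0 := hB (by
    simp [mem_closedBall, abs_of_pos hρ])
  have h1' := (h1 k).2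
  have h2' := (h2 k).1
  simp [S0] at h1' h2'
  unfold deep at h
  have h3 := D.A0_one
  simp only [S0] at h
  have h4 := dist_nonneg (x := mid ξ (256 : ℝ)) (y := D.c)
  linarith

lemma T_ge (hd : 0 < d) {g : E d → E d} (hgi : Integrable g) {ξ : E d}
    (hroot : boxI g ξ S0 = ‖boxI g ξ S0‖ • D.e) (hρ : 0 < D.ρ)
    (hB : closedBall D.c D.ρ ⊆ box ξ S0) (N : ℕ) :
    -(∑ i ∈ Finset.range N, D.P g ξ i) ≤ D.T g ξ N := by
  induction N with
  | zero =>
    have hq : qd D.e (boxI g ξ S0) = 0 := by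
      rw [qd]
      nth_rw 2 [hroot]
      rw [real_inner_smul_right, inner_self_one D.he, mul_one, sub_self]
    have hV : D.V ξ S0 = 0 := if_neg (D.not_deep_root hd hρ hB)
    have hside : side 0 = S0 := by simp [side]
    simp [T, gridPt_root, hside, hq, hV]
  | succ N ih =>
    rw [Finset.sum_range_succ]
    linarith [D.T_step hgi ξ N]

lemma T_le_W (g : E d → E d) (ξ : E d) (N : ℕ) : D.T g ξ N ≤ D.W g ξ N :=
  Finset.sum_le_sum fun b _ =>
    sub_le_self _ (mul_nonneg (D.Kw_nonneg _ (side_pos N).le) (qd_nonneg D.he _))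

/-- The band used at the leaves. -/
def bandS (N : ℕ) : Set (E d) := {z | |dist z D.c - D.ρ| ≤ (D.Aw + Real.sqrt d) * side N}

lemma measurableSet_bandS (N : ℕ) : MeasurableSet (D.bandS N) :=
  (isClosed_le (by fun_prop) continuous_const).measurableSet

/-- The pointwise error at the leaves. -/
def err (g : E d → E d) (N : ℕ) (z : E d) : ℝ :=
  (D.L * Real.sqrt d + D.a) * side N * ‖g z‖ +
    D.M * (D.bandS N).indicator (fun z => ‖g z‖) z

lemma err_nonneg (g : E d → E d) (N : ℕ) (z : E d) : 0 ≤ D.err g N z := by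
  have := D.a_pos; have := D.hL; have := side_pos N
  exact add_nonneg (by positivity)
    (mul_nonneg D.hM (indicator_nonneg (fun _ _ => norm_nonneg _) _))

lemma leaf_pointwise (g : E d → E d) (η z : E d) (N : ℕ) (hz : z ∈ box η (side N)) :
    ⟪g z, D.V η (side N)⟫ - (closedBall D.c D.ρ).indicator (fun z => ⟪g z, D.F z⟫) z ≤
      D.err g N z := by
  set s := side N with hs'
  have hs : 0 < s := side_pos N
  have hsd := Real.sqrt_nonneg (d : ℝ)
  have hdz : dist z (mid η s) ≤ Real.sqrt d * s := dist_mid_box hs.le hz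
  have hd1 := abs_le.1 ((abs_dist_sub_le z (mid η s) D.c).trans hdz)
  have hsds : 0 ≤ Real.sqrt d * s := mul_nonneg hsd hs.le
  have hind : 0 ≤ D.M * (D.bandS N).indicator (fun z => ‖g z‖) z :=
    mul_nonneg D.hM (indicator_nonneg (fun _ _ => norm_nonneg _) _)
  have ha0 := D.a_pos
  have hg1 : 0 ≤ (D.L * Real.sqrt d + D.a) * s * ‖g z‖ := by
    have := D.hL; positivity
  unfold err
  rw [← hs']
  by_cases hp : D.deep η s
  · have hA := mul_le_mul_of_nonneg_right D.hA0 hs.le
    unfold V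
    rw [if_pos hp]
    unfold deep at hp
    have hzB : z ∈ closedBall D.c D.ρ := by
      rw [mem_closedBall]; linarith
    rw [indicator_of_mem hzB, ← inner_sub_right]
    refine (real_inner_le_norm _ _).trans ?_
    have h2 : ‖D.F (mid η s) - (D.a * s) • D.e - D.F z‖ ≤ (D.L * Real.sqrt d + D.a) * s := by
      rw [sub_right_comm, add_mul]
      refine (norm_sub_le _ _).trans (add_le_add ?_ (le_of_eq ?_))
      · refine (D.hLip _ _).trans ?_
        rw [mul_assoc, dist_comm]
        exact mul_le_mul_of_nonneg_left hdz D.hL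
      · rw [norm_smul, D.he, mul_one, Real.norm_eq_abs, abs_of_nonneg (by positivity)]
    have := mul_le_mul_of_nonneg_left h2 (norm_nonneg (g z))
    linarith
  · unfold V
    rw [if_neg hp, inner_zero_right, zero_sub]
    by_cases hzB : z ∈ closedBall D.c D.ρ
    · rw [indicator_of_mem hzB]
      have hzb : z ∈ D.bandS N := by
        unfold deep at hp
        rw [not_le] at hp
        rw [mem_closedBall] at hzB
        have hA := mul_nonneg (zero_le_one.trans D.A0_one) hs.le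
        simp only [bandS, mem_ofPred_eq, abs_le, Aw, ← hs']
        constructor <;> linarith
      rw [indicator_of_mem hzb]
      have h3 := (abs_le.1 (abs_real_inner_le_norm (g z) (D.F z))).1
      have h4 := mul_le_mul_of_nonneg_left (D.hMb z hzB) (norm_nonneg (g z))
      linarith
    · rw [indicator_of_notMem hzB]
      linarith

lemma W_le {g : E d → E d} (hgi : Integrable g) {ξ : E d}
    (hB : closedBall D.c D.ρ ⊆ box ξ S0) (N : ℕ) :
    D.W g ξ N - ∫ z in closedBall D.c D.ρ, ⟪g z, D.F z⟫ ≤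
      ((D.L * Real.sqrt d + D.a) * side N) * (∫ z, ‖g z‖) +
        D.M * ∫ z in D.bandS N, ‖g z‖ := by
  have hcont : Continuous D.F :=
    (LipschitzWith.of_dist_le_mul (K := ⟨D.L, D.hL⟩) fun x y => by
      rw [dist_eq_norm]; exact D.hLip x y).continuous
  have hui : Integrable ((closedBall D.c D.ρ).indicator fun z => ⟪g z, D.F z⟫) := by
    refine (integrable_indicator_iff isClosed_closedBall.measurableSet).2 ?_
    refine Integrable.mono' (hgi.norm.mul_const D.M).integrableOn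
      ((hgi.1.restrict).inner hcont.aestronglyMeasurable.restrict) ?_
    refine (ae_restrict_iff' isClosed_closedBall.measurableSet).2
      (Eventually.of_forall fun z hz => ?_)
    exact (norm_inner_le_norm _ _).trans (mul_le_mul_of_nonneg_left (D.hMb z hz) (norm_nonneg _))
  have hb := D.measurableSet_bandS N
  have herri : Integrable (D.err g N) :=
    (hgi.norm.const_mul _).add ((hgi.norm.indicator hb).const_mul D.M)
  calc D.W g ξ N - ∫ z in closedBall D.c D.ρ, ⟪g z, D.F z⟫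
      ≤ ∑ b : Fin d → Fin (2 ^ N),
          ∫ z in box (gridPt ξ (side N) b) (side N), D.err g N z := by
        rw [← inter_eq_self_of_subset_right hB,
          ← setIntegral_indicator isClosed_closedBall.measurableSet,
          setIntegral_levels hui ξ N, W, ← Finset.sum_sub_distrib]
        refine Finset.sum_le_sum fun b _ => ?_
        set η := gridPt ξ (side N) b
        set v := D.V η (side N) with hv
        have hiv : Integrable (fun z => ⟪g z, v⟫) := hgi.inner_const v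
        have h1 : ⟪boxI g η (side N), v⟫ = ∫ z in box η (side N), ⟪g z, v⟫ := by
          rw [boxI, real_inner_comm, ← integral_inner hgi.integrableOn v]
          simp only [real_inner_comm v]
        rw [h1, ← integral_sub hiv.integrableOn hui.integrableOn]
        exact setIntegral_mono_on (hiv.sub hui).integrableOn herri.integrableOn
          (measurableSet_box _ _) fun z hz => D.leaf_pointwise g η z N hz
    _ = ∫ z in box ξ S0, D.err g N z := (setIntegral_levels herri ξ N).symm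
    _ ≤ ∫ z, D.err g N z :=
        setIntegral_le_integral herri (Eventually.of_forall fun z => D.err_nonneg g N z)
    _ = _ := by
        simp only [err]
        rw [integral_add (hgi.norm.const_mul _) ((hgi.norm.indicator hb).const_mul D.M),
          integral_const_mul, integral_const_mul, integral_indicator hb]

lemma tendsto_side : Tendsto side atTop (𝓝 0) := by
  have h : side = fun i => 256 * ((2 : ℝ)⁻¹) ^ i := funext fun i => by rw [side_eq, inv_pow]
  rw [h]
  simpa using (tendsto_pow_atTop_nhds_zero_of_lt_one (by norm_num : (0 : ℝ) ≤ 2⁻¹)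
    (by norm_num)).const_mul (256 : ℝ)

lemma tendsto_bandS {g : E d → E d} (hgi : Integrable g) (hρ : 0 < D.ρ) :
    Tendsto (fun N => ∫ z in D.bandS N, ‖g z‖) atTop (𝓝 0) := by
  have hA : 0 ≤ D.Aw + Real.sqrt d := add_nonneg D.Aw_nonneg (Real.sqrt_nonneg _)
  have hanti : Antitone D.bandS := by
    refine antitone_nat_of_succ_le fun N => ?_
    intro z hz
    simp only [bandS, mem_ofPred_eq] at hz ⊢
    refine hz.trans (mul_le_mul_of_nonneg_left ?_ hA)
    rw [side_succ]
    linarith [side_pos N]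
  have h := tendsto_setIntegral_of_antitone (μ := volume) (f := fun z => ‖g z‖)
    D.measurableSet_bandS hanti ⟨0, hgi.norm.integrableOn⟩
  have hsub : (⋂ N, D.bandS N) ⊆ sphere D.c D.ρ := by
    intro z hz
    rw [mem_iInter] at hz
    have h2 : Tendsto (fun N => (D.Aw + Real.sqrt d) * side N) atTop (𝓝 0) := by
      simpa using tendsto_side.const_mul (D.Aw + Real.sqrt d)
    have := ge_of_tendsto' h2 hz
    rw [mem_sphere]
    linarith [abs_nonpos_iff.1 this]
  have hnull : ∫ z in ⋂ N, D.bandS N, ‖g z‖ = 0 :=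
    setIntegral_measure_zero _ (measure_mono_null hsub
      (Measure.addHaar_sphere_of_ne_zero _ D.c hρ.ne'))
  rwa [hnull] at h

lemma P_le {g : E d → E d} (hgi : Integrable g) (ξ : E d) (N : ℕ) :
    ENNReal.ofReal (∑ i ∈ Finset.range N, D.P g ξ i) ≤
      ENNReal.ofReal (2 * D.κ * 256 + D.Ke) *
        ∑' i, levelSum (bandWgt (D.Aw * 256) D.c D.ρ i) g ξ i := by
  have hK0 : ∀ i η, 0 ≤ D.Kw η (side i) * deficit g η (side i) := fun i η =>
    mul_nonneg (D.Kw_nonneg _ (side_pos i).le) (deficit_nonneg hgi _ (side_pos i))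
  rw [ENNReal.ofReal_sum_of_nonneg (f := D.P g ξ) fun i _ => Finset.sum_nonneg fun _ _ => hK0 i _]
  refine le_trans ?_ (mul_le_mul' le_rfl (ENNReal.sum_le_tsum (Finset.range N)))
  rw [Finset.mul_sum]
  refine Finset.sum_le_sum fun i _ => ?_
  unfold P levelSum
  rw [Finset.mul_sum, ENNReal.ofReal_sum_of_nonneg fun b _ => hK0 i _]
  refine Finset.sum_le_sum fun b _ => ?_
  rw [ENNReal.ofReal_mul (D.Kw_nonneg _ (side_pos i).le), ← mul_assoc]
  refine mul_le_mul' ?_ le_rfl
  have hκ := D.κ_nonneg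
  have hKe := D.Ke_nonneg
  have hp : (0 : ℝ) ≤ ((2 : ℝ) ^ i)⁻¹ := by positivity
  have hKf : 0 ≤ 2 * D.κ * 256 + D.Ke := by positivity
  unfold Kw bandWgt
  by_cases hb : D.band (gridPt ξ (side i) b) (side i)
  · have hb' : |dist (mid (gridPt ξ (side i) b) (side i)) D.c - D.ρ| ≤
        D.Aw * 256 * ((2 : ℝ) ^ i)⁻¹ := by
      rw [mul_assoc, ← side_eq]; exact hb.2
    rw [if_pos hb, if_pos hb', ← ENNReal.ofReal_one, ← ENNReal.ofReal_add hp zero_le_one,
      ← ENNReal.ofReal_mul hKf]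
    refine ENNReal.ofReal_le_ofReal ?_
    rw [side_eq]
    linarith [mul_nonneg hκ hp, mul_nonneg hKe hp]
  · rw [if_neg hb, add_zero, mul_add, ← ENNReal.ofReal_mul hKf]
    refine le_add_of_le_of_nonneg (ENNReal.ofReal_le_ofReal ?_) zero_le
    rw [side_eq]
    linarith [mul_nonneg hKe hp]

lemma bound (hd : 0 < d) {g : E d → E d} (hgi : Integrable g) {ξ : E d}
    (hroot : boxI g ξ S0 = ‖boxI g ξ S0‖ • D.e) (hρ : 0 < D.ρ)
    (hB : closedBall D.c D.ρ ⊆ box ξ S0) :
    ENNReal.ofReal (-∫ z in closedBall D.c D.ρ, ⟪g z, D.F z⟫) ≤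
      ENNReal.ofReal (2 * D.κ * 256 + D.Ke) *
        ∑' i, levelSum (bandWgt (D.Aw * 256) D.c D.ρ i) g ξ i := by
  set J := ∫ z in closedBall D.c D.ρ, ⟪g z, D.F z⟫
  set ε : ℕ → ℝ := fun N => ((D.L * Real.sqrt d + D.a) * side N) * (∫ z, ‖g z‖) +
    D.M * ∫ z in D.bandS N, ‖g z‖
  have hεt : Tendsto ε atTop (𝓝 0) := by
    have h := ((tendsto_side.const_mul (D.L * Real.sqrt d + D.a)).mul_const (∫ z, ‖g z‖)).add
      ((D.tendsto_bandS hgi hρ).const_mul D.M)
    rw [mul_zero, zero_mul, mul_zero, add_zero] at h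
    exact h
  refine le_of_tendsto' (f := fun N => ENNReal.ofReal (-J - ε N)) (x := atTop) ?_ fun N => ?_
  · refine ENNReal.tendsto_ofReal ?_
    simpa using hεt.const_sub (-J)
  · refine le_trans (ENNReal.ofReal_le_ofReal ?_) (D.P_le hgi ξ N)
    have h1 := D.T_ge hd hgi hroot hρ hB N
    have h2 := D.T_le_W g ξ N
    have h3 : D.W g ξ N - J ≤ ε N := D.W_le hgi hB N
    linarith

end Data

end Tree

open Vale.Agent.P137.Tree

theorem exists_ball_lower (hd : 0 < d) (L : ℝ≥0) (Mb γ C : ℝ) (hγ : 0 < γ) :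
    ∃ K A : ℝ, 0 ≤ K ∧ 0 ≤ A ∧ ∀ (g : E d → E d), Continuous g → Integrable g →
      ∀ (ξ c e : E d) (ρ : ℝ) (F : E d → E d), ‖e‖ = 1 →
      boxI g ξ S0 = ‖boxI g ξ S0‖ • e → 0 < ρ → closedBall c ρ ⊆ box ξ S0 →
      LipschitzWith L F → (∀ z ∈ closedBall c ρ, ‖F z‖ ≤ Mb) →
      (∀ z ∈ closedBall c ρ, γ * (ρ - dist z c) ≤ ⟪e, F z⟫) →
      (∀ z ∈ closedBall c ρ, ‖F z - ⟪e, F z⟫ • e‖ ^ 2 ≤ C * ⟪e, F z⟫) →
      ENNReal.ofReal (-∫ z in closedBall c ρ, ⟪g z, F z⟫) ≤
        ENNReal.ofReal K * ∑' i, levelSum (bandWgt A c ρ i) g ξ i := by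
  set sd := Real.sqrt d with hsd
  set a : ℝ := 4 * L * sd + 1 with ha
  set A0 : ℝ := max (2 * a / γ) (2 * sd + 1) with hA0
  have hA0γ : 2 * a ≤ γ * A0 := by
    have := (div_le_iff₀ hγ).1 (le_max_left (2 * a / γ) (2 * sd + 1))
    linarith
  have ha0 : 0 ≤ a := by positivity
  have hA00 : 0 ≤ A0 := le_trans (by positivity) (le_max_right (2 * a / γ) (2 * sd + 1))
  refine ⟨2 * (a / 4 + 2 * (L * sd + a)) * 256 + (2 * max C 0 + 2 * (max Mb 0 + 256 * a)),
    (A0 + 2 * sd) * 256, by positivity, by positivity,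
    fun g _ hgi ξ c e ρ F he hroot hρ hB hLip hMb hγF hperp => ?_⟩
  refine Data.bound
    { c := c, e := e, ρ := ρ, F := F, a := a, A0 := A0, L := L, M := max Mb 0, C := max C 0
      he := he
      hL := L.2
      hM := le_max_right _ _
      hC := le_max_right _ _
      hLip := fun x y => by rw [← dist_eq_norm]; exact hLip.dist_le_mul x y
      hMb := fun z hz => (hMb z hz).trans (le_max_left _ _)
      hperp := fun z hz => ?_
      ha := le_rfl
      hA0 := le_max_right _ _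
      hdeep := fun z hz t ht h => ?_ } hd hgi hroot hρ hB
  · refine (hperp z hz).trans (mul_le_mul_of_nonneg_right (le_max_left _ _) ?_)
    refine le_trans (mul_nonneg hγ.le ?_) (hγF z hz)
    linarith [mem_closedBall.1 hz]
  · refine le_trans ?_ (hγF z hz)
    have h1 := mul_le_mul_of_nonneg_right hA0γ ht
    have h2 := mul_le_mul_of_nonneg_left h hγ.le
    linarith

end

end Vale.Agent.P137
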